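import Claimed.Agent.R252.S3c.RadMvContract

/-!
# ROW 252 (S0492), unit S3c (sub-architect helper172), file 4: LOCAL MATCHING OF SCALAR GRAPHS (03 Cor 3.4 = `a02:local-graph-matching`).   CONTRACT   -- KEEP

PAPER-FREE.  (`sh2Good1`, `sh2Good` are in MEASURE form, see `Sheet/Defs`.)  Imports `S3c/MatchDefs` (definitions), `S3c/GoodContract`, `Sheet/AbsContract` (`sh2_cube`, `sh2_K_le`, `sh2_good_rescale`, `sh2_good1_sup`, ..), `S3a/Contract` (`k3a_matching` = two-colour matching in ONE variable, black box).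
Prefix `k3c_`.  The `sorry`s are the leaves `L-252-S3c-M*`: prove IN PLACE, statement verbatim, helpers directly above.  Earlier statements may be cited even if still `sorry`.

EXITS.  `k3c_match` (measures on a box, class `K3cClass`, slack `R^ε`);  `k3c_reduce` + `k3c_core` (ONE scale, explicit `K`, loss `k3cLoss n k p K ≤ C K^c`);  `k3c_match_unit` (normalised density form).

THE REDUCTION TO ONE VARIABLE (no polarisation, no finite set of directions, no linear change of variables).   Unit cube `Q`, `H = F₁ i₁ - F₂ i₂`, `τ = k3cTau n K`.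
 1. the events within `3τ` of `∂Q` have mass `≤ K · 6 n τ ≤ 1/(4K)`   (`k3c_shell`; the total density is `≤ K`).
 2. for an event `u`: `{v ∈ [-τ,τ]ⁿ : |H (u+v)| > m₂}` has at least half of the volume   (`k3c_far`: Remez `sh2_cube` and `‖H‖_Q ≥ 1/K`).
 3. Tonelli in `(u, v)` + pigeonhole: ONE direction `v` such that half of the mass has a far point `u + v`   (`k3c_dir`).
 4. auxiliary time `σ ∈ [0,1/2]`, `w = u - σ (2v)`: Tonelli in `(w, σ)` + translation invariance + pigeonhole: ONE line `σ ↦ w + σ (2v)` carrying mass `≥ 1/(8K)`, with time marginals `≤ K π dσ`   (`k3c_slice`).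
 5. on the line: the event is at `s₀ = 2σ - 1 ∈ [-1,0]`, the far point at `s₀ + 1`; goodness + Taylor give a derivative of order `≤ p+1` of size `≥ η₀` at `s₀` (`k3c_jet_gap`); order `0` is excluded by `|H (u)| ≤ K/R < η₀`.
 6. `k3a_matching (p+1) (p+2)`.
-/

set_option autoImplicit false

namespace Claimed.Agent.R252

open MeasureTheory
open scoped ENNReal

noncomputable section

/-! ## 1. Abstract measure theory      (LEAF L-252-S3c-M1) -/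

/-- pigeonhole.  PLAN: otherwise `f < c` on `S`; `lintegral_strict_mono` for `μ.restrict S` (`≠ 0` by `hS0`; `∫⁻ f ≤ c μ S < ⊤`), `setLIntegral_const`. -/
theorem k3c_exists_ge {α : Type} [MeasurableSpace α] (μ : Measure α) (S : Set α) (hS : MeasurableSet S) (f : α → ℝ≥0∞) (hf : Measurable f) (c : ℝ≥0∞)
    (hc : c ≠ ⊤) (hS0 : μ S ≠ 0) (hSf : μ S ≠ ⊤) (h : c * μ S ≤ ∫⁻ x in S, f x ∂μ) : ∃ x ∈ S, c ≤ f x := by
  by_contra hcon
  push Not at hcon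
  have hle : ∫⁻ x in S, f x ∂μ ≤ c * μ S := by
    rw [← setLIntegral_const]
    exact setLIntegral_mono measurable_const fun x hx => (hcon x hx).le
  have hfi : ∫⁻ x in S, f x ∂μ ≠ ⊤ := ne_top_of_le_ne_top (ENNReal.mul_ne_top hc hSf) hle
  have := setLIntegral_strict_mono hS hS0 measurable_const hfi (Filter.Eventually.of_forall fun x hx => hcon x hx)
  rw [setLIntegral_const] at this
  exact absurd h (not_le.2 this)

/-- **one direction for most of the mass.**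
PLAN.  `g v := ∑ i, ∫⁻ u, {u | u + v ∈ G i}.indicator (ρ i) u` is measurable (`Measurable.lintegral_prod_right'`; the set `{(v,u) | u + v ∈ G i}` is measurable).   Tonelli (`lintegral_lintegral_swap`):
`∫⁻ v in T, g v = ∑ i, ∫⁻ u, ρ i u * volume {v | v ∈ T ∧ u + v ∈ G i} ≥ c * volume T * ∑ i, ∫⁻ u, ρ i u` (pointwise by `h`; where `ρ i u = 0` both sides vanish).   `k3c_exists_ge` with the constant `c * ∑ i, ∫⁻ u, ρ i u`. -/
theorem k3c_dir {n : ℕ} {ι : Type} [Fintype ι] (ρ : ι → (Fin n → ℝ) → ℝ≥0∞) (hρ : ∀ i, Measurable (ρ i)) (G : ι → Set (Fin n → ℝ)) (hG : ∀ i, MeasurableSet (G i))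
    (T : Set (Fin n → ℝ)) (hT : MeasurableSet T) (hT0 : volume T ≠ 0) (hTf : volume T ≠ ⊤) (c : ℝ≥0∞) (hc : c ≠ ⊤) (hfin : ∑ i, ∫⁻ u, ρ i u ≠ ⊤)
    (h : ∀ i u, ρ i u ≠ 0 → c * volume T ≤ volume {v | v ∈ T ∧ u + v ∈ G i}) :
    ∃ v ∈ T, c * ∑ i, ∫⁻ u, ρ i u ≤ ∑ i, ∫⁻ u, {u | u + v ∈ G i}.indicator (ρ i) u := by
  obtain ⟨F, hFdef⟩ : ∃ F : ι → (Fin n → ℝ) × (Fin n → ℝ) → ℝ≥0∞, F = fun i p => {u | u + p.1 ∈ G i}.indicator (ρ i) p.2 := ⟨_, rfl⟩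
  have hFm : ∀ i, Measurable (F i) := fun i => by
    have hs : MeasurableSet {p : (Fin n → ℝ) × (Fin n → ℝ) | p.2 + p.1 ∈ G i} := (measurable_snd.add measurable_fst) (hG i)
    have : F i = {p : (Fin n → ℝ) × (Fin n → ℝ) | p.2 + p.1 ∈ G i}.indicator (fun p => ρ i p.2) := by
      rw [hFdef]
      funext p
      rfl
    rw [this]
    exact ((hρ i).comp measurable_snd).indicator hs
  have hgm : Measurable fun v => ∑ i, ∫⁻ u, F i (v, u) := Finset.measurable_sum _ fun i _ => (hFm i).lintegral_prod_right'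
  have key : (c * ∑ i, ∫⁻ u, ρ i u) * volume T ≤ ∫⁻ v in T, ∑ i, ∫⁻ u, F i (v, u) := by
    rw [lintegral_finsetSum _ (fun i _ => (hFm i).lintegral_prod_right'), Finset.mul_sum, Finset.sum_mul]
    refine Finset.sum_le_sum fun i _ => ?_
    rw [lintegral_lintegral_swap (f := fun v u => F i (v, u)) ((hFm i).aemeasurable)]
    calc c * (∫⁻ u, ρ i u) * volume T = ∫⁻ u, ρ i u * (c * volume T) := by
          rw [lintegral_mul_const _ (hρ i)]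
          ring
      _ ≤ ∫⁻ u, ∫⁻ v in T, F i (v, u) := by
          refine lintegral_mono fun u => ?_
          have hA : MeasurableSet {v | u + v ∈ G i} := (measurable_const.add measurable_id) (hG i)
          have e : ∫⁻ v in T, F i (v, u) = ρ i u * volume {v | v ∈ T ∧ u + v ∈ G i} := by
            have : (fun v => F i (v, u)) = {v | u + v ∈ G i}.indicator (fun _ => ρ i u) := by
              rw [hFdef]
              funext v
              rfl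
            rw [this, lintegral_indicator hA, setLIntegral_const, Measure.restrict_apply hA, Set.inter_comm]
            rfl
          simp only
          rw [e]
          by_cases h0 : ρ i u = 0
          · rw [h0]
            simp
          · gcongr
            exact h i u h0
  obtain ⟨v, hv, hle⟩ := k3c_exists_ge volume T hT _ hgm (c * ∑ i, ∫⁻ u, ρ i u) (ENNReal.mul_ne_top hc hfin) hT0 hTf key
  refine ⟨v, hv, ?_⟩
  rw [hFdef] at hle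
  exact hle

/-- **one line carrying the average mass.**
PLAN.  `g w := ∑ i, ∫⁻ s in I, ρ i (w + s • e)` is measurable.   Tonelli: `∫⁻ w in W, g w = ∑ i, ∫⁻ s in I, ∫⁻ w, W.indicator 1 w * ρ i (w + s • e)`; translation `w = u - s • e` (`lintegral_add_right_eq_self` / `lintegral_sub_right_eq_self`):
`= ∑ i, ∫⁻ s in I, ∫⁻ u, W.indicator 1 (u - s • e) * ρ i u = ∑ i, ∫⁻ s in I, ∫⁻ u, ρ i u` (by `hsupp`) `= volume I * ∑ i, ∫⁻ u, ρ i u =: c`.   So `volume W ≠ 0` (`h0`), `c * volume W ≤ c`;  `k3c_exists_ge`. -/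
theorem k3c_slice {n : ℕ} {ι : Type} [Fintype ι] (ρ : ι → (Fin n → ℝ) → ℝ≥0∞) (hρ : ∀ i, Measurable (ρ i)) (e : Fin n → ℝ) (I : Set ℝ) (hI : MeasurableSet I)
    (W : Set (Fin n → ℝ)) (hW : MeasurableSet W) (hvol : volume W ≤ 1) (hsupp : ∀ i u, ρ i u ≠ 0 → ∀ s ∈ I, u - s • e ∈ W)
    (h0 : volume I * ∑ i, ∫⁻ u, ρ i u ≠ 0) (hfin : volume I * ∑ i, ∫⁻ u, ρ i u ≠ ⊤) :
    ∃ w ∈ W, volume I * ∑ i, ∫⁻ u, ρ i u ≤ ∑ i, ∫⁻ s in I, ρ i (w + s • e) := by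
  have hFm : ∀ i, Measurable fun p : (Fin n → ℝ) × ℝ => ρ i (p.1 + p.2 • e) := fun i =>
    (hρ i).comp (measurable_fst.add (measurable_snd.smul_const e))
  have hgm : Measurable fun w => ∑ i, ∫⁻ s in I, ρ i (w + s • e) :=
    Finset.measurable_sum _ fun i _ => (hFm i).lintegral_prod_right'
  have key : ∫⁻ w in W, ∑ i, ∫⁻ s in I, ρ i (w + s • e) = volume I * ∑ i, ∫⁻ u, ρ i u := by
    rw [lintegral_finsetSum _ (fun i _ => (hFm i).lintegral_prod_right'), Finset.mul_sum]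
    refine Finset.sum_congr rfl fun i _ => ?_
    rw [lintegral_lintegral_swap (f := fun w s => ρ i (w + s • e)) ((hFm i).aemeasurable)]
    have e1 : ∀ s ∈ I, ∫⁻ w in W, ρ i (w + s • e) = ∫⁻ u, ρ i u := fun s hs => by
      rw [← lintegral_indicator hW]
      have e2 : (fun w => W.indicator (fun w => ρ i (w + s • e)) w) = fun w => ρ i (w + s • e) := by
        funext w
        by_cases hw : w ∈ W
        · rw [Set.indicator_of_mem hw]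
        · rw [Set.indicator_of_notMem hw]
          by_contra hne
          apply hw
          have := hsupp i (w + s • e) (fun h => hne h.symm) s hs
          rwa [add_sub_cancel_right] at this
      rw [e2]
      exact lintegral_add_right_eq_self (fun u => ρ i u) (s • e)
    rw [setLIntegral_congr_fun hI e1, setLIntegral_const, mul_comm]
  have hW0 : volume W ≠ 0 := by
    intro hz
    apply h0
    rw [← key, Measure.restrict_eq_zero.2 hz, lintegral_zero_measure]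
  have hWf : volume W ≠ ⊤ := ne_top_of_le_ne_top ENNReal.one_ne_top hvol
  refine k3c_exists_ge volume W hW _ hgm _ hfin hW0 hWf ?_
  rw [key]
  calc (volume I * ∑ i, ∫⁻ u, ρ i u) * volume W ≤ (volume I * ∑ i, ∫⁻ u, ρ i u) * 1 := by gcongr
    _ = _ := mul_one _

/-! ## 2. The cube      (LEAF L-252-S3c-M2) -/

/-- the boundary layer (`Real.volume_Icc_pi`, `measure_diff`; `1 - (1 - 2τ)^n ≤ 2 n τ`: Bernoulli `one_add_mul_le_pow`) -/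
theorem k3c_shell (n : ℕ) (τ : ℝ) (h0 : 0 ≤ τ) (h1 : 2 * τ ≤ 1) :
    volume (Set.Icc (0 : Fin n → ℝ) 1 \ Set.Icc (fun _ => τ) (fun _ => 1 - τ)) ≤ ENNReal.ofReal (2 * n * τ) := by
  have hsub : Set.Icc (fun _ => τ : Fin n → ℝ) (fun _ => 1 - τ) ⊆ Set.Icc (0 : Fin n → ℝ) 1 := by
    intro x hx
    exact ⟨fun i => h0.trans (hx.1 i), fun i => (hx.2 i).trans (by simp [h0])⟩
  have v1 : volume (Set.Icc (0 : Fin n → ℝ) 1) = 1 := by
    rw [Real.volume_Icc_pi]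
    simp
  have v2 : volume (Set.Icc (fun _ => τ : Fin n → ℝ) (fun _ => 1 - τ)) = ENNReal.ofReal ((1 - 2 * τ) ^ n) := by
    rw [Real.volume_Icc_pi]
    simp only [Finset.prod_const, Finset.card_univ, Fintype.card_fin]
    rw [ENNReal.ofReal_pow (by linarith)]
    congr 2
    ring
  rw [measure_sdiff hsub measurableSet_Icc.nullMeasurableSet (by rw [v2]; exact ENNReal.ofReal_ne_top), v1, v2, ← ENNReal.ofReal_one,
    ← ENNReal.ofReal_sub _ (by apply pow_nonneg; linarith)]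
  apply ENNReal.ofReal_le_ofReal
  have hb := one_add_mul_le_pow (a := -(2 * τ)) (by linarith) n
  have : (1 + -(2 * τ)) = 1 - 2 * τ := by ring
  rw [this] at hb
  linarith

/-- **most translates of an interior point are far points.**
PLAN.  `T = Icc (-τ) τ`, `volume T = ofReal ((2τ)^n)`.   `Bad = {v ∈ T | |H (u+v)| ≤ m}`, measurable, `T = Good ∪ Bad`.   If `volume Good < volume T / 2` then `volume Bad ≥ ofReal ((2τ)^n / 2)`;
`E = (fun v => u + v) '' Bad ⊆ Icc 0 1` has the same volume (`measure_preimage_add` / `Measure.IsAddLeftInvariant`);   `sh2_cube n k p 0 K H hH hgood ((2τ)^n/2) m _ E ..` gives `|H| ≤ sh2K .. * m < μ₀` on the cube: contradiction with `hgap`. -/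
theorem k3c_far (n k p : ℕ) (K τ μ₀ m : ℝ) (H : (Fin n → ℝ) → ℝ) (hH : Measurable H) (hgood : sh2Good k p 0 K 0 1 H) (hτ : 0 < τ)
    (u : Fin n → ℝ) (hu : u ∈ Set.Icc (fun _ => τ : Fin n → ℝ) (fun _ => 1 - τ)) (hgap : ∃ u' ∈ Set.Icc (0 : Fin n → ℝ) 1, μ₀ ≤ |H u'|)
    (hm : sh2K n k p K ((2 * τ) ^ n / 2) * m < μ₀) :
    (1 / 2 : ℝ≥0∞) * volume (Set.Icc (fun _ => -τ : Fin n → ℝ) (fun _ => τ))
      ≤ volume {v | v ∈ Set.Icc (fun _ => -τ : Fin n → ℝ) (fun _ => τ) ∧ m < |H (u + v)|} := by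
  by_contra hcon
  rw [not_le] at hcon
  have hX : 0 < (2 * τ) ^ n := by positivity
  have vT : volume (Set.Icc (fun _ => -τ : Fin n → ℝ) (fun _ => τ)) = ENNReal.ofReal ((2 * τ) ^ n) := by
    rw [Real.volume_Icc_pi]
    simp only [Finset.prod_const, Finset.card_univ, Fintype.card_fin]
    rw [ENNReal.ofReal_pow (by positivity)]
    congr 2
    ring
  have half : (1 / 2 : ℝ≥0∞) * ENNReal.ofReal ((2 * τ) ^ n) = ENNReal.ofReal ((2 * τ) ^ n / 2) := by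
    rw [show (2 * τ) ^ n / 2 = 2⁻¹ * (2 * τ) ^ n by ring, ENNReal.ofReal_mul (by norm_num), ENNReal.ofReal_inv_of_pos (by norm_num)]
    simp
  obtain ⟨Bad, hBad⟩ : ∃ Bad : Set (Fin n → ℝ), Bad = {v | v ∈ Set.Icc (fun _ => -τ : Fin n → ℝ) (fun _ => τ) ∧ |H (u + v)| ≤ m} := ⟨_, rfl⟩
  have hB : ENNReal.ofReal ((2 * τ) ^ n / 2) ≤ volume Bad := by
    by_contra hb
    rw [not_le] at hb
    have hcover : Set.Icc (fun _ => -τ : Fin n → ℝ) (fun _ => τ) ⊆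
        {v | v ∈ Set.Icc (fun _ => -τ : Fin n → ℝ) (fun _ => τ) ∧ m < |H (u + v)|} ∪ Bad := by
      intro v hv
      rcases lt_or_ge m |H (u + v)| with h1 | h1
      · exact Or.inl ⟨hv, h1⟩
      · right
        rw [hBad]
        exact ⟨hv, h1⟩
    have h1 := (measure_mono hcover).trans (measure_union_le (μ := volume) _ _)
    have h2 := ENNReal.add_lt_add hcon hb
    rw [vT, half, ← ENNReal.ofReal_add (by positivity) (by positivity), add_halves] at h2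
    rw [vT] at h1
    exact absurd h1 (not_le.2 h2)
  have hE : (fun x => -u + x) ⁻¹' Bad ⊆ Set.Icc (0 : Fin n → ℝ) 1 := by
    intro x hx
    have hx' : -u + x ∈ Bad := hx
    rw [hBad] at hx'
    obtain ⟨⟨h1, h2⟩, -⟩ := hx'
    constructor
    · intro i
      have a1 := h1 i
      have a2 := hu.1 i
      simp only [Pi.add_apply, Pi.neg_apply] at a1
      simp only [Pi.zero_apply]
      linarith
    · intro i
      have a1 := h2 i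
      have a2 := hu.2 i
      simp only [Pi.add_apply, Pi.neg_apply] at a1
      simp only [Pi.one_apply]
      linarith
  have hvol : ENNReal.ofReal ((2 * τ) ^ n / 2) ≤ volume ((fun x => -u + x) ⁻¹' Bad) := by
    rw [measure_preimage_add]
    exact hB
  have hM : ∀ x ∈ (fun x => -u + x) ⁻¹' Bad, |H x| ≤ m := by
    intro x hx
    have hx' : -u + x ∈ Bad := hx
    rw [hBad] at hx'
    have := hx'.2
    rwa [add_neg_cancel_left] at this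
  obtain ⟨u', hu', hμ⟩ := hgap
  have := sh2_cube n k p 0 K H hH hgood ((2 * τ) ^ n / 2) m (by positivity) _ hE hvol hM u' hu'
  linarith

/-! ## 3. The choice of the line      (LEAF L-252-S3c-M3) -/

theorem k3c_tau_facts (n : ℕ) (K : ℝ) (hK : 1 ≤ K) :
    0 < k3cTau n K ∧ 6 * k3cTau n K ≤ 1 ∧ K * (2 * n * (3 * k3cTau n K)) ≤ 1 / (4 * K) := by
  have hK0 : 0 < K := by linarith
  have hn : (0 : ℝ) ≤ n := Nat.cast_nonneg n
  have hK2 : 1 ≤ K ^ 2 := one_le_pow₀ hK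
  unfold k3cTau
  refine ⟨by positivity, ?_, ?_⟩
  · rw [mul_one_div, div_le_one (by positivity)]
    nlinarith
  · have e : K * (2 * n * (3 * (1 / (24 * ((n : ℝ) + 1) * K ^ 2)))) = (n / ((n : ℝ) + 1)) * (1 / (4 * K)) := by
      field_simp
      ring
    rw [e]
    have h1 : (n : ℝ) / ((n : ℝ) + 1) ≤ 1 := by
      rw [div_le_one (by positivity)]
      linarith
    calc (n : ℝ) / ((n : ℝ) + 1) * (1 / (4 * K)) ≤ 1 * (1 / (4 * K)) := by gcongr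
      _ = 1 / (4 * K) := one_mul _

theorem k3c_m2_lt (n k p : ℕ) (K : ℝ) (hK : 1 ≤ K) : sh2K n k p K ((2 * k3cTau n K) ^ n / 2) * k3cM2 n k p K < 1 / K := by
  have hK0 : 0 < K := by linarith
  unfold k3cM2
  obtain ⟨S, hS⟩ : ∃ S, S = sh2K n k p K ((2 * k3cTau n K) ^ n / 2) := ⟨_, rfl⟩
  rw [← hS]
  by_cases h0 : S = 0
  · rw [h0, zero_mul]
    positivity
  · have e : S * (1 / (2 * K * S)) = 1 / (2 * K) := by
      field_simp
    rw [e]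
    exact one_div_lt_one_div_of_lt hK0 (by linarith)

/-- the total density is `≤ K` and vanishes off the unit cube -/
theorem k3c_geom_le {n k p q : ℕ} {d R K : ℝ} {ι₁ ι₂ : Type} [Fintype ι₁] [Fintype ι₂] (X : K3cCfg n ι₁ ι₂) (hK : 0 ≤ K) (hX : X.Ok k p q d R K)
    (Z : Set (Fin n → ℝ)) (hZ : MeasurableSet Z) :
    ∑ i : ι₁ × ι₂, ∫⁻ u, ENNReal.ofReal (Z.indicator (X.ρ i.1 i.2) u) ≤ ENNReal.ofReal K * volume (Set.Icc (0 : Fin n → ℝ) 1 ∩ Z) := by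
  rw [← lintegral_finsetSum _ (fun i _ => ((hX.ρ_meas i.1 i.2).indicator hZ).ennreal_ofReal), ← setLIntegral_const,
    ← lintegral_indicator (measurableSet_Icc.inter hZ)]
  refine lintegral_mono fun u => ?_
  by_cases hu : u ∈ Set.Icc (0 : Fin n → ℝ) 1 ∩ Z
  · rw [Set.indicator_of_mem hu]
    simp only [Set.indicator_of_mem hu.2]
    rw [← ENNReal.ofReal_sum_of_nonneg (fun i _ => hX.ρ_nonneg _ _ _)]
    apply ENNReal.ofReal_le_ofReal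
    rw [Fintype.sum_prod_type]
    calc ∑ i₁, ∑ i₂, X.ρ i₁ i₂ u ≤ ∑ i₁, K * X.π₁ i₁ := Finset.sum_le_sum fun i₁ _ => hX.marg₁ i₁ u
      _ = K * ∑ i₁, X.π₁ i₁ := (Finset.mul_sum _ _ _).symm
      _ ≤ K * 1 := mul_le_mul_of_nonneg_left hX.π₁_sum hK
      _ = K := mul_one K
  · rw [Set.indicator_of_notMem hu]
    refine le_of_eq (Finset.sum_eq_zero fun i _ => ?_)
    by_cases hz : u ∈ Z
    · rw [Set.indicator_of_mem hz, hX.ρ_supp _ _ _ (fun h => hu ⟨h, hz⟩), ENNReal.ofReal_zero]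
    · rw [Set.indicator_of_notMem hz, ENNReal.ofReal_zero]

/-- step 1 of `k3c_core_geom`: the mass of the interior -/
theorem k3c_geom_mass {n k p q : ℕ} {d R K : ℝ} {ι₁ ι₂ : Type} [Fintype ι₁] [Fintype ι₂] (X : K3cCfg n ι₁ ι₂) (hK : 1 ≤ K) (hX : X.Ok k p q d R K)
    (τ : ℝ) (h0 : 0 ≤ τ) (h1 : 2 * τ ≤ 1) (hs : K * (2 * n * τ) ≤ 1 / (4 * K)) :
    ENNReal.ofReal (1 / (2 * K)) ≤ ∑ i : ι₁ × ι₂, ∫⁻ u, ENNReal.ofReal ((Set.Icc (fun _ => τ : Fin n → ℝ) (fun _ => 1 - τ)).indicator (X.ρ i.1 i.2) u) := by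
  have hK0 : 0 < K := by linarith
  obtain ⟨Q, hQ⟩ : ∃ Q : Set (Fin n → ℝ), Q = Set.Icc (fun _ => τ : Fin n → ℝ) (fun _ => 1 - τ) := ⟨_, rfl⟩
  rw [← hQ]
  have hQm : MeasurableSet Q := by
    rw [hQ]
    exact measurableSet_Icc
  have hsplit : ∑ i : ι₁ × ι₂, ∫⁻ u, ENNReal.ofReal (X.ρ i.1 i.2 u)
      = (∑ i : ι₁ × ι₂, ∫⁻ u, ENNReal.ofReal (Q.indicator (X.ρ i.1 i.2) u)) + ∑ i : ι₁ × ι₂, ∫⁻ u, ENNReal.ofReal (Qᶜ.indicator (X.ρ i.1 i.2) u) := by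
    rw [← Finset.sum_add_distrib]
    refine Finset.sum_congr rfl fun i _ => ?_
    rw [← lintegral_add_left ((hX.ρ_meas i.1 i.2).indicator hQm).ennreal_ofReal]
    refine lintegral_congr fun u => ?_
    by_cases hu : u ∈ Q
    · rw [Set.indicator_of_mem hu, Set.indicator_of_notMem (show u ∉ Qᶜ from fun h => h hu), ENNReal.ofReal_zero, add_zero]
    · rw [Set.indicator_of_notMem hu, Set.indicator_of_mem (show u ∈ Qᶜ from hu), ENNReal.ofReal_zero, zero_add]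
  have hout : ∑ i : ι₁ × ι₂, ∫⁻ u, ENNReal.ofReal (Qᶜ.indicator (X.ρ i.1 i.2) u) ≤ ENNReal.ofReal (1 / (4 * K)) := by
    refine (k3c_geom_le X hK0.le hX Qᶜ hQm.compl).trans ?_
    have hv : volume (Set.Icc (0 : Fin n → ℝ) 1 ∩ Qᶜ) ≤ ENNReal.ofReal (2 * n * τ) := by
      rw [hQ]
      exact k3c_shell n τ h0 h1
    calc ENNReal.ofReal K * volume (Set.Icc (0 : Fin n → ℝ) 1 ∩ Qᶜ) ≤ ENNReal.ofReal K * ENNReal.ofReal (2 * n * τ) := by gcongr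
      _ = ENNReal.ofReal (K * (2 * n * τ)) := (ENNReal.ofReal_mul hK0.le).symm
      _ ≤ ENNReal.ofReal (1 / (4 * K)) := ENNReal.ofReal_le_ofReal hs
  have hmass : ENNReal.ofReal (1 / K) ≤ ∑ i : ι₁ × ι₂, ∫⁻ u, ENNReal.ofReal (X.ρ i.1 i.2 u) := by
    rw [Fintype.sum_prod_type]
    exact hX.mass
  rw [hsplit] at hmass
  have h3 : ENNReal.ofReal (1 / K) = ENNReal.ofReal (3 / (4 * K)) + ENNReal.ofReal (1 / (4 * K)) := by
    rw [← ENNReal.ofReal_add (by positivity) (by positivity)]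
    congr 1
    field_simp
    norm_num
  rw [h3] at hmass
  have h4 := hmass.trans (add_le_add_right hout _)
  have h5 := (ENNReal.add_le_add_iff_right ENNReal.ofReal_ne_top).1 h4
  refine le_trans (ENNReal.ofReal_le_ofReal ?_) h5
  rw [div_le_div_iff₀ (by positivity) (by positivity)]
  nlinarith

/-- **steps 1-4 of the header.**
PLAN.  `τ = k3cTau n K` (`0 < τ`, `6 τ ≤ 1`), `m = k3cM2 n k p K`, `Q' = Icc (3τ) (1-3τ)`, index type `ι₁ × ι₂` (`Fintype.sum_prod_type`).   `ρ' (i₁,i₂) u = ofReal (Q'.indicator (X.ρ i₁ i₂) u)`.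
(1) `∑ ∫⁻ ρ' ≥ ofReal (1/K) - ofReal (K 6 n τ) ≥ ofReal (1/(2K))`: the total density `∑∑ X.ρ ≤ ∑ K π₁ ≤ K` vanishes off `Icc 0 1`; `k3c_shell n (3τ)`; `K 6 n τ = n/(4(n+1)K) ≤ 1/(4K)`.   All masses are `≤ K < ⊤`.
(2) `k3c_far n k p K τ (1/K) m (H) ..` for `u ∈ Q' ⊆ Icc τ (1-τ)` with `X.ρ i₁ i₂ u ≠ 0` (`hX.gap`);   `sh2K .. * m ≤ 1/(2K) < 1/K` (`m = 1/(2 K sh2K)`; if `sh2K = 0` the product is `0`).
(3) `k3c_dir ρ' .. (G (i₁,i₂) = {y | m < |F₁ i₁ y - F₂ i₂ y|}) (T = Icc (-τ) τ) (c = 1/2)`: `v ∈ T`, mass of `ρ'' i = {u | u + v ∈ G i}.indicator (ρ' i)` is `≥ ofReal (1/(4K))`.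
(4) `k3c_slice ρ'' .. (e = (2:ℝ) • v) (I = Icc 0 (1/2)) (W = Icc (2τ) (1-2τ))`: `volume I = 1/2`, `volume W ≤ 1`; support: `u ∈ Q'`, `|s 2 v_i| ≤ τ`.   `w ∈ W`;  `x := w + v`:  `x + (2σ - 1) • v = w + σ • (2 • v)`;  `x + s • v = w + (1+s) • v ∈ Icc 0 1` because `|(1+s) v_i| ≤ 2τ`.
(5) drop the indicator of `Q'`:  `ρ'' (i₁,i₂) u ≤ ofReal ((k3cFar X m v i₁ i₂).indicator (X.ρ i₁ i₂) u)` (`lintegral_mono`). -/
theorem k3c_core_geom (n k p q : ℕ) (d R K : ℝ) {ι₁ ι₂ : Type} [Fintype ι₁] [Fintype ι₂] (X : K3cCfg n ι₁ ι₂) (hK : 1 ≤ K) (hX : X.Ok k p q d R K) :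
    ∃ x v : Fin n → ℝ, (∀ s ∈ Set.Icc (-1 : ℝ) 1, x + s • v ∈ Set.Icc (0 : Fin n → ℝ) 1) ∧
      ENNReal.ofReal (1 / (8 * K)) ≤ ∑ i₁, ∑ i₂, ∫⁻ σ in Set.Icc (0 : ℝ) (1 / 2),
        ENNReal.ofReal ((k3cFar X (k3cM2 n k p K) v i₁ i₂).indicator (X.ρ i₁ i₂) (x + (2 * σ - 1) • v)) := by
  have hK0 : 0 < K := by linarith
  obtain ⟨hτ, hτ6, hτs⟩ := k3c_tau_facts n K hK
  have hmlt := k3c_m2_lt n k p K hK
  obtain ⟨τ, hτdef⟩ : ∃ τ, τ = k3cTau n K := ⟨_, rfl⟩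
  rw [← hτdef] at hτ hτ6 hτs hmlt
  obtain ⟨m, hmdef⟩ : ∃ m, m = k3cM2 n k p K := ⟨_, rfl⟩
  rw [← hmdef] at hmlt ⊢
  obtain ⟨Q', hQ'⟩ : ∃ Q' : Set (Fin n → ℝ), Q' = Set.Icc (fun _ => 3 * τ) (fun _ => 1 - 3 * τ) := ⟨_, rfl⟩
  have hQm : MeasurableSet Q' := by
    rw [hQ']
    exact measurableSet_Icc
  obtain ⟨ρ', hρ'⟩ : ∃ ρ' : ι₁ × ι₂ → (Fin n → ℝ) → ℝ≥0∞, ρ' = fun i u => ENNReal.ofReal (Q'.indicator (X.ρ i.1 i.2) u) := ⟨_, rfl⟩
  have hρ'm : ∀ i, Measurable (ρ' i) := fun i => by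
    rw [hρ']
    exact ((hX.ρ_meas _ _).indicator hQm).ennreal_ofReal
  have hA : ENNReal.ofReal (1 / (2 * K)) ≤ ∑ i, ∫⁻ u, ρ' i u := by
    rw [hρ', hQ']
    exact k3c_geom_mass X hK hX (3 * τ) (by positivity) (by linarith) hτs
  have v01 : volume (Set.Icc (0 : Fin n → ℝ) 1) = 1 := by
    rw [Real.volume_Icc_pi]
    simp
  have hAf : ∑ i, ∫⁻ u, ρ' i u ≠ ⊤ := by
    have h1 : ∑ i, ∫⁻ u, ρ' i u ≤ ENNReal.ofReal K * volume (Set.Icc (0 : Fin n → ℝ) 1 ∩ Q') := by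
      rw [hρ']
      exact k3c_geom_le X hK0.le hX Q' hQm
    refine ne_top_of_le_ne_top (ENNReal.mul_ne_top ENNReal.ofReal_ne_top ?_) h1
    exact ne_top_of_le_ne_top (by rw [v01]; exact ENNReal.one_ne_top) (measure_mono Set.inter_subset_left)
  have hρ'ne : ∀ i u, ρ' i u ≠ 0 → u ∈ Q' ∧ X.ρ i.1 i.2 u ≠ 0 := fun i u h => by
    rw [hρ'] at h
    by_cases hu : u ∈ Q'
    · refine ⟨hu, fun h0 => h ?_⟩
      simp only [Set.indicator_of_mem hu, h0, ENNReal.ofReal_zero]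
    · exact absurd (by simp only [Set.indicator_of_notMem hu, ENNReal.ofReal_zero]) h
  obtain ⟨G, hG⟩ : ∃ G : ι₁ × ι₂ → Set (Fin n → ℝ), G = fun i => {y | m < |X.F₁ i.1 y - X.F₂ i.2 y|} := ⟨_, rfl⟩
  have hGm : ∀ i, MeasurableSet (G i) := fun i => by
    rw [hG]
    exact measurableSet_lt measurable_const (measurable_abs.comp ((hX.meas₁ _).sub (hX.meas₂ _)))
  obtain ⟨T, hT⟩ : ∃ T : Set (Fin n → ℝ), T = Set.Icc (fun _ => -τ) (fun _ => τ) := ⟨_, rfl⟩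
  have vT : volume T = ENNReal.ofReal ((2 * τ) ^ n) := by
    rw [hT, Real.volume_Icc_pi]
    simp only [Finset.prod_const, Finset.card_univ, Fintype.card_fin]
    rw [ENNReal.ofReal_pow (by positivity)]
    congr 2
    ring
  have hfar : ∀ i u, ρ' i u ≠ 0 → (1 / 2 : ℝ≥0∞) * volume T ≤ volume {v | v ∈ T ∧ u + v ∈ G i} := fun i u hne => by
    obtain ⟨huQ, hne'⟩ := hρ'ne i u hne
    have huτ : u ∈ Set.Icc (fun _ => τ : Fin n → ℝ) (fun _ => 1 - τ) := by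
      rw [hQ'] at huQ
      refine ⟨fun j => ?_, fun j => ?_⟩
      · have := huQ.1 j
        simp only at this ⊢
        linarith
      · have := huQ.2 j
        simp only at this ⊢
        linarith
    have := k3c_far n k p K τ (1 / K) m (fun u => X.F₁ i.1 u - X.F₂ i.2 u) ((hX.meas₁ _).sub (hX.meas₂ _)) (hX.good _ _) hτ u huτ
      (hX.gap _ _ u hne') hmlt
    rw [hT, hG]
    exact this
  obtain ⟨v, hv, hdir⟩ := k3c_dir ρ' hρ'm G hGm T (by rw [hT]; exact measurableSet_Icc)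
    (by rw [vT]; exact (ENNReal.ofReal_pos.2 (by positivity)).ne') (by rw [vT]; exact ENNReal.ofReal_ne_top) (1 / 2) (by simp) hAf hfar
  have hvabs : ∀ j, |v j| ≤ τ := fun j => by
    rw [hT] at hv
    exact abs_le.2 ⟨hv.1 j, hv.2 j⟩
  obtain ⟨ρ'', hρ''⟩ : ∃ ρ'' : ι₁ × ι₂ → (Fin n → ℝ) → ℝ≥0∞, ρ'' = fun i => {u | u + v ∈ G i}.indicator (ρ' i) := ⟨_, rfl⟩
  have hρ''m : ∀ i, Measurable (ρ'' i) := fun i => by
    rw [hρ'']
    exact (hρ'm i).indicator ((measurable_id.add_const v) (hGm i))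
  have half : ∀ x : ℝ, 0 ≤ x → (1 / 2 : ℝ≥0∞) * ENNReal.ofReal x = ENNReal.ofReal (x / 2) := fun x _ => by
    rw [show x / 2 = 2⁻¹ * x by ring, ENNReal.ofReal_mul (by norm_num), ENNReal.ofReal_inv_of_pos (by norm_num)]
    simp
  have hB : ENNReal.ofReal (1 / (4 * K)) ≤ ∑ i, ∫⁻ u, ρ'' i u := by
    calc ENNReal.ofReal (1 / (4 * K)) = (1 / 2 : ℝ≥0∞) * ENNReal.ofReal (1 / (2 * K)) := by
          rw [half _ (by positivity)]
          congr 1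
          field_simp
          norm_num
      _ ≤ (1 / 2 : ℝ≥0∞) * ∑ i, ∫⁻ u, ρ' i u := by gcongr
      _ ≤ ∑ i, ∫⁻ u, ρ'' i u := by
          rw [hρ'']
          exact hdir
  have hBf : ∑ i, ∫⁻ u, ρ'' i u ≠ ⊤ :=
    ne_top_of_le_ne_top hAf (Finset.sum_le_sum fun i _ => lintegral_mono fun u => by
      rw [hρ'']
      exact Set.indicator_le_self _ _ _)
  have vI : volume (Set.Icc (0 : ℝ) (1 / 2)) = 1 / 2 := by
    rw [Real.volume_Icc, sub_zero, show (1 / 2 : ℝ) = 2⁻¹ by norm_num, ENNReal.ofReal_inv_of_pos (by norm_num)]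
    simp
  have hvolW : volume (Set.Icc (fun _ => 2 * τ : Fin n → ℝ) (fun _ => 1 - 2 * τ)) ≤ 1 := by
    rw [← v01]
    refine measure_mono fun x hx => ⟨fun j => ?_, fun j => ?_⟩
    · have := hx.1 j
      simp only [Pi.zero_apply] at this ⊢
      linarith
    · have := hx.2 j
      simp only [Pi.one_apply] at this ⊢
      linarith
  have hsupp : ∀ i u, ρ'' i u ≠ 0 → ∀ s ∈ Set.Icc (0 : ℝ) (1 / 2), u - s • ((2 : ℝ) • v) ∈ Set.Icc (fun _ => 2 * τ : Fin n → ℝ) (fun _ => 1 - 2 * τ) := by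
    intro i u hne s hs
    have hne' : ρ' i u ≠ 0 := fun h0 => hne (by
      rw [hρ'']
      exact le_antisymm ((Set.indicator_le_self _ _ _).trans h0.le) zero_le)
    have huQ := (hρ'ne i u hne').1
    rw [hQ'] at huQ
    have hb : ∀ j, |s * (2 * v j)| ≤ τ := fun j => by
      rw [abs_mul, abs_mul, abs_of_nonneg hs.1, abs_of_pos (by norm_num : (0 : ℝ) < 2)]
      have := hvabs j
      have h2 := abs_nonneg (v j)
      nlinarith [hs.2]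
    refine ⟨fun j => ?_, fun j => ?_⟩
    · have h1 := huQ.1 j
      have h2 := (abs_le.1 (hb j)).2
      simp only [Pi.sub_apply, Pi.smul_apply, smul_eq_mul] at h1 ⊢
      linarith
    · have h1 := huQ.2 j
      have h2 := (abs_le.1 (hb j)).1
      simp only [Pi.sub_apply, Pi.smul_apply, smul_eq_mul] at h1 ⊢
      linarith
  have h18 : ENNReal.ofReal (1 / (8 * K)) ≤ volume (Set.Icc (0 : ℝ) (1 / 2)) * ∑ i, ∫⁻ u, ρ'' i u := by
    rw [vI]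
    calc ENNReal.ofReal (1 / (8 * K)) = (1 / 2 : ℝ≥0∞) * ENNReal.ofReal (1 / (4 * K)) := by
          rw [half _ (by positivity)]
          congr 1
          field_simp
          norm_num
      _ ≤ (1 / 2 : ℝ≥0∞) * ∑ i, ∫⁻ u, ρ'' i u := by gcongr
  have h0 : volume (Set.Icc (0 : ℝ) (1 / 2)) * ∑ i, ∫⁻ u, ρ'' i u ≠ 0 := by
    intro hz
    rw [hz] at h18
    exact absurd h18 (not_le.2 (ENNReal.ofReal_pos.2 (by positivity)))
  have hfin : volume (Set.Icc (0 : ℝ) (1 / 2)) * ∑ i, ∫⁻ u, ρ'' i u ≠ ⊤ := by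
    rw [vI]
    exact ENNReal.mul_ne_top (by simp) hBf
  obtain ⟨w, hw, hsl⟩ := k3c_slice ρ'' hρ''m ((2 : ℝ) • v) (Set.Icc 0 (1 / 2)) measurableSet_Icc
    (Set.Icc (fun _ => 2 * τ) (fun _ => 1 - 2 * τ)) measurableSet_Icc hvolW hsupp h0 hfin
  refine ⟨w + v, v, fun s hs => ?_, ?_⟩
  · have hb : ∀ j, |(1 + s) * v j| ≤ 2 * τ := fun j => by
      rw [abs_mul, abs_of_nonneg (by linarith [hs.1] : 0 ≤ 1 + s)]
      have := hvabs j
      have h2 := abs_nonneg (v j)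
      nlinarith [hs.1, hs.2]
    refine ⟨fun j => ?_, fun j => ?_⟩
    · have h1 := hw.1 j
      have h2 := (abs_le.1 (hb j)).1
      simp only [Pi.add_apply, Pi.smul_apply, smul_eq_mul, Pi.zero_apply] at h1 ⊢
      linarith
    · have h1 := hw.2 j
      have h2 := (abs_le.1 (hb j)).2
      simp only [Pi.add_apply, Pi.smul_apply, smul_eq_mul, Pi.one_apply] at h1 ⊢
      linarith
  · refine (h18.trans hsl).trans ?_
    rw [Fintype.sum_prod_type]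
    refine Finset.sum_le_sum fun i₁ _ => Finset.sum_le_sum fun i₂ _ => lintegral_mono fun σ => ?_
    have e : w + v + (2 * σ - 1) • v = w + σ • ((2 : ℝ) • v) := by
      funext j
      simp only [Pi.add_apply, Pi.smul_apply, smul_eq_mul]
      ring
    rw [e, hρ'', hρ', hG]
    obtain ⟨z, hz⟩ : ∃ z, z = w + σ • ((2 : ℝ) • v) := ⟨_, rfl⟩
    rw [← hz]
    dsimp only
    by_cases hfz : z ∈ k3cFar X m v i₁ i₂
    · rw [Set.indicator_of_mem hfz, Set.indicator_of_mem (show z ∈ {u | u + v ∈ {y | m < |X.F₁ i₁ y - X.F₂ i₂ y|}} from hfz)]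
      exact ENNReal.ofReal_le_ofReal (Set.indicator_le_self' (fun _ _ => hX.ρ_nonneg _ _ _) _)
    · rw [Set.indicator_of_notMem (show z ∉ {u | u + v ∈ {y | m < |X.F₁ i₁ y - X.F₂ i₂ y|}} from hfz)]
      exact zero_le

/-! ## 4. One variable: jets      (LEAF L-252-S3c-M4) -/

/-- the jet of `σ ↦ h (2σ - 1)` on `[0,1]`   (`k3c_sm_jet`, chain rule `HasDerivAt.comp` with `σ ↦ 2σ - 1`, `HasDerivAt.const_mul`, `.hasDerivWithinAt`; `2^j ≤ 2^(J+1)`) -/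
theorem k3c_line_jet (h : ℝ → ℝ) (hh : k3cSm h) (J : ℕ) (B : ℝ) (hB : ∀ j ≤ J + 1, ∀ t ∈ Set.Icc (-1 : ℝ) 1, |iteratedDeriv j h t| ≤ B) :
    (∀ j ≤ J, ∀ σ ∈ Set.Icc (0 : ℝ) 1, HasDerivWithinAt (fun σ : ℝ => 2 ^ j * iteratedDeriv j h (2 * σ - 1)) (2 ^ (j + 1) * iteratedDeriv (j + 1) h (2 * σ - 1)) (Set.Icc 0 1) σ) ∧
      ∀ j ≤ J + 1, ∀ σ ∈ Set.Icc (0 : ℝ) 1, |2 ^ j * iteratedDeriv j h (2 * σ - 1)| ≤ 2 ^ (J + 1) * B := by
  have hmem : ∀ σ ∈ Set.Icc (0 : ℝ) 1, 2 * σ - 1 ∈ Set.Icc (-1 : ℝ) 1 := fun σ hσ =>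
    ⟨by linarith [hσ.1], by linarith [hσ.2]⟩
  refine ⟨fun j _ σ hσ => ?_, fun j hj σ hσ => ?_⟩
  · have h1 := k3c_sm_jet hh j (2 * σ - 1) (hmem σ hσ)
    have h2 : HasDerivAt (fun σ : ℝ => 2 * σ - 1) 2 σ := by
      simpa using ((hasDerivAt_id σ).const_mul 2).sub_const 1
    have h3 := (h1.comp σ h2).const_mul (2 ^ j)
    refine (h3.congr_deriv ?_).hasDerivWithinAt
    ring
  · rw [abs_mul, abs_of_pos (by positivity : (0 : ℝ) < 2 ^ j)]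
    have hb := hB j hj _ (hmem σ hσ)
    have hB0 : 0 ≤ B := (abs_nonneg _).trans hb
    exact mul_le_mul (pow_le_pow_right₀ one_le_two hj) hb (abs_nonneg _) (by positivity)

/-- Taylor bounds with the factorial, by the fencing theorem -/
theorem k3c_jet_taylor (h : ℝ → ℝ) (hh : k3cSm h) (n : ℕ) (B η δ s₀ : ℝ) (hs₀ : s₀ ∈ Set.Icc (-1 : ℝ) 0) (hδ1 : δ ≤ 1)
    (hB : ∀ t ∈ Set.Icc (-1 : ℝ) 1, |iteratedDeriv n h t| ≤ B) (hη : ∀ j < n, |iteratedDeriv j h s₀| ≤ η) (hη0 : 0 ≤ η) :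
    ∀ r ≤ n, ∀ t ∈ Set.Icc s₀ (s₀ + δ), |iteratedDeriv (n - r) h t| ≤ (r : ℝ) * η + B * (t - s₀) ^ r / (r.factorial : ℝ) := by
  have hsub : ∀ t ∈ Set.Icc s₀ (s₀ + δ), t ∈ Set.Icc (-1 : ℝ) 1 := fun t ht =>
    ⟨hs₀.1.trans ht.1, by linarith [ht.2, hs₀.2]⟩
  intro r
  induction r with
  | zero =>
    intro _ t ht
    simpa using hB t (hsub t ht)
  | succ r ih =>
    intro hr t ht
    have ih' := ih (by omega)
    obtain ⟨j, hj⟩ : ∃ j, n - (r + 1) = j := ⟨_, rfl⟩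
    have hj1 : n - r = j + 1 := by omega
    rw [hj]
    rw [hj1] at ih'
    have hfac : ((r + 1).factorial : ℝ) = ((r : ℝ) + 1) * (r.factorial : ℝ) := by
      rw [Nat.factorial_succ]; push_cast; ring
    have hf0 : (0 : ℝ) < (r.factorial : ℝ) := by exact_mod_cast r.factorial_pos
    have hBd : ∀ x : ℝ, HasDerivAt (fun x : ℝ => η + (r : ℝ) * η * (x - s₀) + B * (x - s₀) ^ (r + 1) / ((r + 1).factorial : ℝ))
        ((r : ℝ) * η + B * (x - s₀) ^ r / (r.factorial : ℝ)) x := by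
      intro x
      have e1 : HasDerivAt (fun x : ℝ => x - s₀) 1 x := (hasDerivAt_id x).sub_const s₀
      have e2 := ((e1.pow (r + 1)).const_mul B).div_const ((r + 1).factorial : ℝ)
      have e3 := ((e1.const_mul ((r : ℝ) * η)).const_add η).add e2
      refine e3.congr_deriv ?_
      rw [hfac]
      have : (r : ℝ) + 1 ≠ 0 := by positivity
      push_cast
      field_simp
    have key := image_norm_le_of_norm_deriv_right_le_deriv_boundary (f := iteratedDeriv j h) (f' := iteratedDeriv (j + 1) h)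
      (a := s₀) (b := s₀ + δ)
      (fun x hx => (k3c_sm_jet hh j x (hsub x hx)).continuousAt.continuousWithinAt)
      (fun x hx => (k3c_sm_jet hh j x (hsub x (Set.Ico_subset_Icc_self hx))).hasDerivWithinAt)
      (B := fun x : ℝ => η + (r : ℝ) * η * (x - s₀) + B * (x - s₀) ^ (r + 1) / ((r + 1).factorial : ℝ))
      (by
        simp only [sub_self, mul_zero, add_zero, Real.norm_eq_abs]
        rw [zero_pow (by omega), mul_zero, zero_div, add_zero]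
        exact hη j (by omega))
      hBd (fun x hx => by
        rw [Real.norm_eq_abs]
        exact ih' x (Set.Ico_subset_Icc_self hx)) ht
    rw [Real.norm_eq_abs] at key
    refine key.trans ?_
    have h1 : (r : ℝ) * η * (t - s₀) ≤ (r : ℝ) * η := by
      have : 0 ≤ (r : ℝ) * η := by positivity
      nlinarith [ht.1, ht.2]
    push_cast
    linarith
/-- **a small jet at `s₀` makes a good function small.**
PLAN.  (i) on `[s₀, s₀ + δ] ⊆ [-1,1]`: `|h^(j)| ≤ (p+2-j) η + B δ^(p+2-j)` for `j ≤ p+2`, downward induction: mean value inequality (`Convex.norm_image_sub_le_of_norm_hasDerivWithin_le` on `Icc s₀ (s₀+δ)`, `k3c_sm_jet`):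
`|h^(j) t| ≤ |h^(j) s₀| + δ sup |h^(j+1)| ≤ η + δ ((p+1-j) η + B δ^(p+1-j))`, `δ ≤ 1`  (`0 ≤ η`, `0 ≤ B` follow from the hypotheses).
(ii) `sh2Good1` is in MEASURE form: `hgood (Icc s₀ (s₀+δ)) (δ/2) ((p+2) η + B δ^(p+2)) .. 0 le_rfl t ht` (`Real.volume_Icc`, `2 * (δ/2) = δ`), `iteratedDeriv_zero`, `(k+1)/(δ/2) = 2 (k+1)/δ`. -/
theorem k3c_jet_lower (k p : ℕ) (h : ℝ → ℝ) (hh : k3cSm h) (K B η δ : ℝ) (hgood : sh2Good1 k p 0 K h)
    (hB : ∀ t ∈ Set.Icc (-1 : ℝ) 1, |iteratedDeriv (p + 2) h t| ≤ B) (s₀ : ℝ) (hs₀ : s₀ ∈ Set.Icc (-1 : ℝ) 0) (hδ : 0 < δ) (hδ1 : δ ≤ 1)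
    (hη : ∀ j ≤ p + 1, |iteratedDeriv j h s₀| ≤ η) :
    ∀ t ∈ Set.Icc (-1 : ℝ) 1, |h t| ≤ K * (2 * ((k : ℝ) + 1) / δ) ^ p * (((p : ℝ) + 2) * η + B * δ ^ (p + 2)) := by
  intro t ht
  have hη0 : 0 ≤ η := (abs_nonneg _).trans (hη 0 (by omega))
  have hB0 : 0 ≤ B := (abs_nonneg _).trans (hB s₀ ⟨hs₀.1, hs₀.2.trans zero_le_one⟩)
  have hT := k3c_jet_taylor h hh (p + 2) B η δ s₀ hs₀ hδ1 hB (fun j hj => hη j (by omega)) hη0 (p + 2) le_rfl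
  have hE : Set.Icc s₀ (s₀ + δ) ⊆ Set.Icc (-1 : ℝ) 1 := fun x hx => ⟨hs₀.1.trans hx.1, by linarith [hx.2, hs₀.2]⟩
  have hvol : ENNReal.ofReal (2 * (δ / 2)) ≤ volume (Set.Icc s₀ (s₀ + δ)) := by
    rw [Real.volume_Icc]
    exact ENNReal.ofReal_le_ofReal (by linarith)
  have := hgood (Set.Icc s₀ (s₀ + δ)) (δ / 2) (((p : ℝ) + 2) * η + B * δ ^ (p + 2)) (by positivity) hE hvol
    (fun x hx => by
      have h1 := hT x hx
      rw [Nat.sub_self, iteratedDeriv_zero] at h1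
      refine h1.trans ?_
      have h2 : (x - s₀) ^ (p + 2) ≤ δ ^ (p + 2) := pow_le_pow_left₀ (by linarith [hx.1]) (by linarith [hx.2]) _
      have hx0 : 0 ≤ (x - s₀) ^ (p + 2) := pow_nonneg (by linarith [hx.1]) _
      have hf1 : (1 : ℝ) ≤ ((p + 2).factorial : ℝ) := by exact_mod_cast (p + 2).factorial_pos
      have h3 : B * (x - s₀) ^ (p + 2) / ((p + 2).factorial : ℝ) ≤ B * δ ^ (p + 2) :=
        (div_le_self (by positivity) hf1).trans (mul_le_mul_of_nonneg_left h2 hB0)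
      push_cast
      linarith) 0 le_rfl t ht
  rw [iteratedDeriv_zero] at this
  have e : ((k : ℝ) + 1) / (δ / 2) = 2 * ((k : ℝ) + 1) / δ := by field_simp
  rwa [e] at this

/-- **the jet of a good function which is not small somewhere is not small anywhere on `[-1,0]`.**
PLAN.  Otherwise `|h^(j) s₀| ≤ η₀ := k3cEta k p K m` for all `j ≤ p+1`.   `κ := 2 (k+1)`, `δ := k3cDel k p K m = m/(4 K² κ^p)`; `m ≤ |h s₁| ≤ 2K` gives `0 < δ ≤ 1/2`.   `k3c_jet_lower` with `B = 2K`, `η = η₀` at `t = s₁`: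
`m ≤ K (κ/δ)^p (p+2) η₀ + K (κ/δ)^p 2K δ^(p+2) = m/2 + 2 K² κ^p δ² = m/2 + (m/2) δ ≤ 3m/4`: contradiction. -/
theorem k3c_jet_gap (k p : ℕ) (h : ℝ → ℝ) (hh : k3cSm h) (K m : ℝ) (hK : 1 ≤ K) (hm : 0 < m) (hgood : sh2Good1 k p 0 K h)
    (hB0 : ∀ t ∈ Set.Icc (-1 : ℝ) 1, |h t| ≤ 2 * K) (hB : ∀ t ∈ Set.Icc (-1 : ℝ) 1, |iteratedDeriv (p + 2) h t| ≤ 2 * K)
    (s₀ s₁ : ℝ) (hs₀ : s₀ ∈ Set.Icc (-1 : ℝ) 0) (hs₁ : s₁ ∈ Set.Icc (-1 : ℝ) 1) (hs : m ≤ |h s₁|) :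
    ∃ j ≤ p + 1, k3cEta k p K m ≤ |iteratedDeriv j h s₀| := by
  by_contra hcon
  push Not at hcon
  have hη : ∀ j ≤ p + 1, |iteratedDeriv j h s₀| ≤ k3cEta k p K m := fun j hj => (hcon j hj).le
  obtain ⟨A, hAdef⟩ : ∃ A : ℝ, A = (2 * ((k : ℝ) + 1)) ^ p := ⟨_, rfl⟩
  have hA : 1 ≤ A := by
    rw [hAdef]; exact one_le_pow₀ (by linarith [(Nat.cast_nonneg k : (0 : ℝ) ≤ k)])
  obtain ⟨δ, hδdef⟩ : ∃ δ : ℝ, δ = k3cDel k p K m := ⟨_, rfl⟩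
  have hK0 : 0 < K := by linarith
  have hA0 : 0 < A := by linarith
  have hδe : δ * (4 * K ^ 2 * A) = m := by
    rw [hδdef, k3cDel, ← hAdef]
    field_simp
  have hm2 : m ≤ 2 * K := hs.trans (hB0 s₁ hs₁)
  have hδ0 : 0 < δ := by
    rw [hδdef, k3cDel]; positivity
  have hδh : δ ≤ 1 / 2 := by
    have h1 : 2 * K ≤ 1 / 2 * (4 * K ^ 2 * A) := by nlinarith [mul_pos hK0 hK0]
    have h2 : δ * (4 * K ^ 2 * A) ≤ 1 / 2 * (4 * K ^ 2 * A) := by rw [hδe]; linarith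
    exact le_of_mul_le_mul_right h2 (by positivity)
  have hηe : k3cEta k p K m * (2 * K * A * ((p : ℝ) + 2)) = m * δ ^ p := by
    rw [k3cEta, ← hAdef, ← hδdef]
    field_simp
  have key := k3c_jet_lower k p h hh K (2 * K) (k3cEta k p K m) δ hgood hB s₀ hs₀ hδ0 (by linarith) hη s₁ hs₁
  have e1 : (2 * ((k : ℝ) + 1) / δ) ^ p = A / δ ^ p := by
    rw [div_pow, hAdef]
  rw [e1] at key
  have hδp : 0 < δ ^ p := by positivity
  have T1 : K * (A / δ ^ p) * (((p : ℝ) + 2) * k3cEta k p K m) = m / 2 := by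
    have : K * (A / δ ^ p) * (((p : ℝ) + 2) * k3cEta k p K m) = (k3cEta k p K m * (2 * K * A * ((p : ℝ) + 2))) / (2 * δ ^ p) := by
      field_simp
    rw [this, hηe]
    field_simp
  have T2 : K * (A / δ ^ p) * (2 * K * δ ^ (p + 2)) ≤ m / 4 := by
    have h1 : K * (A / δ ^ p) * (2 * K * δ ^ (p + 2)) = 2 * K ^ 2 * A * δ ^ 2 := by
      rw [pow_add δ p 2]
      field_simp
    rw [h1]
    have h4 : 2 * K ^ 2 * A * δ ^ 2 = m * δ / 2 := by rw [← hδe]; ring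
    nlinarith
  have : |h s₁| < m := by
    refine key.trans_lt ?_
    rw [mul_add]
    linarith
  linarith

/-! ## 5. The configuration on the line      (LEAF L-252-S3c-M5) -/

/-- restriction to a segment of the box is smooth (`ContDiffAt.comp`, the affine map `s ↦ x + s • v` is smooth: `contDiffAt_const.add (contDiffAt_id.smul contDiffAt_const)`) -/
theorem k3c_smB_line {n : ℕ} {a b : Fin n → ℝ} {F : (Fin n → ℝ) → ℝ} (hF : k3cSmB a b F) (x v : Fin n → ℝ) (hseg : ∀ s ∈ Set.Icc (-1 : ℝ) 1, x + s • v ∈ Set.Icc a b) :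
    k3cSm fun s : ℝ => F (x + s • v) := by
  intro t ht N
  have h1 : ContDiffAt ℝ (N : WithTop ℕ∞) F (x + t • v) := hF _ (hseg t ht) N
  have h2 : ContDiffAt ℝ (N : WithTop ℕ∞) (fun s : ℝ => x + s • v) t := contDiffAt_const.add (contDiffAt_id.smul contDiffAt_const)
  exact h1.comp t h2

theorem k3c_M2_pos (n k p : ℕ) (K : ℝ) (hK : 1 ≤ K) : 0 < k3cM2 n k p K := by
  have hK0 : 0 < K := by linarith
  have hτ : 0 < k3cTau n K := by unfold k3cTau; positivity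
  have hθ : 0 < (2 * k3cTau n K) ^ n / 2 := by positivity
  have hs : 0 < sh2K n k p K ((2 * k3cTau n K) ^ n / 2) := by
    unfold sh2K
    refine Finset.prod_pos fun j _ => ?_
    positivity
  unfold k3cM2
  positivity

theorem k3c_eta_pos (k p : ℕ) (K m : ℝ) (hK : 1 ≤ K) (hm : 0 < m) : 0 < k3cEta k p K m := by
  have hK0 : 0 < K := by linarith
  unfold k3cEta k3cDel
  positivity


theorem k3c_far_meas {n : ℕ} {ι₁ ι₂ : Type} (X : K3cCfg n ι₁ ι₂) (m : ℝ) (v : Fin n → ℝ) (i₁ : ι₁) (i₂ : ι₂)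
    (h1 : Measurable (X.F₁ i₁)) (h2 : Measurable (X.F₂ i₂)) : MeasurableSet (k3cFar X m v i₁ i₂) := by
  unfold k3cFar
  have hs : Measurable fun u : Fin n → ℝ => u + v := measurable_id.add_const v
  exact measurableSet_lt measurable_const (((h1.comp hs).sub (h2.comp hs)).abs)

/-- **steps 5 of the header: the one-variable configuration.**
PLAN.  `L := k3cLoss n k p K = 2^(p+3) K + 1/η₀`, `η₀ = k3cEta k p K m > 0`, `m = k3cM2 n k p K > 0`;  `L ≥ 8K ≥ K`, `1/L ≤ η₀`, `K/R < 1/L` (`hR`; `R > 0`).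
`h₁ i s = X.F₁ i (x + s • v)`, `h₂ i s = X.F₂ i (x + s • v)` (`k3cSm` by `k3c_smB_line`; derivatives of order `≤ p+3` bounded by `K`: `hX.der₁ i x v hseg`).
`Y.g₁ i j σ = 2^j * iteratedDeriv j (h₁ i) (2σ-1)`, same for `g₂`;  `Y.π = X.π`;  `Y.ρ i₁ i₂ σ = (Icc 0 (1/2)).indicator (fun σ => (k3cFar X m v i₁ i₂).indicator (X.ρ i₁ i₂) (x + (2σ-1) • v)) σ`.
`jet`: `k3c_line_jet` with `J = p+2`, `B = K`.   `ρ_meas`: `k3cFar` is measurable (`hX.meas₁/₂`).   `marg`: indicators only decrease, `hX.marg`.   `mass`: `∫ = (∫⁻ ofReal).toReal` (`integral_eq_lintegral_of_nonneg_ae`; the density is `≤ K` on a bounded set), `hmass`, `1/L ≤ 1/(8K)`.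
`close`: `j = 0`: `2^0 * iteratedDeriv 0 = h`; `hX.close`.
`gap`: `Y.ρ ≠ 0` gives `σ ∈ [0,1/2]`, `u = x + (2σ-1) • v` with `X.ρ u ≠ 0` and `m < |H (u + v)|`, `u + v = x + (2σ) • v`.   `k3c_jet_gap k p (h₁ i₁ - h₂ i₂) .. (s₀ = 2σ-1) (s₁ = 2σ)` (goodness: `hX.good i₁ i₂ x v hseg`; bounds `2K` by `iteratedDeriv_sub` and the triangle
inequality): `j ≤ p+1` with `η₀ ≤ |(h₁ - h₂)^(j) s₀|`;  `j ≠ 0` because `|h₁ s₀ - h₂ s₀| ≤ K/R < η₀`;  `2^j ≥ 1`. -/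
theorem k3c_core_line (n k p : ℕ) (d R K : ℝ) {ι₁ ι₂ : Type} [Fintype ι₁] [Fintype ι₂] (X : K3cCfg n ι₁ ι₂) (hK : 1 ≤ K) (hX : X.Ok k p (p + 3) d R K)
    (hR : K * k3cLoss n k p K < R) (x v : Fin n → ℝ) (hseg : ∀ s ∈ Set.Icc (-1 : ℝ) 1, x + s • v ∈ Set.Icc (0 : Fin n → ℝ) 1)
    (hmass : ENNReal.ofReal (1 / (8 * K)) ≤ ∑ i₁, ∑ i₂, ∫⁻ σ in Set.Icc (0 : ℝ) (1 / 2),
      ENNReal.ofReal ((k3cFar X (k3cM2 n k p K) v i₁ i₂).indicator (X.ρ i₁ i₂) (x + (2 * σ - 1) • v))) :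
    ∃ Y : K3aCfg ι₁ ι₂, Y.Ok (p + 1) (p + 2) d R (k3cLoss n k p K) := by
  have hK0 : 0 < K := by linarith
  obtain ⟨m, hmdef⟩ : ∃ m : ℝ, m = k3cM2 n k p K := ⟨_, rfl⟩
  have hm : 0 < m := hmdef ▸ k3c_M2_pos n k p K hK
  obtain ⟨η₀, hηdef⟩ : ∃ η : ℝ, η = k3cEta k p K m := ⟨_, rfl⟩
  have hη : 0 < η₀ := hηdef ▸ k3c_eta_pos k p K m hK hm
  obtain ⟨L, hLdef⟩ : ∃ L : ℝ, L = k3cLoss n k p K := ⟨_, rfl⟩
  have hL : L = 2 ^ (p + 3) * K + 1 / η₀ := by rw [hLdef, hηdef, hmdef]; rfl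
  rw [← hLdef] at hR ⊢
  rw [← hmdef] at hmass
  have h8 : (8 : ℝ) ≤ 2 ^ (p + 3) := by
    have : (2 : ℝ) ^ 3 ≤ 2 ^ (p + 3) := pow_le_pow_right₀ (by norm_num) (by omega)
    linarith
  have hinv : 0 < 1 / η₀ := by positivity
  have hL2 : 2 ^ (p + 3) * K ≤ L := by rw [hL]; linarith
  have hL8 : 8 * K ≤ L := le_trans (by nlinarith) hL2
  have hLK : K ≤ L := by linarith
  have hL0 : 0 < L := by linarith
  have hLη : 1 / L ≤ η₀ := by
    rw [div_le_iff₀ hL0]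
    have : 1 / η₀ ≤ L := by rw [hL]; nlinarith [pow_pos (two_pos : (0:ℝ) < 2) (p + 3)]
    calc (1 : ℝ) = η₀ * (1 / η₀) := by field_simp
      _ ≤ η₀ * L := by gcongr
  have hR0 : 0 < R := lt_trans (by positivity) hR
  have hKR : K / R < 1 / L := by
    rw [div_lt_div_iff₀ hR0 hL0]; linarith
  -- the functions on the line
  set h₁ : ι₁ → ℝ → ℝ := fun i s => X.F₁ i (x + s • v) with hh₁
  set h₂ : ι₂ → ℝ → ℝ := fun i s => X.F₂ i (x + s • v) with hh₂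
  have sm₁ : ∀ i, k3cSm (h₁ i) := fun i => k3c_smB_line (hX.sm₁ i) x v hseg
  have sm₂ : ∀ i, k3cSm (h₂ i) := fun i => k3c_smB_line (hX.sm₂ i) x v hseg
  have der₁ : ∀ i, ∀ j ≤ p + 3, ∀ t ∈ Set.Icc (-1 : ℝ) 1, |iteratedDeriv j (h₁ i) t| ≤ K := fun i => hX.der₁ i x v hseg
  have der₂ : ∀ i, ∀ j ≤ p + 3, ∀ t ∈ Set.Icc (-1 : ℝ) 1, |iteratedDeriv j (h₂ i) t| ≤ K := fun i => hX.der₂ i x v hseg
  set r : ι₁ → ι₂ → ℝ → ℝ := fun i₁ i₂ σ => (k3cFar X m v i₁ i₂).indicator (X.ρ i₁ i₂) (x + (2 * σ - 1) • v) with hr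
  have hline : Measurable fun σ : ℝ => x + (2 * σ - 1) • v := by fun_prop
  have hrm : ∀ i₁ i₂, Measurable (r i₁ i₂) := fun i₁ i₂ =>
    ((hX.ρ_meas i₁ i₂).indicator (k3c_far_meas X m v i₁ i₂ (hX.meas₁ i₁) (hX.meas₂ i₂))).comp hline
  have hr0 : ∀ i₁ i₂ σ, 0 ≤ r i₁ i₂ σ := fun i₁ i₂ σ => Set.indicator_nonneg (fun u _ => hX.ρ_nonneg i₁ i₂ u) _
  have hrle : ∀ i₁ i₂ σ, r i₁ i₂ σ ≤ X.ρ i₁ i₂ (x + (2 * σ - 1) • v) := fun i₁ i₂ σ =>
    Set.indicator_le_self' (fun u _ => hX.ρ_nonneg i₁ i₂ u) _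
  let Y : K3aCfg ι₁ ι₂ :=
    { g₁ := fun i j σ => 2 ^ j * iteratedDeriv j (h₁ i) (2 * σ - 1)
      g₂ := fun i j σ => 2 ^ j * iteratedDeriv j (h₂ i) (2 * σ - 1)
      π₁ := X.π₁
      π₂ := X.π₂
      ρ := fun i₁ i₂ σ => (Set.Icc (0 : ℝ) (1 / 2)).indicator (r i₁ i₂) σ }
  have hY0 : ∀ i₁ i₂ σ, 0 ≤ Y.ρ i₁ i₂ σ := fun i₁ i₂ σ => Set.indicator_nonneg (fun u _ => hr0 i₁ i₂ u) _
  have hYle : ∀ i₁ i₂ σ, Y.ρ i₁ i₂ σ ≤ X.ρ i₁ i₂ (x + (2 * σ - 1) • v) := fun i₁ i₂ σ =>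
    (Set.indicator_le_self' (fun u _ => hr0 i₁ i₂ u) σ).trans (hrle i₁ i₂ σ)
  -- consequences of `Y.ρ ≠ 0`
  have hYne : ∀ i₁ i₂ σ, Y.ρ i₁ i₂ σ ≠ 0 → σ ∈ Set.Icc (0 : ℝ) (1 / 2) ∧ x + (2 * σ - 1) • v ∈ k3cFar X m v i₁ i₂ ∧ X.ρ i₁ i₂ (x + (2 * σ - 1) • v) ≠ 0 := by
    intro i₁ i₂ σ hne
    have a1 : σ ∈ Set.Icc (0 : ℝ) (1 / 2) := by
      by_contra h
      exact hne (Set.indicator_of_notMem h (r i₁ i₂))
    have a2 : r i₁ i₂ σ ≠ 0 := by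
      intro h
      apply hne
      show (Set.Icc (0 : ℝ) (1 / 2)).indicator (r i₁ i₂) σ = 0
      rw [Set.indicator_of_mem a1, h]
    have a3 : x + (2 * σ - 1) • v ∈ k3cFar X m v i₁ i₂ := by
      by_contra h
      exact a2 (Set.indicator_of_notMem h _)
    refine ⟨a1, a3, ?_⟩
    intro h
    apply a2
    show (k3cFar X m v i₁ i₂).indicator (X.ρ i₁ i₂) (x + (2 * σ - 1) • v) = 0
    rw [Set.indicator_of_mem a3, h]
  have hπ1 : ∀ i, X.π₁ i ≤ 1 := fun i =>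
    (Finset.single_le_sum (fun j _ => hX.π₁_nonneg j) (Finset.mem_univ i)).trans hX.π₁_sum
  have hρK : ∀ i₁ i₂ u, X.ρ i₁ i₂ u ≤ K := fun i₁ i₂ u =>
    calc X.ρ i₁ i₂ u ≤ ∑ i₂, X.ρ i₁ i₂ u := Finset.single_le_sum (f := fun i₂ => X.ρ i₁ i₂ u) (fun j _ => hX.ρ_nonneg i₁ j u) (Finset.mem_univ i₂)
      _ ≤ K * X.π₁ i₁ := hX.marg₁ i₁ u
      _ ≤ K * 1 := by gcongr; exact hπ1 i₁
      _ = K := mul_one K
  refine ⟨Y, ?_⟩
  refine
    { card := ?_, jet₁ := ?_, jet₂ := ?_, π₁_nonneg := hX.π₁_nonneg, π₂_nonneg := hX.π₂_nonneg, π₁_sum := hX.π₁_sum, π₂_sum := hX.π₂_sum,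
      ρ_meas := ?_, ρ_nonneg := hY0, ρ_supp := ?_, marg₁ := ?_, marg₂ := ?_, mass := ?_, close := ?_, gap := ?_ }
  · exact hX.card.trans (mul_le_mul_of_nonneg_right hLK (Real.rpow_nonneg hR0.le d))
  · have := fun i => k3c_line_jet (h₁ i) (sm₁ i) (p + 2) K (der₁ i)
    exact ⟨fun i => (this i).1, fun i j hj t ht => ((this i).2 j hj t ht).trans hL2⟩
  · have := fun i => k3c_line_jet (h₂ i) (sm₂ i) (p + 2) K (der₂ i)
    exact ⟨fun i => (this i).1, fun i j hj t ht => ((this i).2 j hj t ht).trans hL2⟩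
  · exact fun i₁ i₂ => (hrm i₁ i₂).indicator measurableSet_Icc
  · intro i₁ i₂ t ht
    have h' : t ∉ Set.Icc (0 : ℝ) (1 / 2) := fun h => ht ⟨h.1, h.2.trans (by norm_num)⟩
    exact Set.indicator_of_notMem h' (r i₁ i₂)
  · intro i₁ t
    calc ∑ i₂, Y.ρ i₁ i₂ t ≤ ∑ i₂, X.ρ i₁ i₂ (x + (2 * t - 1) • v) := Finset.sum_le_sum fun i₂ _ => hYle i₁ i₂ t
      _ ≤ K * X.π₁ i₁ := hX.marg₁ i₁ _
      _ ≤ L * X.π₁ i₁ := mul_le_mul_of_nonneg_right hLK (hX.π₁_nonneg i₁)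
  · intro i₂ t
    calc ∑ i₁, Y.ρ i₁ i₂ t ≤ ∑ i₁, X.ρ i₁ i₂ (x + (2 * t - 1) • v) := Finset.sum_le_sum fun i₁ _ => hYle i₁ i₂ t
      _ ≤ K * X.π₂ i₂ := hX.marg₂ i₂ _
      _ ≤ L * X.π₂ i₂ := mul_le_mul_of_nonneg_right hLK (hX.π₂_nonneg i₂)
  · -- mass
    have e1 : ∀ i₁ i₂, ∫⁻ t in Set.Icc (0 : ℝ) 1, ENNReal.ofReal (Y.ρ i₁ i₂ t) = ∫⁻ σ in Set.Icc (0 : ℝ) (1 / 2), ENNReal.ofReal (r i₁ i₂ σ) := by
      intro i₁ i₂
      have : (fun t => ENNReal.ofReal (Y.ρ i₁ i₂ t)) = (Set.Icc (0 : ℝ) (1 / 2)).indicator fun σ => ENNReal.ofReal (r i₁ i₂ σ) := by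
        funext t
        by_cases ht : t ∈ Set.Icc (0 : ℝ) (1 / 2)
        · rw [Set.indicator_of_mem ht]
          show ENNReal.ofReal ((Set.Icc (0 : ℝ) (1 / 2)).indicator (r i₁ i₂) t) = _
          rw [Set.indicator_of_mem ht]
        · rw [Set.indicator_of_notMem ht]
          show ENNReal.ofReal ((Set.Icc (0 : ℝ) (1 / 2)).indicator (r i₁ i₂) t) = _
          rw [Set.indicator_of_notMem ht, ENNReal.ofReal_zero]
      rw [this, lintegral_indicator measurableSet_Icc, Measure.restrict_restrict measurableSet_Icc]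
      congr 2
      ext t
      constructor
      · exact fun h => h.1
      · exact fun h => ⟨h, h.1, h.2.trans (by norm_num)⟩
    have fin : ∀ i₁ i₂, ∫⁻ t in Set.Icc (0 : ℝ) 1, ENNReal.ofReal (Y.ρ i₁ i₂ t) ≠ ⊤ := by
      intro i₁ i₂
      have : ∫⁻ t in Set.Icc (0 : ℝ) 1, ENNReal.ofReal (Y.ρ i₁ i₂ t) ≤ ∫⁻ _ in Set.Icc (0 : ℝ) 1, ENNReal.ofReal K :=
        lintegral_mono fun t => ENNReal.ofReal_le_ofReal ((hYle i₁ i₂ t).trans (hρK _ _ _))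
      refine ne_top_of_le_ne_top ?_ this
      rw [setLIntegral_const, Real.volume_Icc]
      exact ENNReal.mul_ne_top ENNReal.ofReal_ne_top ENNReal.ofReal_ne_top
    have e2 : ∀ i₁ i₂, ∫ t in Set.Icc (0 : ℝ) 1, Y.ρ i₁ i₂ t = (∫⁻ t in Set.Icc (0 : ℝ) 1, ENNReal.ofReal (Y.ρ i₁ i₂ t)).toReal := by
      intro i₁ i₂
      exact integral_eq_lintegral_of_nonneg_ae (Filter.Eventually.of_forall fun t => hY0 i₁ i₂ t)
        (((hrm i₁ i₂).indicator measurableSet_Icc).aestronglyMeasurable)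
    simp only [e2]
    have e3 : ∑ i₁, ∑ i₂, (∫⁻ t in Set.Icc (0 : ℝ) 1, ENNReal.ofReal (Y.ρ i₁ i₂ t)).toReal
        = (∑ i₁, ∑ i₂, ∫⁻ t in Set.Icc (0 : ℝ) 1, ENNReal.ofReal (Y.ρ i₁ i₂ t)).toReal := by
      rw [ENNReal.toReal_sum (fun i₁ _ => ENNReal.sum_ne_top.2 fun i₂ _ => fin i₁ i₂)]
      refine Finset.sum_congr rfl fun i₁ _ => ?_
      rw [ENNReal.toReal_sum (fun i₂ _ => fin i₁ i₂)]
    rw [e3]
    simp only [e1]
    have ft : ∑ i₁, ∑ i₂, ∫⁻ σ in Set.Icc (0 : ℝ) (1 / 2), ENNReal.ofReal (r i₁ i₂ σ) ≠ ⊤ :=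
      ENNReal.sum_ne_top.2 fun i₁ _ => ENNReal.sum_ne_top.2 fun i₂ _ => (e1 i₁ i₂) ▸ fin i₁ i₂
    have := (ENNReal.ofReal_le_iff_le_toReal ft).1 hmass
    refine le_trans ?_ this
    exact one_div_le_one_div_of_le (by positivity) hL8
  · intro i₁ i₂ t hne
    obtain ⟨_, _, a3⟩ := hYne i₁ i₂ t hne
    have := hX.close i₁ i₂ _ a3
    show |2 ^ 0 * iteratedDeriv 0 (h₁ i₁) (2 * t - 1) - 2 ^ 0 * iteratedDeriv 0 (h₂ i₂) (2 * t - 1)| ≤ L / R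
    rw [iteratedDeriv_zero, iteratedDeriv_zero, pow_zero, one_mul, one_mul]
    exact this.trans (div_le_div_of_nonneg_right hLK hR0.le)
  · intro i₁ i₂ σ hne
    obtain ⟨a1, a2, a3⟩ := hYne i₁ i₂ σ hne
    set H : ℝ → ℝ := fun s => h₁ i₁ s - h₂ i₂ s with hH
    have hHsm : k3cSm H := k3c_sm_sub (sm₁ i₁) (sm₂ i₂)
    have hsub : ∀ j : ℕ, ∀ t ∈ Set.Icc (-1 : ℝ) 1, iteratedDeriv j H t = iteratedDeriv j (h₁ i₁) t - iteratedDeriv j (h₂ i₂) t := fun j t ht =>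
      iteratedDeriv_fun_sub (sm₁ i₁ t ht j) (sm₂ i₂ t ht j)
    have hbd : ∀ j ≤ p + 3, ∀ t ∈ Set.Icc (-1 : ℝ) 1, |iteratedDeriv j H t| ≤ 2 * K := by
      intro j hj t ht
      rw [hsub j t ht]
      calc |iteratedDeriv j (h₁ i₁) t - iteratedDeriv j (h₂ i₂) t| ≤ |iteratedDeriv j (h₁ i₁) t| + |iteratedDeriv j (h₂ i₂) t| := abs_sub _ _
        _ ≤ K + K := add_le_add (der₁ i₁ j hj t ht) (der₂ i₂ j hj t ht)
        _ = 2 * K := by ring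
    have hs₀ : 2 * σ - 1 ∈ Set.Icc (-1 : ℝ) 0 := ⟨by linarith [a1.1], by linarith [a1.2]⟩
    have hs₀' : 2 * σ - 1 ∈ Set.Icc (-1 : ℝ) 1 := ⟨hs₀.1, hs₀.2.trans (by norm_num)⟩
    have hs₁ : 2 * σ ∈ Set.Icc (-1 : ℝ) 1 := ⟨by linarith [a1.1], by linarith [a1.2]⟩
    have hfar : m ≤ |H (2 * σ)| := by
      have : m < |X.F₁ i₁ (x + (2 * σ - 1) • v + v) - X.F₂ i₂ (x + (2 * σ - 1) • v + v)| := a2
      have e : x + (2 * σ - 1) • v + v = x + (2 * σ) • v := by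
        rw [sub_smul, one_smul]; abel
      rw [e] at this
      exact this.le
    obtain ⟨j, hj, hjη⟩ := k3c_jet_gap k p H hHsm K m hK hm (hX.good i₁ i₂ x v hseg)
      (fun t ht => by have := hbd 0 (by omega) t ht; rwa [iteratedDeriv_zero] at this) (hbd (p + 2) (by omega)) (2 * σ - 1) (2 * σ) hs₀ hs₁ hfar
    rw [← hηdef] at hjη
    have hj0 : j ≠ 0 := by
      rintro rfl
      rw [iteratedDeriv_zero] at hjη
      have := hX.close i₁ i₂ _ a3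
      have h3 : |H (2 * σ - 1)| ≤ K / R := this
      linarith
    refine ⟨j, Nat.one_le_iff_ne_zero.2 hj0, hj, ?_⟩
    show 1 / L ≤ |2 ^ j * iteratedDeriv j (h₁ i₁) (2 * σ - 1) - 2 ^ j * iteratedDeriv j (h₂ i₂) (2 * σ - 1)|
    rw [← mul_sub, ← hsub j _ hs₀', abs_mul, abs_of_pos (by positivity : (0 : ℝ) < 2 ^ j)]
    have h1 : (1 : ℝ) ≤ 2 ^ j := one_le_pow₀ (by norm_num)
    calc 1 / L ≤ η₀ := hLη
      _ ≤ |iteratedDeriv j H (2 * σ - 1)| := hjη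
      _ = 1 * |iteratedDeriv j H (2 * σ - 1)| := (one_mul _).symm
      _ ≤ 2 ^ j * |iteratedDeriv j H (2 * σ - 1)| := by gcongr

/-- **CORE (one scale, explicit slack): reduction of the local matching in `n` variables to the two-colour matching in one variable.** -/
theorem k3c_core (n k p : ℕ) (d R K : ℝ) {ι₁ ι₂ : Type} [Fintype ι₁] [Fintype ι₂] (X : K3cCfg n ι₁ ι₂) (hK : 1 ≤ K) (hX : X.Ok k p (p + 3) d R K)
    (hR : K * k3cLoss n k p K < R) : ∃ Y : K3aCfg ι₁ ι₂, Y.Ok (p + 1) (p + 2) d R (k3cLoss n k p K) := by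
  obtain ⟨x, v, hseg, hmass⟩ := k3c_core_geom n k p (p + 3) d R K X hK hX
  exact k3c_core_line n k p d R K X hK hX hR x v hseg hmass

/-! ## 6. Exponents      (LEAF L-252-S3c-M6) -/

/-- polynomially bounded nonnegative functions of the slack -/
def k3cPB (f : ℝ → ℝ) : Prop := ∃ (c : ℕ) (C : ℝ), 1 ≤ C ∧ ∀ K : ℝ, 1 ≤ K → 0 ≤ f K ∧ f K ≤ C * K ^ c

theorem k3c_pb_const (a : ℝ) (ha : 0 ≤ a) : k3cPB fun _ => a :=
  ⟨0, max 1 a, le_max_left _ _, fun K _ => ⟨ha, by rw [pow_zero, mul_one]; exact le_max_right _ _⟩⟩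

theorem k3c_pb_id : k3cPB fun K => K :=
  ⟨1, 1, le_rfl, fun K hK => ⟨by linarith, by rw [pow_one, one_mul]⟩⟩

theorem k3c_pb_mul {f g : ℝ → ℝ} (hf : k3cPB f) (hg : k3cPB g) : k3cPB fun K => f K * g K := by
  obtain ⟨c₁, C₁, h1, hf⟩ := hf
  obtain ⟨c₂, C₂, h2, hg⟩ := hg
  refine ⟨c₁ + c₂, C₁ * C₂, by nlinarith, fun K hK => ⟨mul_nonneg (hf K hK).1 (hg K hK).1, ?_⟩⟩
  calc f K * g K ≤ (C₁ * K ^ c₁) * (C₂ * K ^ c₂) := mul_le_mul (hf K hK).2 (hg K hK).2 (hg K hK).1 ((hf K hK).1.trans (hf K hK).2)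
    _ = C₁ * C₂ * K ^ (c₁ + c₂) := by rw [pow_add]; ring

theorem k3c_pb_add {f g : ℝ → ℝ} (hf : k3cPB f) (hg : k3cPB g) : k3cPB fun K => f K + g K := by
  obtain ⟨c₁, C₁, h1, hf⟩ := hf
  obtain ⟨c₂, C₂, h2, hg⟩ := hg
  refine ⟨c₁ + c₂, C₁ + C₂, by linarith, fun K hK => ⟨add_nonneg (hf K hK).1 (hg K hK).1, ?_⟩⟩
  have e1 : K ^ c₁ ≤ K ^ (c₁ + c₂) := pow_le_pow_right₀ hK (by omega)
  have e2 : K ^ c₂ ≤ K ^ (c₁ + c₂) := pow_le_pow_right₀ hK (by omega)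
  calc f K + g K ≤ C₁ * K ^ c₁ + C₂ * K ^ c₂ := add_le_add (hf K hK).2 (hg K hK).2
    _ ≤ C₁ * K ^ (c₁ + c₂) + C₂ * K ^ (c₁ + c₂) :=
      add_le_add (mul_le_mul_of_nonneg_left e1 (by linarith)) (mul_le_mul_of_nonneg_left e2 (by linarith))
    _ = (C₁ + C₂) * K ^ (c₁ + c₂) := by ring

theorem k3c_pb_pow {f : ℝ → ℝ} (hf : k3cPB f) (N : ℕ) : k3cPB fun K => f K ^ N := by
  induction N with
  | zero => simpa using k3c_pb_const 1 zero_le_one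
  | succ N ih => simpa only [pow_succ] using k3c_pb_mul ih hf

theorem k3c_pb_le {f g : ℝ → ℝ} (hg : k3cPB g) (h : ∀ K : ℝ, 1 ≤ K → 0 ≤ f K ∧ f K ≤ g K) : k3cPB f := by
  obtain ⟨c, C, h1, hg⟩ := hg
  exact ⟨c, C, h1, fun K hK => ⟨(h K hK).1, (h K hK).2.trans (hg K hK).2⟩⟩

theorem k3c_pb_sh2K (n k p : ℕ) : k3cPB fun K => sh2K n k p K ((2 * k3cTau n K) ^ n / 2) := by
  have hk : (0 : ℝ) ≤ (((k : ℝ) + 1) * 2 ^ n) ^ p := by positivity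
  have hn : (0 : ℝ) ≤ 12 * ((n : ℝ) + 1) := by positivity
  have hg : k3cPB fun K : ℝ => (K * (((k : ℝ) + 1) * 2 ^ n) ^ p) ^ n * (2 * (12 * ((n : ℝ) + 1) * K ^ 2) ^ n) ^ (p * n) :=
    k3c_pb_mul (k3c_pb_pow (k3c_pb_mul k3c_pb_id (k3c_pb_const _ hk)) n)
      (k3c_pb_pow (k3c_pb_mul (k3c_pb_const 2 zero_le_two) (k3c_pb_pow (k3c_pb_mul (k3c_pb_const _ hn) (k3c_pb_pow k3c_pb_id 2)) n)) (p * n))
  refine k3c_pb_le hg fun K hK => ?_
  have hK0 : 0 < K := by linarith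
  have e : 2 * k3cTau n K = (12 * ((n : ℝ) + 1) * K ^ 2)⁻¹ := by
    unfold k3cTau
    field_simp
    ring
  have hθ : 0 < (2 * k3cTau n K) ^ n / 2 := by
    rw [e]
    positivity
  have e2 : ((2 * k3cTau n K) ^ n / 2)⁻¹ = 2 * (12 * ((n : ℝ) + 1) * K ^ 2) ^ n := by
    rw [e, inv_div, inv_pow, div_inv_eq_mul]
  refine ⟨sh2_K_nonneg n k p K _ hK0.le hθ, ?_⟩
  have := sh2_K_le n k p K _ hK0.le hθ
  rwa [e2] at this

theorem k3c_loss_eq (n k p : ℕ) (K : ℝ) : k3cLoss n k p K = 2 ^ (p + 3) * K +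
    2 * K * (2 * ((k : ℝ) + 1)) ^ p * ((p : ℝ) + 2) * ((2 * K * sh2K n k p K ((2 * k3cTau n K) ^ n / 2)) *
      (4 * K ^ 2 * (2 * ((k : ℝ) + 1)) ^ p * (2 * K * sh2K n k p K ((2 * k3cTau n K) ^ n / 2))) ^ p) := by
  unfold k3cLoss k3cEta k3cDel k3cM2
  obtain ⟨s, hs⟩ : ∃ s, s = 2 * K * sh2K n k p K ((2 * k3cTau n K) ^ n / 2) := ⟨_, rfl⟩
  rw [← hs]
  congr 1
  rw [one_div_div, div_eq_mul_inv, mul_inv, ← inv_pow, one_div, inv_inv, inv_div, div_inv_eq_mul]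

/-- the loss is polynomial in `K`.
PLAN.  `θ = (2τ)^n/2`, `τ = 1/(24 (n+1) K²)`: `θ⁻¹ = 2 (12 (n+1) K²)^n`.   `sh2_K_le n k p K θ`: `sh2K ≤ (K ((k+1) 2^n)^p)^n θ⁻¹^(p n) ≤ C₁ K^(c₁)`.   `1/m = 2 K sh2K`;  `1/δ = 4 K² (2(k+1))^p / m`;  `1/η₀ = 2 K (2(k+1))^p (p+2) (1/m) (1/δ)^p`.
Products of bounds `C_i K^(c_i)` (`K ≥ 1`). -/
theorem k3c_loss_le (n k p : ℕ) : ∃ (c : ℕ) (C : ℝ), 1 ≤ C ∧ ∀ K : ℝ, 1 ≤ K → k3cLoss n k p K ≤ C * K ^ c := by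
  have hk : (0 : ℝ) ≤ (2 * ((k : ℝ) + 1)) ^ p := by positivity
  have hp : (0 : ℝ) ≤ (p : ℝ) + 2 := by positivity
  have h2 : k3cPB fun _ : ℝ => (2 : ℝ) := k3c_pb_const 2 zero_le_two
  have hs : k3cPB fun K : ℝ => 2 * K * sh2K n k p K ((2 * k3cTau n K) ^ n / 2) := k3c_pb_mul (k3c_pb_mul h2 k3c_pb_id) (k3c_pb_sh2K n k p)
  have hall : k3cPB fun K : ℝ => 2 ^ (p + 3) * K +
    2 * K * (2 * ((k : ℝ) + 1)) ^ p * ((p : ℝ) + 2) * ((2 * K * sh2K n k p K ((2 * k3cTau n K) ^ n / 2)) *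
      (4 * K ^ 2 * (2 * ((k : ℝ) + 1)) ^ p * (2 * K * sh2K n k p K ((2 * k3cTau n K) ^ n / 2))) ^ p) :=
    k3c_pb_add (k3c_pb_mul (k3c_pb_const _ (by positivity)) k3c_pb_id)
      (k3c_pb_mul (k3c_pb_mul (k3c_pb_mul (k3c_pb_mul h2 k3c_pb_id) (k3c_pb_const _ hk)) (k3c_pb_const _ hp))
        (k3c_pb_mul hs (k3c_pb_pow (k3c_pb_mul (k3c_pb_mul (k3c_pb_mul (k3c_pb_const 4 (by norm_num)) (k3c_pb_pow k3c_pb_id 2)) (k3c_pb_const _ hk)) hs) p)))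
  obtain ⟨c, C, hC, h⟩ := hall
  exact ⟨c, C, hC, fun K hK => by rw [k3c_loss_eq]; exact (h K hK).2⟩

/-- the hypotheses of the one-variable lemma are monotone in the slack -/
theorem k3c_k3a_mono {ι₁ ι₂ : Type} [Fintype ι₁] [Fintype ι₂] (Y : K3aCfg ι₁ ι₂) (D J : ℕ) (d N K K' : ℝ) (hN : 0 < N) (hK : 0 < K) (hKK : K ≤ K')
    (h : Y.Ok D J d N K) : Y.Ok D J d N K' := by
  have hinv : 1 / K' ≤ 1 / K := one_div_le_one_div_of_le hK hKK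
  exact
  { card := h.card.trans (mul_le_mul_of_nonneg_right hKK (Real.rpow_nonneg hN.le d))
    jet₁ := ⟨h.jet₁.der, fun i j hj t ht => (h.jet₁.bd i j hj t ht).trans hKK⟩
    jet₂ := ⟨h.jet₂.der, fun i j hj t ht => (h.jet₂.bd i j hj t ht).trans hKK⟩
    π₁_nonneg := h.π₁_nonneg
    π₂_nonneg := h.π₂_nonneg
    π₁_sum := h.π₁_sum
    π₂_sum := h.π₂_sum
    ρ_meas := h.ρ_meas
    ρ_nonneg := h.ρ_nonneg
    ρ_supp := h.ρ_supp
    marg₁ := fun i₁ t => (h.marg₁ i₁ t).trans (mul_le_mul_of_nonneg_right hKK (h.π₁_nonneg i₁))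
    marg₂ := fun i₂ t => (h.marg₂ i₂ t).trans (mul_le_mul_of_nonneg_right hKK (h.π₂_nonneg i₂))
    mass := hinv.trans h.mass
    close := fun i₁ i₂ t ht => (h.close i₁ i₂ t ht).trans (div_le_div_of_nonneg_right hKK hN.le)
    gap := fun i₁ i₂ t ht => by
      obtain ⟨j, h1, h2, h3⟩ := h.gap i₁ i₂ t ht
      exact ⟨j, h1, h2, hinv.trans h3⟩ }

/-- **EXIT (normalised density form).**
PLAN.  `k3a_matching (p+1) (p+2) _ _ d₀ hd`: `ε'`, `N₁`.   `k3c_loss_le n k p`: `c`, `C`.   `ε := min ε' (1/2) / (2 (c + 1))`.   `R₁ := max (max N₁ 2) (C^(2/min ε' (1/2)))`-like so that for `R ≥ R₁`, `K = R^ε`: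
`C K^c = C R^(cε) ≤ R^(ε')` and `K C K^c < R`.   `k3c_core` gives `Y.Ok .. (k3cLoss ..)`, `k3c_k3a_mono` raises the slack to `R^ε'`: contradiction. -/
theorem k3c_match_unit (n k p : ℕ) (d₀ : ℝ) (hd : d₀ < 1) : ∃ ε : ℝ, 0 < ε ∧ ∃ R₁ : ℝ, ∀ R ≥ R₁, ∀ (ι₁ ι₂ : Type) [Fintype ι₁] [Fintype ι₂] (X : K3cCfg n ι₁ ι₂),
    ¬ X.Ok k p (p + 3) d₀ R (R ^ ε) := by
  obtain ⟨ε', hε', N₁, hN⟩ := k3a_matching (p + 1) (p + 2) (by omega) (by omega) d₀ hd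
  obtain ⟨c, C, hC, hloss⟩ := k3c_loss_le n k p
  obtain ⟨e, he⟩ : ∃ e : ℝ, e = min ε' (1 / 2) := ⟨_, rfl⟩
  have he0 : 0 < e := he ▸ lt_min hε' (by norm_num)
  have he1 : e ≤ ε' := he ▸ min_le_left _ _
  have he2 : e ≤ 1 / 2 := he ▸ min_le_right _ _
  have hc0 : (0 : ℝ) < 2 * ((c : ℝ) + 1) := by positivity
  refine ⟨e / (2 * ((c : ℝ) + 1)), by positivity, max (max N₁ 2) (C ^ (2 / e)), fun R hR ι₁ ι₂ _ _ X hX => ?_⟩
  have hRN : N₁ ≤ R := ((le_max_left _ _).trans (le_max_left _ _)).trans hR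
  have hR2 : 2 ≤ R := ((le_max_right _ _).trans (le_max_left _ _)).trans hR
  have hRC : C ^ (2 / e) ≤ R := (le_max_right _ _).trans hR
  have hR0 : 0 < R := by linarith
  have hR1 : 1 ≤ R := by linarith
  obtain ⟨ε, hε⟩ : ∃ ε : ℝ, ε = e / (2 * ((c : ℝ) + 1)) := ⟨_, rfl⟩
  rw [← hε] at hX
  have hε0 : 0 < ε := by rw [hε]; positivity
  have hεc : ε * ((c : ℝ) + 1) = e / 2 := by rw [hε]; field_simp
  obtain ⟨K, hKdef⟩ : ∃ K : ℝ, K = R ^ ε := ⟨_, rfl⟩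
  rw [← hKdef] at hX
  have hK : 1 ≤ K := hKdef ▸ Real.one_le_rpow hR1 hε0.le
  have hK0 : 0 < K := by linarith
  have hCR : C ≤ R ^ (e / 2) := by
    have h1 : (C ^ (2 / e)) ^ (e / 2) ≤ R ^ (e / 2) := Real.rpow_le_rpow (Real.rpow_nonneg (by linarith) _) hRC (by positivity)
    rw [← Real.rpow_mul (by linarith)] at h1
    have : 2 / e * (e / 2) = 1 := by field_simp
    rwa [this, Real.rpow_one] at h1
  have hKc : K * K ^ c = R ^ (e / 2) := by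
    rw [← pow_succ', hKdef, ← Real.rpow_natCast, ← Real.rpow_mul hR0.le]
    congr 1
    rw [← hεc]
    push_cast
    ring
  have hKc' : K ^ c ≤ R ^ (e / 2) := by
    rw [← hKc]
    exact le_mul_of_one_le_left (by positivity) hK
  have hRe : R ^ (e / 2) * R ^ (e / 2) = R ^ e := by
    rw [← Real.rpow_add hR0]
    congr 1
    ring
  have hpos : 0 < R ^ (e / 2) := Real.rpow_pos_of_pos hR0 _
  have hL := hloss K hK
  have hL1 : k3cLoss n k p K ≤ R ^ ε' := by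
    calc k3cLoss n k p K ≤ C * K ^ c := hL
      _ ≤ R ^ (e / 2) * R ^ (e / 2) := mul_le_mul hCR hKc' (by positivity) hpos.le
      _ = R ^ e := hRe
      _ ≤ R ^ ε' := Real.rpow_le_rpow_of_exponent_le hR1 he1
  have hL2 : K * k3cLoss n k p K < R := by
    calc K * k3cLoss n k p K ≤ K * (C * K ^ c) := mul_le_mul_of_nonneg_left hL hK0.le
      _ = C * (K * K ^ c) := by ring
      _ ≤ R ^ (e / 2) * R ^ (e / 2) := by rw [hKc]; exact mul_le_mul_of_nonneg_right hCR hpos.le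
      _ = R ^ e := hRe
      _ ≤ R ^ (1 / 2 : ℝ) := Real.rpow_le_rpow_of_exponent_le hR1 he2
      _ < R ^ (1 : ℝ) := Real.rpow_lt_rpow_of_exponent_lt (by linarith) (by norm_num)
      _ = R := Real.rpow_one R
  have hL0 : 0 < k3cLoss n k p K := by
    have h1 := k3c_eta_pos k p K _ hK (k3c_M2_pos n k p K hK)
    unfold k3cLoss
    positivity
  obtain ⟨Y, hY⟩ := k3c_core n k p d₀ R K X hK hX hL2
  exact hN R hRN ι₁ ι₂ Y (k3c_k3a_mono Y _ _ d₀ R _ _ hR0 hL0 hL1 hY)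

/-! ## 7. From measures on a box to the normalised density form      (LEAVES L-252-S3c-M7, M8) -/

/-- **LEAF M7: pointwise densities.**
PLAN.  `pr i₁ i₂ ≤ ∑ i₂, pr i₁ i₂ ≤ c • μ.restrict B`, so `pr i₁ i₂ ≪ μ` and it is finite on.. (σ-finite: `pr ≤ c • μ`); `r i₁ i₂ := (pr i₁ i₂).rnDeriv μ` (measurable, `Measure.withDensity_rnDeriv_eq`).
A.e. (`μ`): `∑ i₂, r i₁ i₂ u ≤ B.indicator (fun _ => ofReal (c₁ i₁)) u` (densities of `∑ pr ≤ c • μ.restrict B`: `withDensity` of both sides, `ae_le_of_forall_setLIntegral_le_of_sigmaFinite` or `Measure.rnDeriv_le..`), the same for the second colour,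
and `r i₁ i₂ u ≠ 0 → u ∈ E i₁ i₂` (`ae_withDensity_iff`).   Let `Gd` be a MEASURABLE set of full measure on which all these (finitely many) statements hold (the sets are measurable: take the set itself).
`ρ i₁ i₂ u := Gd.indicator (fun u => (r i₁ i₂ u).toReal) u`. -/
theorem k3c_density {α : Type} [MeasurableSpace α] (μ : Measure α) [SigmaFinite μ] {ι₁ ι₂ : Type} [Fintype ι₁] [Fintype ι₂] (pr : ι₁ → ι₂ → Measure α)
    (c₁ : ι₁ → ℝ) (c₂ : ι₂ → ℝ) (hc₁ : ∀ i, 0 ≤ c₁ i) (hc₂ : ∀ i, 0 ≤ c₂ i) (B : Set α) (hB : MeasurableSet B) (E : ι₁ → ι₂ → Set α) (hE : ∀ i₁ i₂, MeasurableSet (E i₁ i₂))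
    (h1 : ∀ i₁, ∑ i₂, pr i₁ i₂ ≤ ENNReal.ofReal (c₁ i₁) • μ.restrict B) (h2 : ∀ i₂, ∑ i₁, pr i₁ i₂ ≤ ENNReal.ofReal (c₂ i₂) • μ.restrict B)
    (hev : ∀ i₁ i₂, ∀ᵐ u ∂(pr i₁ i₂), u ∈ E i₁ i₂) :
    ∃ ρ : ι₁ → ι₂ → α → ℝ, (∀ i₁ i₂, Measurable (ρ i₁ i₂)) ∧ (∀ i₁ i₂ u, 0 ≤ ρ i₁ i₂ u) ∧ (∀ i₁ i₂ u, u ∉ B → ρ i₁ i₂ u = 0) ∧
      (∀ i₁ u, ∑ i₂, ρ i₁ i₂ u ≤ c₁ i₁) ∧ (∀ i₂ u, ∑ i₁, ρ i₁ i₂ u ≤ c₂ i₂) ∧ (∀ i₁ i₂ u, ρ i₁ i₂ u ≠ 0 → u ∈ E i₁ i₂) ∧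
      ∀ i₁ i₂, pr i₁ i₂ = μ.withDensity fun u => ENNReal.ofReal (ρ i₁ i₂ u) := by
  classical
  have hle : ∀ i₁ i₂, pr i₁ i₂ ≤ ENNReal.ofReal (c₁ i₁) • μ := by
    intro i₁ i₂
    have a1 : pr i₁ i₂ ≤ ∑ i₂, pr i₁ i₂ := Measure.le_iff'.2 fun s => by
      rw [Measure.finsetSum_apply]
      exact Finset.single_le_sum (f := fun i => pr i₁ i s) (fun _ _ => zero_le) (Finset.mem_univ i₂)
    refine a1.trans ((h1 i₁).trans (Measure.le_iff'.2 fun s => ?_))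
    simp only [Measure.smul_apply, smul_eq_mul]
    exact mul_le_mul_right (Measure.restrict_le_self s) _
  have hsf : ∀ i₁ i₂, SigmaFinite (pr i₁ i₂) := by
    intro i₁ i₂
    have : SigmaFinite (ENNReal.ofReal (c₁ i₁) • μ) := SMul.sigmaFinite (Real.toNNReal (c₁ i₁))
    exact Measure.sigmaFinite_of_le _ (hle i₁ i₂)
  have hac : ∀ i₁ i₂, pr i₁ i₂ ≪ μ := fun i₁ i₂ => Measure.absolutelyContinuous_of_le_smul (hle i₁ i₂)
  set r : ι₁ → ι₂ → α → ℝ≥0∞ := fun i₁ i₂ => (pr i₁ i₂).rnDeriv μ with hr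
  have hrm : ∀ i₁ i₂, Measurable (r i₁ i₂) := fun i₁ i₂ => Measure.measurable_rnDeriv _ _
  have hrd : ∀ i₁ i₂, μ.withDensity (r i₁ i₂) = pr i₁ i₂ := fun i₁ i₂ =>
    Measure.withDensity_rnDeriv_eq _ _ (hac i₁ i₂)
  have hset : ∀ i₁ i₂ (s : Set α), MeasurableSet s → ∫⁻ x in s, r i₁ i₂ x ∂μ = pr i₁ i₂ s := fun i₁ i₂ s hs => by
    rw [← withDensity_apply _ hs, hrd]
  have hind : ∀ (c : ℝ) (s : Set α), MeasurableSet s → ∫⁻ x in s, B.indicator (fun _ => ENNReal.ofReal c) x ∂μ =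
      (ENNReal.ofReal c • μ.restrict B) s := fun c s hs => by
    rw [lintegral_indicator hB, setLIntegral_const, Measure.restrict_apply hB, Measure.smul_apply,
      Measure.restrict_apply hs, smul_eq_mul, Set.inter_comm]
  have A1 : ∀ i₁, ∀ᵐ u ∂μ, ∑ i₂, r i₁ i₂ u ≤ B.indicator (fun _ => ENNReal.ofReal (c₁ i₁)) u := by
    intro i₁
    refine ae_le_of_forall_setLIntegral_le_of_sigmaFinite (Finset.measurable_sum _ fun i₂ _ => hrm i₁ i₂)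
      fun s hs _ => ?_
    rw [lintegral_finsetSum _ fun i₂ _ => hrm i₁ i₂, hind _ s hs]
    simp only [hset _ _ s hs]
    have := h1 i₁ s
    rwa [Measure.finsetSum_apply] at this
  have A2 : ∀ i₂, ∀ᵐ u ∂μ, ∑ i₁, r i₁ i₂ u ≤ B.indicator (fun _ => ENNReal.ofReal (c₂ i₂)) u := by
    intro i₂
    refine ae_le_of_forall_setLIntegral_le_of_sigmaFinite (Finset.measurable_sum _ fun i₁ _ => hrm i₁ i₂)
      fun s hs _ => ?_
    rw [lintegral_finsetSum _ fun i₁ _ => hrm i₁ i₂, hind _ s hs]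
    simp only [hset _ _ s hs]
    have := h2 i₂ s
    rwa [Measure.finsetSum_apply] at this
  have A3 : ∀ i₁ i₂, ∀ᵐ u ∂μ, r i₁ i₂ u ≠ 0 → u ∈ E i₁ i₂ := by
    intro i₁ i₂
    have := hev i₁ i₂
    rw [← hrd i₁ i₂] at this
    exact (ae_withDensity_iff (hrm i₁ i₂)).1 this
  set Gd : Set α := {u | (∀ i₁, ∑ i₂, r i₁ i₂ u ≤ B.indicator (fun _ => ENNReal.ofReal (c₁ i₁)) u) ∧
    (∀ i₂, ∑ i₁, r i₁ i₂ u ≤ B.indicator (fun _ => ENNReal.ofReal (c₂ i₂)) u) ∧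
    ∀ i₁ i₂, r i₁ i₂ u ≠ 0 → u ∈ E i₁ i₂} with hGd
  have hGdm : MeasurableSet Gd := by
    have e : Gd = (⋂ i₁, {u | ∑ i₂, r i₁ i₂ u ≤ B.indicator (fun _ => ENNReal.ofReal (c₁ i₁)) u}) ∩
        ((⋂ i₂, {u | ∑ i₁, r i₁ i₂ u ≤ B.indicator (fun _ => ENNReal.ofReal (c₂ i₂)) u}) ∩
          ⋂ i₁, ⋂ i₂, ({u | r i₁ i₂ u = 0} ∪ E i₁ i₂)) := by
      ext u
      simp only [hGd, Set.mem_inter_iff, Set.mem_iInter, Set.mem_union]
      refine and_congr Iff.rfl (and_congr Iff.rfl (forall_congr' fun i₁ => forall_congr' fun i₂ => ?_))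
      show (r i₁ i₂ u ≠ 0 → u ∈ E i₁ i₂) ↔ (r i₁ i₂ u = 0 ∨ u ∈ E i₁ i₂)
      tauto
    rw [e]
    refine MeasurableSet.inter ?_ (MeasurableSet.inter ?_ ?_)
    · exact MeasurableSet.iInter fun i₁ =>
        measurableSet_le (Finset.measurable_sum _ fun i₂ _ => hrm i₁ i₂) (measurable_const.indicator hB)
    · exact MeasurableSet.iInter fun i₂ =>
        measurableSet_le (Finset.measurable_sum _ fun i₁ _ => hrm i₁ i₂) (measurable_const.indicator hB)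
    · exact MeasurableSet.iInter fun i₁ => MeasurableSet.iInter fun i₂ =>
        ((hrm i₁ i₂ (measurableSet_singleton 0)).union (hE i₁ i₂))
  have hGdae : ∀ᵐ u ∂μ, u ∈ Gd := by
    have B1 := ae_all_iff.2 A1
    have B2 := ae_all_iff.2 A2
    have B3 := ae_all_iff.2 fun i₁ => ae_all_iff.2 (A3 i₁)
    filter_upwards [B1, B2, B3] with u b1 b2 b3 using ⟨b1, b2, b3⟩
  have hindle : ∀ (c : ℝ) (u : α), B.indicator (fun _ => ENNReal.ofReal c) u ≤ ENNReal.ofReal c := fun c u =>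
    Set.indicator_le_self' (fun _ _ => zero_le) u
  have hfin : ∀ i₁ i₂ u, u ∈ Gd → r i₁ i₂ u ≠ ⊤ := by
    intro i₁ i₂ u hu
    have a1 : r i₁ i₂ u ≤ ∑ i₂, r i₁ i₂ u :=
      Finset.single_le_sum (f := fun i₂ => r i₁ i₂ u) (fun _ _ => zero_le) (Finset.mem_univ i₂)
    exact ne_top_of_le_ne_top ENNReal.ofReal_ne_top (a1.trans ((hu.1 i₁).trans (hindle _ _)))
  refine ⟨fun i₁ i₂ => Gd.indicator fun u => (r i₁ i₂ u).toReal, fun i₁ i₂ => (hrm i₁ i₂).ennreal_toReal.indicator hGdm,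
    fun i₁ i₂ u => Set.indicator_nonneg (fun _ _ => ENNReal.toReal_nonneg) u, ?_, ?_, ?_, ?_, ?_⟩
  · intro i₁ i₂ u hu
    beta_reduce
    by_cases hG : u ∈ Gd
    · rw [Set.indicator_of_mem hG]
      have a1 : r i₁ i₂ u ≤ ∑ i₂, r i₁ i₂ u :=
        Finset.single_le_sum (f := fun i₂ => r i₁ i₂ u) (fun _ _ => zero_le) (Finset.mem_univ i₂)
      have a2 := a1.trans (hG.1 i₁)
      rw [Set.indicator_of_notMem hu] at a2
      rw [le_antisymm a2 zero_le, ENNReal.toReal_zero]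
    · rw [Set.indicator_of_notMem hG]
  · intro i₁ u
    by_cases hG : u ∈ Gd
    · simp only [Set.indicator_of_mem hG]
      rw [← ENNReal.toReal_sum fun i₂ _ => hfin i₁ i₂ u hG]
      exact ENNReal.toReal_le_of_le_ofReal (hc₁ i₁) ((hG.1 i₁).trans (hindle _ _))
    · simp only [Set.indicator_of_notMem hG, Finset.sum_const_zero]
      exact hc₁ i₁
  · intro i₂ u
    by_cases hG : u ∈ Gd
    · simp only [Set.indicator_of_mem hG]
      rw [← ENNReal.toReal_sum fun i₁ _ => hfin i₁ i₂ u hG]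
      exact ENNReal.toReal_le_of_le_ofReal (hc₂ i₂) ((hG.2.1 i₂).trans (hindle _ _))
    · simp only [Set.indicator_of_notMem hG, Finset.sum_const_zero]
      exact hc₂ i₂
  · intro i₁ i₂ u hne
    beta_reduce at hne
    by_cases hG : u ∈ Gd
    · rw [Set.indicator_of_mem hG] at hne
      exact hG.2.2 i₁ i₂ fun h0 => hne (by rw [h0, ENNReal.toReal_zero])
    · rw [Set.indicator_of_notMem hG] at hne
      exact absurd rfl hne
  · intro i₁ i₂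
    rw [← hrd i₁ i₂]
    refine withDensity_congr_ae ?_
    filter_upwards [hGdae] with u hu
    rw [Set.indicator_of_mem hu, ENNReal.ofReal_toReal (hfin i₁ i₂ u hu)]

/-- the change of variables `u = a + (b - a) s` for `lintegral`   (`rmz_box_vol` says `Measure.map φ volume = (volume (Icc a b))⁻¹ • volume` on all sets; `lintegral_map`; `Real.volume_Icc_pi`) -/
theorem k3c_box_lintegral {n : ℕ} (a b : Fin n → ℝ) (hab : ∀ i, a i < b i) (f : (Fin n → ℝ) → ℝ≥0∞) (hf : Measurable f) :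
    ∫⁻ u, f u = ENNReal.ofReal (∏ i, (b i - a i)) * ∫⁻ s : Fin n → ℝ, f fun i => a i + (b i - a i) * s i := by
  have hφ : Measurable fun (s : Fin n → ℝ) (i : Fin n) => a i + (b i - a i) * s i :=
    measurable_pi_lambda _ fun i => measurable_const.add (measurable_const.mul (measurable_pi_apply i))
  have hV : volume (Set.Icc a b) = ENNReal.ofReal (∏ i, (b i - a i)) := by
    rw [Real.volume_Icc_pi, ← ENNReal.ofReal_prod_of_nonneg (fun i _ => (sub_pos.2 (hab i)).le)]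
  have hm : (volume : Measure (Fin n → ℝ)) = ENNReal.ofReal (∏ i, (b i - a i)) •
      Measure.map (fun (s : Fin n → ℝ) (i : Fin n) => a i + (b i - a i) * s i) volume := by
    ext E hE
    rw [Measure.smul_apply, Measure.map_apply hφ hE, rmz_box_vol a b hab E, hV]
    rfl
  conv_lhs => rw [hm]
  rw [lintegral_smul_measure, lintegral_map hf hφ, smul_eq_mul]

theorem k3c_good1_div {k p q : ℕ} {C : ℝ} {h : ℝ → ℝ} (M : ℝ) (hM : 0 < M) (hg : sh2Good1 k p q C h) : sh2Good1 k p q C fun s => h s / M := by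
  intro E θ M' hθ hE hvol hM' j hj t ht
  have h1 := hg E θ (M * M') hθ hE hvol (fun t ht => by
    have h2 := hM' t ht
    rw [abs_div, abs_of_pos hM, div_le_iff₀ hM] at h2
    linarith) j hj t ht
  rw [iteratedDeriv_div_const, abs_div, abs_of_pos hM, div_le_iff₀ hM]
  linarith

theorem k3c_phi_mem {n : ℕ} (a b : Fin n → ℝ) (hab : ∀ i, a i < b i) (s : Fin n → ℝ) :
    (fun i => a i + (b i - a i) * s i) ∈ Set.Icc a b ↔ s ∈ Set.Icc (0 : Fin n → ℝ) 1 := by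
  simp only [Set.mem_Icc, Pi.le_def, Pi.zero_apply, Pi.one_apply]
  constructor
  · rintro ⟨h1, h2⟩
    refine ⟨fun i => ?_, fun i => ?_⟩
    · have h3 := h1 i
      have h4 := sub_pos.2 (hab i)
      by_contra hc
      push Not at hc
      nlinarith
    · have h3 := h2 i
      have h4 := sub_pos.2 (hab i)
      by_contra hc
      push Not at hc
      nlinarith
  · rintro ⟨h1, h2⟩
    refine ⟨fun i => ?_, fun i => ?_⟩
    · have h4 := sub_pos.2 (hab i)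
      nlinarith [h1 i]
    · have h4 := sub_pos.2 (hab i)
      nlinarith [h2 i]

theorem k3c_phi_contDiff {n : ℕ} (a b : Fin n → ℝ) (N : WithTop ℕ∞) : ContDiff ℝ N fun s : Fin n → ℝ => fun i => a i + (b i - a i) * s i :=
  contDiff_pi.2 fun i => contDiff_const.add (contDiff_const.mul (contDiff_apply ℝ ℝ i))

theorem k3c_phi_meas {n : ℕ} (a b : Fin n → ℝ) : Measurable fun s : Fin n → ℝ => fun i => a i + (b i - a i) * s i :=
  (k3c_phi_contDiff a b 0).continuous.measurable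

theorem k3c_smB_resc {n : ℕ} (a b : Fin n → ℝ) (hab : ∀ i, a i < b i) (F G : (Fin n → ℝ) → ℝ) (hF : k3cSmB a b F) (hG : k3cSmB a b G) (M : ℝ) :
    k3cSmB 0 1 fun s : Fin n → ℝ => (F (fun i => a i + (b i - a i) * s i) - G fun i => a i + (b i - a i) * s i) / M := by
  intro u hu N
  have hu' := (k3c_phi_mem a b hab u).2 hu
  have h1 : ContDiffAt ℝ (N : WithTop ℕ∞) (fun s : Fin n → ℝ => F fun i => a i + (b i - a i) * s i) u :=
    ContDiffAt.comp u (hF _ hu' N) (k3c_phi_contDiff a b N).contDiffAt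
  have h2 : ContDiffAt ℝ (N : WithTop ℕ∞) (fun s : Fin n → ℝ => G fun i => a i + (b i - a i) * s i) u :=
    ContDiffAt.comp u (hG _ hu' N) (k3c_phi_contDiff a b N).contDiffAt
  exact (h1.sub h2).div_const M

theorem k3c_good_resc {n : ℕ} (k p q : ℕ) (C : ℝ) (a b : Fin n → ℝ) (hab : ∀ i, a i < b i) (F G : (Fin n → ℝ) → ℝ) (M : ℝ) (hM : 0 < M)
    (h : sh2Good k p q C a b fun u => F u - G u) :
    sh2Good k p q C 0 1 fun s : Fin n → ℝ => (F (fun i => a i + (b i - a i) * s i) - G fun i => a i + (b i - a i) * s i) / M := by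
  intro x v hxv
  exact k3c_good1_div M hM (sh2_good_rescale k p q C a b hab _ h x v hxv)

theorem k3c_der_resc {n : ℕ} (k p q : ℕ) (C : ℝ) (a b : Fin n → ℝ) (hab : ∀ i, a i < b i) (F G : (Fin n → ℝ) → ℝ) (M B : ℝ) (hM : 0 < M)
    (h : sh2Good k p q C a b fun u => F u - G u) (hB : ∀ u ∈ Set.Icc a b, |F u - G u| ≤ B) :
    k3cDer q 0 1 (fun s : Fin n → ℝ => (F (fun i => a i + (b i - a i) * s i) - G fun i => a i + (b i - a i) * s i) / M)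
      (C * ((k : ℝ) + 1) ^ p * B / M) := by
  intro x v hxv j hj t ht
  have h1 := sh2_good1_sup (sh2_good_rescale k p q C a b hab _ h x v hxv) B (fun t ht => hB _ ((k3c_phi_mem a b hab _).2 (hxv t ht))) j hj t ht
  rw [iteratedDeriv_div_const, abs_div, abs_of_pos hM]
  exact div_le_div_of_nonneg_right h1 hM.le

/-- **LEAF M8: CORE (one scale, explicit slack): normalisation.**   `K' = 2 (k₁+1)^p₁ K²`.
PLAN.  `k3c_density volume pr (c₁ i = K π₁ i / V) .. (B = Icc a b) (E i₁ i₂ = {u | pr i₁ i₂ ≠ 0 ∧ |f₁ i₁ u - f₂ i₂ u| ≤ Δ K})` (so that `r i₁ i₂ u ≠ 0` implies `pr i₁ i₂ ≠ 0`; classical case split for measurability and `hev`), `V = ∏ (b i - a i)`: densities `r`.   The mass is positive, so `ι₁` is nonempty: fix `i₀`, `f* = f₁ i₀`.   `φ s = fun i => a i + (b i - a i) * s i`.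
`X.F₁ i s = (f₁ i (φ s) - f* (φ s)) / M`, `X.F₂ i s = (f₂ i (φ s) - f* (φ s)) / M`, `X.π = π`, `X.ρ i₁ i₂ s = V * r i₁ i₂ (φ s)`.
`der`: `sh2_good_rescale` for `hS.good₁`, `|f - f*| ≤ 2 M K` on the box, `sh2_good1_sup`: `≤ K (k₁+1)^p₁ 2 M K`; division by `M` commutes with `iteratedDeriv` (`iteratedDeriv_const_mul_field`-type lemma, no smoothness needed).
`good`: `X.F₁ i₁ - X.F₂ i₂ = (f₁ i₁ - f₂ i₂) ∘ φ / M`; `sh2_good_rescale` for `hS.good₀`; goodness is homogeneous (`|h/M| ≤ M'` on `E` iff `|h| ≤ M M'` on `E`); `sh2_good1_mono` (`K ≤ K'`).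
`mass`: `k3c_box_lintegral`, `withDensity_apply`/`lintegral` of the density `= pr i₁ i₂ univ`.   `close`: `Δ K / M = K / R`.   `gap`: `r ≠ 0` implies `pr i₁ i₂ ≠ 0`; `u' = φ s'` with `s' i = (u' i - a i)/(b i - a i)`.   `supp`: `φ s ∈ Icc a b ↔ s ∈ Icc 0 1`. -/
theorem k3c_reduce (n k₀ p₀ k₁ p₁ q : ℕ) (d R K : ℝ) (a b : Fin n → ℝ) (S : Set ((Fin n → ℝ) → ℝ)) (M Δ : ℝ)
    {ι₁ ι₂ : Type} [Fintype ι₁] [Fintype ι₂] (f₁ : ι₁ → (Fin n → ℝ) → ℝ) (f₂ : ι₂ → (Fin n → ℝ) → ℝ) (f₀ : (Fin n → ℝ) → ℝ) (π₁ : ι₁ → ℝ) (π₂ : ι₂ → ℝ)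
    (pr : ι₁ → ι₂ → Measure (Fin n → ℝ)) (hK : 1 ≤ K) (hR : 0 < R) (hab : ∀ i, a i < b i) (hΔ : 0 < Δ) (hM : M = R * Δ)
    (hS : K3cClass k₀ p₀ k₁ p₁ q K a b S) (hf₁ : ∀ i, f₁ i ∈ S) (hf₂ : ∀ i, f₂ i ∈ S) (hcard : (Fintype.card ι₁ : ℝ) ≤ K * R ^ d)
    (hn₁ : ∀ i, ∀ u ∈ Set.Icc a b, |f₁ i u - f₀ u| ≤ M * K) (hn₂ : ∀ i, ∀ u ∈ Set.Icc a b, |f₂ i u - f₀ u| ≤ M * K)
    (hπ₁ : ∀ i, 0 ≤ π₁ i) (hπ₂ : ∀ i, 0 ≤ π₂ i) (hs₁ : ∑ i, π₁ i ≤ 1) (hs₂ : ∑ i, π₂ i ≤ 1)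
    (hm₁ : ∀ i₁, ∑ i₂, pr i₁ i₂ ≤ ENNReal.ofReal (K * π₁ i₁ / ∏ i, (b i - a i)) • volume.restrict (Set.Icc a b))
    (hm₂ : ∀ i₂, ∑ i₁, pr i₁ i₂ ≤ ENNReal.ofReal (K * π₂ i₂ / ∏ i, (b i - a i)) • volume.restrict (Set.Icc a b))
    (hev : ∀ i₁ i₂, ∀ᵐ u ∂(pr i₁ i₂), |f₁ i₁ u - f₂ i₂ u| ≤ Δ * K)
    (hgap : ∀ i₁ i₂, pr i₁ i₂ ≠ 0 → ∃ u ∈ Set.Icc a b, M / K ≤ |f₁ i₁ u - f₂ i₂ u|)
    (hmass : ENNReal.ofReal (1 / K) ≤ ∑ i₁, ∑ i₂, pr i₁ i₂ Set.univ) :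
    ∃ X : K3cCfg n ι₁ ι₂, X.Ok k₀ p₀ q d R (2 * ((k₁ : ℝ) + 1) ^ p₁ * K ^ 2) := by
  have hK0 : 0 < K := by linarith
  have hM0 : 0 < M := by rw [hM]; positivity
  obtain ⟨V, hV⟩ : ∃ V : ℝ, V = ∏ i, (b i - a i) := ⟨_, rfl⟩
  have hV0 : 0 < V := by
    rw [hV]
    exact Finset.prod_pos fun i _ => sub_pos.2 (hab i)
  rw [← hV] at hm₁ hm₂
  obtain ⟨K', hK'⟩ : ∃ K' : ℝ, K' = 2 * ((k₁ : ℝ) + 1) ^ p₁ * K ^ 2 := ⟨_, rfl⟩
  rw [← hK']
  have hpw : (1 : ℝ) ≤ ((k₁ : ℝ) + 1) ^ p₁ := one_le_pow₀ (by linarith [(Nat.cast_nonneg k₁ : (0 : ℝ) ≤ k₁)])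
  have hKK' : K ≤ K' := by
    rw [hK']
    have h1 : K ≤ K ^ 2 := by nlinarith
    have h2 : K ^ 2 ≤ 2 * ((k₁ : ℝ) + 1) ^ p₁ * K ^ 2 := by nlinarith [sq_nonneg K]
    linarith
  have hK'0 : 0 < K' := by linarith
  -- the densities
  have hEm : ∀ i₁ i₂, MeasurableSet {u : Fin n → ℝ | pr i₁ i₂ ≠ 0 ∧ |f₁ i₁ u - f₂ i₂ u| ≤ Δ * K} := by
    intro i₁ i₂
    by_cases h0 : pr i₁ i₂ = 0
    · simp [h0]
    · simp only [ne_eq, h0, not_false_eq_true, true_and]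
      exact measurableSet_le ((hS.meas _ (hf₁ i₁)).sub (hS.meas _ (hf₂ i₂))).abs measurable_const
  have hev' : ∀ i₁ i₂, ∀ᵐ u ∂(pr i₁ i₂), u ∈ {u : Fin n → ℝ | pr i₁ i₂ ≠ 0 ∧ |f₁ i₁ u - f₂ i₂ u| ≤ Δ * K} := by
    intro i₁ i₂
    by_cases h0 : pr i₁ i₂ = 0
    · rw [h0]
      exact ae_zero.symm ▸ Filter.eventually_bot
    · filter_upwards [hev i₁ i₂] with u hu
      exact ⟨h0, hu⟩
  obtain ⟨r, hrm, hr0, hrB, hr1, hr2, hrE, hrpr⟩ := k3c_density volume pr (fun i => K * π₁ i / V) (fun i => K * π₂ i / V)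
    (fun i => div_nonneg (mul_nonneg hK0.le (hπ₁ i)) hV0.le) (fun i => div_nonneg (mul_nonneg hK0.le (hπ₂ i)) hV0.le) (Set.Icc a b) measurableSet_Icc
    (fun i₁ i₂ => {u : Fin n → ℝ | pr i₁ i₂ ≠ 0 ∧ |f₁ i₁ u - f₂ i₂ u| ≤ Δ * K}) hEm hm₁ hm₂ hev'
  -- a reference member
  have hne : Nonempty ι₁ := by
    by_contra hc
    rw [not_nonempty_iff] at hc
    rw [Finset.univ_eq_empty, Finset.sum_empty, nonpos_iff_eq_zero, ENNReal.ofReal_eq_zero] at hmass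
    have : 0 < 1 / K := by positivity
    linarith
  obtain ⟨i₀⟩ := hne
  have hφm := k3c_phi_meas a b
  have hb₁ : ∀ i, ∀ u ∈ Set.Icc a b, |f₁ i u - f₁ i₀ u| ≤ 2 * M * K := by
    intro i u hu
    have h1 := hn₁ i u hu
    have h2 := hn₁ i₀ u hu
    have e : f₁ i u - f₁ i₀ u = (f₁ i u - f₀ u) - (f₁ i₀ u - f₀ u) := by ring
    rw [e]
    exact (abs_sub _ _).trans (by linarith)
  have hb₂ : ∀ i, ∀ u ∈ Set.Icc a b, |f₂ i u - f₁ i₀ u| ≤ 2 * M * K := by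
    intro i u hu
    have h1 := hn₂ i u hu
    have h2 := hn₁ i₀ u hu
    have e : f₂ i u - f₁ i₀ u = (f₂ i u - f₀ u) - (f₁ i₀ u - f₀ u) := by ring
    rw [e]
    exact (abs_sub _ _).trans (by linarith)
  have hconst : K * ((k₁ : ℝ) + 1) ^ p₁ * (2 * M * K) / M = K' := by
    rw [hK']
    field_simp
  have hdiff : ∀ (i₁ : ι₁) (i₂ : ι₂) (s : Fin n → ℝ),
      (f₁ i₁ (fun i => a i + (b i - a i) * s i) - f₁ i₀ fun i => a i + (b i - a i) * s i) / M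
        - (f₂ i₂ (fun i => a i + (b i - a i) * s i) - f₁ i₀ fun i => a i + (b i - a i) * s i) / M
      = (f₁ i₁ (fun i => a i + (b i - a i) * s i) - f₂ i₂ fun i => a i + (b i - a i) * s i) / M := by
    intro i₁ i₂ s
    ring
  refine ⟨⟨fun i s => (f₁ i (fun i => a i + (b i - a i) * s i) - f₁ i₀ fun i => a i + (b i - a i) * s i) / M,
    fun i s => (f₂ i (fun i => a i + (b i - a i) * s i) - f₁ i₀ fun i => a i + (b i - a i) * s i) / M, π₁, π₂,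
    fun i₁ i₂ s => V * r i₁ i₂ fun i => a i + (b i - a i) * s i⟩, ?_⟩
  refine ⟨?_, ?_, ?_, ?_, ?_, ?_, ?_, ?_, hπ₁, hπ₂, hs₁, hs₂, ?_, ?_, ?_, ?_, ?_, ?_, ?_, ?_⟩
  · -- card
    exact hcard.trans (mul_le_mul_of_nonneg_right hKK' (Real.rpow_nonneg hR.le _))
  · intro i
    exact ((((hS.meas _ (hf₁ i)).comp hφm).sub ((hS.meas _ (hf₁ i₀)).comp hφm)).div_const M)
  · intro i
    exact ((((hS.meas _ (hf₂ i)).comp hφm).sub ((hS.meas _ (hf₁ i₀)).comp hφm)).div_const M)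
  · intro i
    exact k3c_smB_resc a b hab _ _ (hS.sm _ (hf₁ i)) (hS.sm _ (hf₁ i₀)) M
  · intro i
    exact k3c_smB_resc a b hab _ _ (hS.sm _ (hf₂ i)) (hS.sm _ (hf₁ i₀)) M
  · intro i
    have h1 := k3c_der_resc k₁ p₁ q K a b hab (f₁ i) (f₁ i₀) M (2 * M * K) hM0 (hS.good₁ _ (hf₁ i) _ (hf₁ i₀)) (hb₁ i)
    rwa [hconst] at h1
  · intro i
    have h1 := k3c_der_resc k₁ p₁ q K a b hab (f₂ i) (f₁ i₀) M (2 * M * K) hM0 (hS.good₁ _ (hf₂ i) _ (hf₁ i₀)) (hb₂ i)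
    rwa [hconst] at h1
  · -- good
    intro i₁ i₂
    simp only [hdiff]
    intro x v hxv
    exact sh2_good1_mono le_rfl hKK' (k3c_good_resc k₀ p₀ 0 K a b hab (f₁ i₁) (f₂ i₂) M hM0 (hS.good₀ _ (hf₁ i₁) _ (hf₂ i₂)) x v hxv)
  · intro i₁ i₂
    exact ((hrm i₁ i₂).comp hφm).const_mul V
  · intro i₁ i₂ u
    exact mul_nonneg hV0.le (hr0 i₁ i₂ _)
  · intro i₁ i₂ u hu
    show V * r i₁ i₂ _ = 0
    rw [hrB i₁ i₂ _ (fun h => hu ((k3c_phi_mem a b hab u).1 h)), mul_zero]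
  · intro i₁ u
    show ∑ i₂, V * r i₁ i₂ _ ≤ K' * π₁ i₁
    rw [← Finset.mul_sum]
    calc V * ∑ i₂, r i₁ i₂ _ ≤ V * (K * π₁ i₁ / V) := mul_le_mul_of_nonneg_left (hr1 i₁ _) hV0.le
      _ = K * π₁ i₁ := by field_simp
      _ ≤ K' * π₁ i₁ := mul_le_mul_of_nonneg_right hKK' (hπ₁ i₁)
  · intro i₂ u
    show ∑ i₁, V * r i₁ i₂ _ ≤ K' * π₂ i₂
    rw [← Finset.mul_sum]
    calc V * ∑ i₁, r i₁ i₂ _ ≤ V * (K * π₂ i₂ / V) := mul_le_mul_of_nonneg_left (hr2 i₂ _) hV0.le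
      _ = K * π₂ i₂ := by field_simp
      _ ≤ K' * π₂ i₂ := mul_le_mul_of_nonneg_right hKK' (hπ₂ i₂)
  · -- mass
    refine (ENNReal.ofReal_le_ofReal (one_div_le_one_div_of_le hK0 hKK')).trans (hmass.trans (le_of_eq ?_))
    refine Finset.sum_congr rfl fun i₁ _ => Finset.sum_congr rfl fun i₂ _ => ?_
    show pr i₁ i₂ Set.univ = ∫⁻ u : Fin n → ℝ, ENNReal.ofReal (V * r i₁ i₂ fun i => a i + (b i - a i) * u i)
    conv_lhs => rw [hrpr i₁ i₂]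
    rw [withDensity_apply _ MeasurableSet.univ, setLIntegral_univ, k3c_box_lintegral a b hab (fun x => ENNReal.ofReal (r i₁ i₂ x)) (ENNReal.measurable_ofReal.comp (hrm i₁ i₂)), ← hV,
      ← lintegral_const_mul' _ _ ENNReal.ofReal_ne_top]
    refine lintegral_congr fun s => ?_
    rw [ENNReal.ofReal_mul hV0.le]
  · -- close
    intro i₁ i₂ u hu
    have h1 : r i₁ i₂ (fun i => a i + (b i - a i) * u i) ≠ 0 := fun h => hu (by show V * r i₁ i₂ _ = 0; rw [h, mul_zero])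
    have h2 := (hrE i₁ i₂ _ h1).2
    simp only [hdiff]
    rw [abs_div, abs_of_pos hM0, div_le_iff₀ hM0]
    refine h2.trans ?_
    have e : K' / R * M = Δ * K' := by
      rw [hM]
      field_simp
    rw [e]
    exact mul_le_mul_of_nonneg_left hKK' hΔ.le
  · -- gap
    intro i₁ i₂ u hu
    have h1 : r i₁ i₂ (fun i => a i + (b i - a i) * u i) ≠ 0 := fun h => hu (by show V * r i₁ i₂ _ = 0; rw [h, mul_zero])
    obtain ⟨u', hu', hg⟩ := hgap i₁ i₂ (hrE i₁ i₂ _ h1).1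
    have hback : (fun i => a i + (b i - a i) * ((u' i - a i) / (b i - a i))) = u' := by
      funext i
      have h3 := (sub_pos.2 (hab i)).ne'
      field_simp
      ring
    refine ⟨fun i => (u' i - a i) / (b i - a i), (k3c_phi_mem a b hab _).1 (by rw [hback]; exact hu'), ?_⟩
    simp only [hdiff]
    rw [hback, abs_div, abs_of_pos hM0, le_div_iff₀ hM0]
    refine le_trans ?_ hg
    rw [one_div, inv_mul_eq_div]
    exact div_le_div_of_nonneg_left hM0.le hK0 hKK'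

/-! ## 8. The exit      (LEAF L-252-S3c-M9) -/

/-- the normalised hypotheses are monotone in the slack (all fields; `sh2_good1_mono`; `R > 0`) -/
theorem k3c_ok_mono {n : ℕ} {ι₁ ι₂ : Type} [Fintype ι₁] [Fintype ι₂] (X : K3cCfg n ι₁ ι₂) (k p q : ℕ) (d R K K' : ℝ) (hR : 0 < R) (hK : 0 < K) (hKK : K ≤ K')
    (h : X.Ok k p q d R K) : X.Ok k p q d R K' := by
  have hinv : 1 / K' ≤ 1 / K := one_div_le_one_div_of_le hK hKK
  exact
  { card := h.card.trans (mul_le_mul_of_nonneg_right hKK (Real.rpow_nonneg hR.le d))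
    meas₁ := h.meas₁
    meas₂ := h.meas₂
    sm₁ := h.sm₁
    sm₂ := h.sm₂
    der₁ := fun i x v hseg j hj t ht => (h.der₁ i x v hseg j hj t ht).trans hKK
    der₂ := fun i x v hseg j hj t ht => (h.der₂ i x v hseg j hj t ht).trans hKK
    good := fun i₁ i₂ x v hseg => sh2_good1_mono le_rfl hKK (h.good i₁ i₂ x v hseg)
    π₁_nonneg := h.π₁_nonneg
    π₂_nonneg := h.π₂_nonneg
    π₁_sum := h.π₁_sum
    π₂_sum := h.π₂_sum
    ρ_meas := h.ρ_meas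
    ρ_nonneg := h.ρ_nonneg
    ρ_supp := h.ρ_supp
    marg₁ := fun i₁ t => (h.marg₁ i₁ t).trans (mul_le_mul_of_nonneg_right hKK (h.π₁_nonneg i₁))
    marg₂ := fun i₂ t => (h.marg₂ i₂ t).trans (mul_le_mul_of_nonneg_right hKK (h.π₂_nonneg i₂))
    mass := (ENNReal.ofReal_le_ofReal hinv).trans h.mass
    close := fun i₁ i₂ t ht => (h.close i₁ i₂ t ht).trans (div_le_div_of_nonneg_right hKK hR.le)
    gap := fun i₁ i₂ t ht => by
      obtain ⟨u, h1, h2⟩ := h.gap i₁ i₂ t ht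
      exact ⟨u, h1, hinv.trans h2⟩ }

/-- **EXIT: 03 Cor 3.4 (`a02:local-graph-matching`)** for a class of functions all of whose differences are good.   Only the FIRST list has to be small.   `f₀` is an ARBITRARY function.
PLAN.  `k3c_match_unit n k₀ p₀ d₀ hd`: `ε₁`, `R₁`.   `ε := ε₁ / 3`; `R ≥ max R₁ (max 2 ((2 (k₁+1)^p₁)^(3/ε₁)))` so that `2 (k₁+1)^p₁ (R^ε)² ≤ R^ε₁`.   If the mass were `≥ ofReal (R^(-ε)) = ofReal (1/R^ε)`: `k3c_reduce` with `K = R^ε`, `d = d₀`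
(`R^(d₀+ε) = R^ε R^d₀`, `M R^(-ε) = M / R^ε`: `Real.rpow_add`, `Real.rpow_neg`), `k3c_ok_mono`: contradiction. -/
theorem k3c_match (n k₀ p₀ k₁ p₁ : ℕ) (d₀ : ℝ) (hd : d₀ < 1) : ∃ ε : ℝ, 0 < ε ∧ ∃ R₁ : ℝ, ∀ R ≥ R₁, ∀ (a b : Fin n → ℝ) (S : Set ((Fin n → ℝ) → ℝ)) (M Δ : ℝ)
    (ι₁ ι₂ : Type) [Fintype ι₁] [Fintype ι₂] (f₁ : ι₁ → (Fin n → ℝ) → ℝ) (f₂ : ι₂ → (Fin n → ℝ) → ℝ) (f₀ : (Fin n → ℝ) → ℝ) (π₁ : ι₁ → ℝ) (π₂ : ι₂ → ℝ)
    (pr : ι₁ → ι₂ → Measure (Fin n → ℝ)),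
    (∀ i, a i < b i) → 0 < Δ → M = R * Δ → K3cClass k₀ p₀ k₁ p₁ (p₀ + 3) (R ^ ε) a b S → (∀ i, f₁ i ∈ S) → (∀ i, f₂ i ∈ S) →
    (Fintype.card ι₁ : ℝ) ≤ R ^ (d₀ + ε) →
    (∀ i, ∀ u ∈ Set.Icc a b, |f₁ i u - f₀ u| ≤ M * R ^ ε) → (∀ i, ∀ u ∈ Set.Icc a b, |f₂ i u - f₀ u| ≤ M * R ^ ε) →
    (∀ i, 0 ≤ π₁ i) → (∀ i, 0 ≤ π₂ i) → ∑ i, π₁ i ≤ 1 → ∑ i, π₂ i ≤ 1 →
    (∀ i₁, ∑ i₂, pr i₁ i₂ ≤ ENNReal.ofReal (R ^ ε * π₁ i₁ / ∏ i, (b i - a i)) • volume.restrict (Set.Icc a b)) →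
    (∀ i₂, ∑ i₁, pr i₁ i₂ ≤ ENNReal.ofReal (R ^ ε * π₂ i₂ / ∏ i, (b i - a i)) • volume.restrict (Set.Icc a b)) →
    (∀ i₁ i₂, ∀ᵐ u ∂(pr i₁ i₂), |f₁ i₁ u - f₂ i₂ u| ≤ Δ * R ^ ε) →
    (∀ i₁ i₂, pr i₁ i₂ ≠ 0 → ∃ u ∈ Set.Icc a b, M * R ^ (-ε) ≤ |f₁ i₁ u - f₂ i₂ u|) →
    ∑ i₁, ∑ i₂, pr i₁ i₂ Set.univ < ENNReal.ofReal (R ^ (-ε)) := by
  obtain ⟨ε₁, hε₁, R₁, hR₁⟩ := k3c_match_unit n k₀ p₀ d₀ hd
  obtain ⟨A, hA⟩ : ∃ A : ℝ, A = 2 * ((k₁ : ℝ) + 1) ^ p₁ := ⟨_, rfl⟩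
  have hA0 : 0 < A := by rw [hA]; positivity
  refine ⟨ε₁ / 3, by positivity, max R₁ (max 2 (A ^ (3 / ε₁))), fun R hR a b S M Δ ι₁ ι₂ _ _ f₁ f₂ f₀ π₁ π₂ pr hab hΔ hM hS hf₁ hf₂ hcard hn₁ hn₂
    hπ₁ hπ₂ hs₁ hs₂ hm₁ hm₂ hev hgap => ?_⟩
  by_contra hcon
  rw [not_lt] at hcon
  have hRR : R₁ ≤ R := (le_max_left _ _).trans hR
  have hR2 : 2 ≤ R := ((le_max_left _ _).trans (le_max_right _ _)).trans hR
  have hRA : A ^ (3 / ε₁) ≤ R := ((le_max_right _ _).trans (le_max_right _ _)).trans hR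
  have hR0 : 0 < R := by linarith
  have hR1 : 1 ≤ R := by linarith
  obtain ⟨ε, hε⟩ : ∃ ε : ℝ, ε = ε₁ / 3 := ⟨_, rfl⟩
  rw [← hε] at hS hcard hn₁ hn₂ hm₁ hm₂ hev hgap hcon
  have hε0 : 0 < ε := by rw [hε]; positivity
  have hneg : R ^ (-ε) = 1 / R ^ ε := by rw [Real.rpow_neg hR0.le, one_div]
  obtain ⟨K, hKdef⟩ : ∃ K : ℝ, K = R ^ ε := ⟨_, rfl⟩
  rw [hneg] at hgap hcon
  rw [Real.rpow_add hR0, mul_comm] at hcard
  rw [← hKdef] at hS hcard hn₁ hn₂ hm₁ hm₂ hev hgap hcon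
  have hK : 1 ≤ K := hKdef ▸ Real.one_le_rpow hR1 hε0.le
  have hK0 : 0 < K := by linarith
  have hgap' : ∀ i₁ i₂, pr i₁ i₂ ≠ 0 → ∃ u ∈ Set.Icc a b, M / K ≤ |f₁ i₁ u - f₂ i₂ u| := fun i₁ i₂ h => by
    obtain ⟨u, hu, h1⟩ := hgap i₁ i₂ h
    exact ⟨u, hu, by rwa [mul_one_div] at h1⟩
  obtain ⟨X, hX⟩ := k3c_reduce n k₀ p₀ k₁ p₁ (p₀ + 3) d₀ R K a b S M Δ f₁ f₂ f₀ π₁ π₂ pr hK hR0 hab hΔ hM hS hf₁ hf₂ hcard hn₁ hn₂ hπ₁ hπ₂ hs₁ hs₂
    hm₁ hm₂ hev hgap' hcon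
  rw [← hA] at hX
  have hAR : A ≤ R ^ ε := by
    have h1 : (A ^ (3 / ε₁)) ^ ε ≤ R ^ ε := Real.rpow_le_rpow (Real.rpow_nonneg hA0.le _) hRA hε0.le
    rw [← Real.rpow_mul hA0.le] at h1
    have : 3 / ε₁ * ε = 1 := by rw [hε]; field_simp
    rwa [this, Real.rpow_one] at h1
  have hle : A * K ^ 2 ≤ R ^ ε₁ := by
    have e : R ^ ε₁ = K * K ^ 2 := by
      rw [← pow_succ', hKdef, ← Real.rpow_natCast, ← Real.rpow_mul hR0.le]
      congr 1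
      rw [hε]
      push_cast
      ring
    rw [e]
    exact mul_le_mul_of_nonneg_right (hKdef ▸ hAR) (by positivity)
  exact hR₁ R hRR ι₁ ι₂ X (k3c_ok_mono X _ _ _ d₀ R _ _ hR0 (by positivity) hle hX)

end

end Claimed.Agent.R252
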