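import Claimed.Agent.R252.S3c.RadMvContract
import Claimed.Agent.R252.S3c.MatchContract

/-!
# ROW 252 (S0492), unit S3c (sub-architect helper172), file 7: READY-MADE EXITS OF 03 Cor 3.4 FOR THE CONSUMERS.   (no sorry in this file)   -- KEEP

PAPER-FREE.  Prefix `k3c_`.
* `K3cHyp n d R K a b S M Δ f₁ f₂ f₀ π₁ π₂ pr` : ALL hypotheses of the local matching at ONE scale `R = M/Δ` with ONE explicit slack `K` (except the class hypothesis and the lower bound of the mass).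
* `k3c_match_K`      : ONE SCALE, EXPLICIT SLACK: there is `C` (depending on the format and on `d₀ < 1` only) such that `C K^C ≤ R` and `K3cClass .. K a b S`, `K3cHyp ..` imply  mass `< 1/K`.
* `k3c_match_poly_K` : the same for polynomial graphs of degree `≤ d` in `n` variables (no class hypothesis).
* `k3c_match_sheet_K`: the same for stable square-root sheets `k3cShC n d m kap a b` with `kap ≤ K`.
-/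

set_option autoImplicit false

namespace Claimed.Agent.R252

open MeasureTheory
open scoped ENNReal

noncomputable section

/-- the hypotheses of the local matching at one scale with one slack -/
structure K3cHyp {n : ℕ} {ι₁ ι₂ : Type} [Fintype ι₁] [Fintype ι₂] (d R K : ℝ) (a b : Fin n → ℝ) (S : Set ((Fin n → ℝ) → ℝ)) (M Δ : ℝ)
    (f₁ : ι₁ → (Fin n → ℝ) → ℝ) (f₂ : ι₂ → (Fin n → ℝ) → ℝ) (f₀ : (Fin n → ℝ) → ℝ) (π₁ : ι₁ → ℝ) (π₂ : ι₂ → ℝ) (pr : ι₁ → ι₂ → Measure (Fin n → ℝ)) : Prop where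
  box : ∀ i, a i < b i
  Δ_pos : 0 < Δ
  scale : M = R * Δ
  mem₁ : ∀ i, f₁ i ∈ S
  mem₂ : ∀ i, f₂ i ∈ S
  card : (Fintype.card ι₁ : ℝ) ≤ K * R ^ d
  norm₁ : ∀ i, ∀ u ∈ Set.Icc a b, |f₁ i u - f₀ u| ≤ M * K
  norm₂ : ∀ i, ∀ u ∈ Set.Icc a b, |f₂ i u - f₀ u| ≤ M * K
  π₁_nonneg : ∀ i, 0 ≤ π₁ i
  π₂_nonneg : ∀ i, 0 ≤ π₂ i
  π₁_sum : ∑ i, π₁ i ≤ 1
  π₂_sum : ∑ i, π₂ i ≤ 1
  marg₁ : ∀ i₁, ∑ i₂, pr i₁ i₂ ≤ ENNReal.ofReal (K * π₁ i₁ / ∏ i, (b i - a i)) • volume.restrict (Set.Icc a b)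
  marg₂ : ∀ i₂, ∑ i₁, pr i₁ i₂ ≤ ENNReal.ofReal (K * π₂ i₂ / ∏ i, (b i - a i)) • volume.restrict (Set.Icc a b)
  close : ∀ i₁ i₂, ∀ᵐ u ∂(pr i₁ i₂), |f₁ i₁ u - f₂ i₂ u| ≤ Δ * K
  gap : ∀ i₁ i₂, pr i₁ i₂ ≠ 0 → ∃ u ∈ Set.Icc a b, M / K ≤ |f₁ i₁ u - f₂ i₂ u|

/-- the class hypothesis is monotone in the constant -/
theorem k3c_class_mono {n k₀ p₀ k₁ p₁ q : ℕ} {K K' : ℝ} {a b : Fin n → ℝ} {S : Set ((Fin n → ℝ) → ℝ)} (hK : K ≤ K') (h : K3cClass k₀ p₀ k₁ p₁ q K a b S) :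
    K3cClass k₀ p₀ k₁ p₁ q K' a b S where
  meas := h.meas
  sm := h.sm
  good₀ := fun F hF G hG x v hs => sh2_good1_mono le_rfl hK (h.good₀ F hF G hG x v hs)
  good₁ := fun F hF G hG x v hs => sh2_good1_mono le_rfl hK (h.good₁ F hF G hG x v hs)

theorem k3c_smul_le_smul {α : Type} [MeasurableSpace α] (μ : Measure α) {c c' : ℝ≥0∞} (h : c ≤ c') : c • μ ≤ c' • μ := by
  refine Measure.le_iff'.2 fun s => ?_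
  simp only [Measure.smul_apply, smul_eq_mul]
  gcongr

/-- the hypotheses are monotone in the slack and in the class -/
theorem K3cHyp.mono {n : ℕ} {ι₁ ι₂ : Type} [Fintype ι₁] [Fintype ι₂] {d R K K' : ℝ} {a b : Fin n → ℝ} {S S' : Set ((Fin n → ℝ) → ℝ)} {M Δ : ℝ}
    {f₁ : ι₁ → (Fin n → ℝ) → ℝ} {f₂ : ι₂ → (Fin n → ℝ) → ℝ} {f₀ : (Fin n → ℝ) → ℝ} {π₁ : ι₁ → ℝ} {π₂ : ι₂ → ℝ} {pr : ι₁ → ι₂ → Measure (Fin n → ℝ)}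
    (h : K3cHyp d R K a b S M Δ f₁ f₂ f₀ π₁ π₂ pr) (hR : 0 < R) (hK0 : 0 < K) (hK : K ≤ K') (hS : S ⊆ S') : K3cHyp d R K' a b S' M Δ f₁ f₂ f₀ π₁ π₂ pr := by
  have hM : 0 < M := by rw [h.scale]; exact mul_pos hR h.Δ_pos
  have hV : 0 < ∏ i, (b i - a i) := Finset.prod_pos fun i _ => sub_pos.2 (h.box i)
  have hRd : 0 ≤ R ^ d := Real.rpow_nonneg hR.le d
  refine ⟨h.box, h.Δ_pos, h.scale, fun i => hS (h.mem₁ i), fun i => hS (h.mem₂ i), ?_, ?_, ?_, h.π₁_nonneg, h.π₂_nonneg, h.π₁_sum, h.π₂_sum, ?_, ?_, ?_, ?_⟩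
  · exact h.card.trans (mul_le_mul_of_nonneg_right hK hRd)
  · exact fun i u hu => (h.norm₁ i u hu).trans (mul_le_mul_of_nonneg_left hK hM.le)
  · exact fun i u hu => (h.norm₂ i u hu).trans (mul_le_mul_of_nonneg_left hK hM.le)
  · intro i₁
    refine (h.marg₁ i₁).trans (k3c_smul_le_smul _ (ENNReal.ofReal_le_ofReal ?_))
    exact div_le_div_of_nonneg_right (mul_le_mul_of_nonneg_right hK (h.π₁_nonneg i₁)) hV.le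
  · intro i₂
    refine (h.marg₂ i₂).trans (k3c_smul_le_smul _ (ENNReal.ofReal_le_ofReal ?_))
    exact div_le_div_of_nonneg_right (mul_le_mul_of_nonneg_right hK (h.π₂_nonneg i₂)) hV.le
  · intro i₁ i₂
    filter_upwards [h.close i₁ i₂] with u hu
    exact hu.trans (mul_le_mul_of_nonneg_left hK h.Δ_pos.le)
  · intro i₁ i₂ hne
    obtain ⟨u, hu, hu'⟩ := h.gap i₁ i₂ hne
    exact ⟨u, hu, le_trans (div_le_div_of_nonneg_left hM.le hK0 hK) hu'⟩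

/-- **EXIT: ONE SCALE, EXPLICIT SLACK.**
PLAN.  `k3c_match_unit n k₀ p₀ d₀ hd`: `ε₁`, `R₁`.   `c₂ := 2 (k₁+1)^p₁`.   `C := max (max R₁ 1) (max (c₂^(1/ε₁)) (2/ε₁))`.   For `K ≥ 1`, `R ≥ C K^C`: `R ≥ R₁`, `R ≥ 1` and `c₂ K² ≤ R^ε₁` (because `R ≥ c₂^(1/ε₁) K^(2/ε₁)`).
If the mass were `≥ ofReal (1/K)`: `k3c_reduce` gives `X.Ok k₀ p₀ (p₀+3) d₀ R (c₂ K²)`, `k3c_ok_mono` raises the slack to `R^ε₁`: contradiction. -/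
theorem k3c_match_K (n k₀ p₀ k₁ p₁ : ℕ) (d₀ : ℝ) (hd : d₀ < 1) : ∃ C : ℝ, 1 ≤ C ∧ ∀ (K R : ℝ), 1 ≤ K → C * K ^ C ≤ R →
    ∀ (a b : Fin n → ℝ) (S : Set ((Fin n → ℝ) → ℝ)) (M Δ : ℝ) (ι₁ ι₂ : Type) [Fintype ι₁] [Fintype ι₂] (f₁ : ι₁ → (Fin n → ℝ) → ℝ) (f₂ : ι₂ → (Fin n → ℝ) → ℝ)
      (f₀ : (Fin n → ℝ) → ℝ) (π₁ : ι₁ → ℝ) (π₂ : ι₂ → ℝ) (pr : ι₁ → ι₂ → Measure (Fin n → ℝ)),
      K3cClass k₀ p₀ k₁ p₁ (p₀ + 3) K a b S → K3cHyp d₀ R K a b S M Δ f₁ f₂ f₀ π₁ π₂ pr → ∑ i₁, ∑ i₂, pr i₁ i₂ Set.univ < ENNReal.ofReal (1 / K) := by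
  obtain ⟨ε₁, hε₁, R₁, hU⟩ := k3c_match_unit n k₀ p₀ d₀ hd
  obtain ⟨c₂, hc₂⟩ : ∃ c₂ : ℝ, c₂ = 2 * ((k₁ : ℝ) + 1) ^ p₁ := ⟨_, rfl⟩
  have hc₂1 : 1 ≤ c₂ := by
    have h1 : (1 : ℝ) ≤ ((k₁ : ℝ) + 1) ^ p₁ := one_le_pow₀ (by have : (0 : ℝ) ≤ (k₁ : ℝ) := Nat.cast_nonneg _; linarith)
    rw [hc₂]; linarith
  refine ⟨max (max R₁ 1) (max (c₂ ^ (1 / ε₁)) (2 / ε₁)), le_trans (le_max_right _ _) (le_max_left _ _), ?_⟩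
  intro K R hK hR a b S M Δ ι₁ ι₂ _ _ f₁ f₂ f₀ π₁ π₂ pr hS h
  set C := max (max R₁ 1) (max (c₂ ^ (1 / ε₁)) (2 / ε₁)) with hCdef
  have hC1 : 1 ≤ C := le_trans (le_max_right _ _) (le_max_left _ _)
  have hCR₁ : R₁ ≤ C := le_trans (le_max_left _ _) (le_max_left _ _)
  have hCc : c₂ ^ (1 / ε₁) ≤ C := le_trans (le_max_left _ _) (le_max_right _ _)
  have hCe : 2 / ε₁ ≤ C := le_trans (le_max_right _ _) (le_max_right _ _)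
  have hK0 : 0 < K := by linarith
  have hKC : 1 ≤ K ^ C := Real.one_le_rpow hK (by linarith)
  have hCR : C ≤ R := le_trans (le_mul_of_one_le_right (by linarith) hKC) hR
  have hR1 : 1 ≤ R := hC1.trans hCR
  have hR0 : 0 < R := by linarith
  have hcpos : 0 < c₂ ^ (1 / ε₁) := Real.rpow_pos_of_pos (by linarith) _
  have hkey : c₂ * K ^ 2 ≤ R ^ ε₁ := by
    have h1 : c₂ ^ (1 / ε₁) * K ^ (2 / ε₁) ≤ R := by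
      refine le_trans ?_ hR
      exact mul_le_mul hCc (Real.rpow_le_rpow_of_exponent_le hK hCe) (Real.rpow_nonneg hK0.le _) (by linarith)
    have h2 : (c₂ ^ (1 / ε₁) * K ^ (2 / ε₁)) ^ ε₁ ≤ R ^ ε₁ :=
      Real.rpow_le_rpow (mul_nonneg hcpos.le (Real.rpow_nonneg hK0.le _)) h1 hε₁.le
    rw [Real.mul_rpow hcpos.le (Real.rpow_nonneg hK0.le _), ← Real.rpow_mul (by linarith), ← Real.rpow_mul hK0.le,
      one_div_mul_cancel hε₁.ne', div_mul_cancel₀ _ hε₁.ne', Real.rpow_one] at h2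
    have e : K ^ (2 : ℝ) = K ^ 2 := by
      rw [← Real.rpow_natCast]; norm_num
    rwa [e] at h2
  by_contra hcon
  rw [not_lt] at hcon
  obtain ⟨X, hX⟩ := k3c_reduce n k₀ p₀ k₁ p₁ (p₀ + 3) d₀ R K a b S M Δ f₁ f₂ f₀ π₁ π₂ pr hK hR0 h.box h.Δ_pos h.scale hS h.mem₁ h.mem₂ h.card
    h.norm₁ h.norm₂ h.π₁_nonneg h.π₂_nonneg h.π₁_sum h.π₂_sum h.marg₁ h.marg₂ h.close h.gap hcon
  rw [← hc₂] at hX
  exact hU R (hCR₁.trans hCR) ι₁ ι₂ X (k3c_ok_mono X k₀ p₀ (p₀ + 3) d₀ R (c₂ * K ^ 2) (R ^ ε₁) hR0 (by positivity) hkey hX)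

/-- arithmetic: `C₁ (C₀ K^e)^C₁ ≤ C K^C` for `C = max (C₁ C₀^C₁) (e C₁)` -/
theorem k3c_exit_arith (C₀ C₁ K : ℝ) (e : ℕ) (hC₀ : 1 ≤ C₀) (hC₁ : 1 ≤ C₁) (hK : 1 ≤ K) :
    C₁ * (C₀ * K ^ e) ^ C₁ ≤ max (C₁ * C₀ ^ C₁) (e * C₁) * K ^ (max (C₁ * C₀ ^ C₁) (e * C₁)) := by
  have hK0 : 0 < K := by linarith
  have hC00 : 0 < C₀ := by linarith
  rw [Real.mul_rpow hC00.le (pow_nonneg hK0.le _), ← Real.rpow_natCast K e, ← Real.rpow_mul hK0.le, ← mul_assoc]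
  refine mul_le_mul (le_max_left _ _) (Real.rpow_le_rpow_of_exponent_le hK (le_max_right _ _)) (Real.rpow_nonneg hK0.le _) ?_
  exact le_trans (by positivity) (le_max_left _ _)

/-- **EXIT: polynomial graphs of degree `≤ d` in `n` variables.**
PLAN.  `k3c_class_poly d`: `C₀`.   `k3c_match_K n d d d d d₀ hd`: `C₁`.   `C := C₁ * C₀^C₁`-like so that `C K^C ≥ C₁ (C₀ K)^C₁`;  apply `k3c_match_K` with the slack `K' = C₀ K` (`k3c_class_mono`, `K3cHyp.mono`): mass `< 1/(C₀ K) ≤ 1/K`. -/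
theorem k3c_match_poly_K (n d : ℕ) (d₀ : ℝ) (hd : d₀ < 1) : ∃ C : ℝ, 1 ≤ C ∧ ∀ (K R : ℝ), 1 ≤ K → C * K ^ C ≤ R →
    ∀ (a b : Fin n → ℝ) (M Δ : ℝ) (ι₁ ι₂ : Type) [Fintype ι₁] [Fintype ι₂] (f₁ : ι₁ → (Fin n → ℝ) → ℝ) (f₂ : ι₂ → (Fin n → ℝ) → ℝ)
      (f₀ : (Fin n → ℝ) → ℝ) (π₁ : ι₁ → ℝ) (π₂ : ι₂ → ℝ) (pr : ι₁ → ι₂ → Measure (Fin n → ℝ)),
      K3cHyp d₀ R K a b (k3cPolC n d) M Δ f₁ f₂ f₀ π₁ π₂ pr → ∑ i₁, ∑ i₂, pr i₁ i₂ Set.univ < ENNReal.ofReal (1 / K) := by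
  obtain ⟨C₀, hC₀, hcl⟩ := k3c_class_poly d
  obtain ⟨C₁, hC₁, hm⟩ := k3c_match_K n d d d d d₀ hd
  have hb : 1 ≤ C₁ * C₀ ^ C₁ := by
    have : 1 ≤ C₀ ^ C₁ := Real.one_le_rpow hC₀ (by linarith)
    nlinarith
  refine ⟨max (C₁ * C₀ ^ C₁) ((1 : ℕ) * C₁), le_trans hb (le_max_left _ _), ?_⟩
  intro K R hK hR a b M Δ ι₁ ι₂ _ _ f₁ f₂ f₀ π₁ π₂ pr h
  have hK0 : 0 < K := by linarith
  have hKK : K ≤ C₀ * K ^ 1 := by rw [pow_one]; nlinarith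
  have hR' : C₁ * (C₀ * K ^ 1) ^ C₁ ≤ R := (k3c_exit_arith C₀ C₁ K 1 hC₀ hC₁ hK).trans hR
  have hR0 : 0 < R := lt_of_lt_of_le (by positivity) hR'
  have := hm (C₀ * K ^ 1) R (hK.trans hKK) hR' a b (k3cPolC n d) M Δ ι₁ ι₂ f₁ f₂ f₀ π₁ π₂ pr
    (k3c_class_mono (by rw [pow_one]; nlinarith) (hcl n a b)) (h.mono hR0 hK0 hKK (Set.Subset.refl _))
  exact lt_of_lt_of_le this (ENNReal.ofReal_le_ofReal (one_div_le_one_div_of_le hK0 hKK))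

/-- **EXIT: stable square-root sheets** (`kap ≤ K`).
PLAN.  `k3c_class_sheet d m`: `(k₀,p₀,k₁,p₁,c,C₀)`.   `k3c_match_K n k₀ p₀ k₁ p₁ d₀ hd`: `C₁`.   Slack `K' = C₀ K^(c+1) ≥ max K (C₀ kap^c)`;  `C` so large that `C K^C ≥ C₁ K'^C₁`. -/
theorem k3c_match_sheet_K (n d m : ℕ) (d₀ : ℝ) (hd : d₀ < 1) : ∃ C : ℝ, 1 ≤ C ∧ ∀ (K R kap : ℝ), 1 ≤ kap → kap ≤ K → C * K ^ C ≤ R →
    ∀ (a b : Fin n → ℝ) (M Δ : ℝ) (ι₁ ι₂ : Type) [Fintype ι₁] [Fintype ι₂] (f₁ : ι₁ → (Fin n → ℝ) → ℝ) (f₂ : ι₂ → (Fin n → ℝ) → ℝ)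
      (f₀ : (Fin n → ℝ) → ℝ) (π₁ : ι₁ → ℝ) (π₂ : ι₂ → ℝ) (pr : ι₁ → ι₂ → Measure (Fin n → ℝ)),
      K3cHyp d₀ R K a b (k3cShC n d m kap a b) M Δ f₁ f₂ f₀ π₁ π₂ pr → ∑ i₁, ∑ i₂, pr i₁ i₂ Set.univ < ENNReal.ofReal (1 / K) := by
  obtain ⟨k₀, p₀, k₁, p₁, c, C₀, _, hC₀, hcl⟩ := k3c_class_sheet d m
  obtain ⟨C₁, hC₁, hm⟩ := k3c_match_K n k₀ p₀ k₁ p₁ d₀ hd
  have hb : 1 ≤ C₁ * C₀ ^ C₁ := by
    have : 1 ≤ C₀ ^ C₁ := Real.one_le_rpow hC₀ (by linarith)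
    nlinarith
  refine ⟨max (C₁ * C₀ ^ C₁) ((c + 1 : ℕ) * C₁), le_trans hb (le_max_left _ _), ?_⟩
  intro K R kap hkap hkK hR a b M Δ ι₁ ι₂ _ _ f₁ f₂ f₀ π₁ π₂ pr h
  have hK : 1 ≤ K := hkap.trans hkK
  have hK0 : 0 < K := by linarith
  have hKc : 1 ≤ K ^ c := one_le_pow₀ hK
  have hKK : K ≤ C₀ * K ^ (c + 1) := by
    rw [pow_succ]
    have : K ≤ K ^ c * K := le_mul_of_one_le_left hK0.le hKc
    have h2 : 0 ≤ K ^ c * K := by positivity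
    nlinarith
  have hcl' : C₀ * kap ^ c ≤ C₀ * K ^ (c + 1) := by
    have h1 : kap ^ c ≤ K ^ c := pow_le_pow_left₀ (by linarith) hkK c
    have h2 : K ^ c ≤ K ^ (c + 1) := pow_le_pow_right₀ hK (Nat.le_succ c)
    exact mul_le_mul_of_nonneg_left (h1.trans h2) (by linarith)
  have hR' : C₁ * (C₀ * K ^ (c + 1)) ^ C₁ ≤ R := (k3c_exit_arith C₀ C₁ K (c + 1) hC₀ hC₁ hK).trans hR
  have hR0 : 0 < R := lt_of_lt_of_le (by positivity) hR'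
  have := hm (C₀ * K ^ (c + 1)) R (hK.trans hKK) hR' a b (k3cShC n d m kap a b) M Δ ι₁ ι₂ f₁ f₂ f₀ π₁ π₂ pr
    (k3c_class_mono hcl' (hcl n kap a b hkap)) (h.mono hR0 hK0 hKK (Set.Subset.refl _))
  exact lt_of_lt_of_le this (ENNReal.ofReal_le_ofReal (one_div_le_one_div_of_le hK0 hKK))

end

end Claimed.Agent.R252
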