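import Claimed.Agent.R252.S3c.RadMvContract
import Claimed.Agent.R252.S3c.MatchContract
import Claimed.Agent.R252.S4E.Contract

/-!
# ROW 252 (S0492), unit S3c (sub-architect helper172), file 6: THE THREE HUBS OF UNIT S4E (`K4eMatch`, `K4eRemez`, `K4eCode` of `R252/S4E/Contract.lean`, helper222).   CONTRACT   -- KEEP

PAPER-FREE.  Prefix `k3c_`.  The `sorry`s are the leaves `L-252-S3c-H*`: prove IN PLACE, statement verbatim, helpers directly above.  Statements of the imported files may be cited even if still `sorry`.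
`k4eSh n u₀ r` (polynomials of degree `≤ 2`; simple roots of `A w² + b(u) w + c(u)` with discriminant stable on the complex polydisc of radius `4r`) is contained in the class of stable sheets `k3cShC n 2 1 2 (u₀ - r) (u₀ + r)`:
 * polynomial `p`:             `α = p`, `β = 0`, `D = 1`, `U = univ`;
 * `A ≠ 0`:                    `(-b + s √D)/(2A) = α + β √D / D` with `α = C (-1/(2A)) * b`, `β = C (s/(2A)) * D`, `U = {D > 0}`;
 * `A = 0` (then `D = b²`):    `-c/b = β √D / D` with `β = C (-σ) * c`, `σ = ±1` the sign of `b` at `u₀`, `U = {σ b > 0}` (`√(b²) = σ b` there; `b ≠ 0` on the box, which is preconnected).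
-/

set_option autoImplicit false

namespace Claimed.Agent.R252

open MeasureTheory
open scoped ENNReal

noncomputable section

/-! ## 1. The class      (LEAF L-252-S3c-H1) -/

/-- the sup-norm ball is a box (`closedBall_pi`, `Real.closedBall_eq_Icc`, `Set.pi_univ_Icc`) -/
theorem k3c_ball_eq_Icc {n : ℕ} (u₀ : Fin n → ℝ) (r : ℝ) (hr : 0 ≤ r) : Metric.closedBall u₀ r = Set.Icc (fun i => u₀ i - r) (fun i => u₀ i + r) := by
  ext x
  rw [Metric.mem_closedBall, dist_pi_le_iff hr, Set.mem_Icc, Pi.le_def, Pi.le_def, ← forall_and]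
  refine forall_congr' fun i => ?_
  rw [Real.dist_eq, abs_le]
  constructor
  · rintro ⟨h1, h2⟩
    constructor <;> linarith
  · rintro ⟨h1, h2⟩
    constructor <;> linarith

theorem k3c_h1_aeval {n : ℕ} (D : MvPolynomial (Fin n) ℝ) (u : Fin n → ℝ) :
    MvPolynomial.aeval (fun i => ((u i : ℝ) : ℂ)) D = ((MvPolynomial.eval u D : ℝ) : ℂ) := by
  have h := MvPolynomial.aeval_algebraMap_apply (B := ℂ) u D
  rw [MvPolynomial.aeval_eq_eval] at h
  exact h

/-- complex stability implies real stability on the box (real points of the polydisc; `MvPolynomial.aeval` at a real point is the cast of `eval`: `MvPolynomial.aeval_def`, `eval₂_..`/`map_..`; `sh2_stable_of_half`) -/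
theorem k3c_k4e_stable {n : ℕ} (D : MvPolynomial (Fin n) ℝ) (u₀ : Fin n → ℝ) (r : ℝ) (hr : 0 < r) (h : k4eStable D u₀ r) :
    sh2Stable 2 D (fun i => u₀ i - r) (fun i => u₀ i + r) := by
  obtain ⟨h0, h1⟩ := h
  refine sh2_stable_of_half (MvPolynomial.eval u₀ D) h0 fun u hu => ?_
  have h2 := h1 (fun i => ((u i : ℝ) : ℂ)) fun i => by
    rw [← Complex.ofReal_sub, Complex.norm_real, Real.norm_eq_abs, abs_le]
    have a1 := hu.1 i
    have a2 := hu.2 i
    simp only at a1 a2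
    constructor <;> linarith
  rw [k3c_h1_aeval, ← Complex.ofReal_sub, Complex.norm_real, Real.norm_eq_abs] at h2
  exact h2

theorem k3c_h1_eval_meas {n : ℕ} (p : MvPolynomial (Fin n) ℝ) : Measurable fun u : Fin n → ℝ => MvPolynomial.eval u p :=
  (MvPolynomial.continuous_eval p).measurable

theorem k3c_h1_disc_eval {n : ℕ} (A : ℝ) (b c : MvPolynomial (Fin n) ℝ) (u : Fin n → ℝ) :
    MvPolynomial.eval u (k4eDisc A b c) = MvPolynomial.eval u b ^ 2 - 4 * A * MvPolynomial.eval u c := by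
  unfold k4eDisc
  simp

theorem k3c_h1_disc_deg {n : ℕ} (A : ℝ) (b c : MvPolynomial (Fin n) ℝ) (hb : b.totalDegree ≤ 1) (hc : c.totalDegree ≤ 2) :
    (k4eDisc A b c).totalDegree ≤ 2 := by
  unfold k4eDisc
  refine (MvPolynomial.totalDegree_sub _ _).trans (max_le ?_ ?_)
  · refine (MvPolynomial.totalDegree_pow _ _).trans ?_
    omega
  · refine (MvPolynomial.totalDegree_mul _ _).trans ?_
    rw [MvPolynomial.totalDegree_C]
    omega

theorem k3c_h1_C_mul_deg {n : ℕ} (x : ℝ) (p : MvPolynomial (Fin n) ℝ) (d : ℕ) (hp : p.totalDegree ≤ d) : (MvPolynomial.C x * p).totalDegree ≤ d := by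
  refine (MvPolynomial.totalDegree_mul _ _).trans ?_
  rw [MvPolynomial.totalDegree_C]
  omega

theorem k3c_h1_root_meas {n : ℕ} (A s : ℝ) (b c : MvPolynomial (Fin n) ℝ) :
    Measurable fun u : Fin n → ℝ => k4eRoot A (MvPolynomial.eval u b) (MvPolynomial.eval u c) s := by
  have hb := k3c_h1_eval_meas b
  have hc := k3c_h1_eval_meas c
  unfold k4eRoot
  by_cases hA : A = 0
  · simp only [if_pos hA]
    exact hc.neg.div hb
  · simp only [if_neg hA]
    fun_prop

/-- **the comparison graphs of S4E are stable sheets** (three cases: file header; measurability: `k4eRoot` with constant `A` is a measurable expression of `eval u b`, `eval u c`) -/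
theorem k3c_k4eSh_sub (n : ℕ) (u₀ : Fin n → ℝ) (r : ℝ) (hr : 0 < r) : k4eSh n u₀ r ⊆ k3cShC n 2 1 2 (fun i => u₀ i - r) (fun i => u₀ i + r) := by
  intro f hf
  rcases hf with ⟨p, hp, hfp⟩ | ⟨A, s, b, c, hb, hc, hs, hst, hfr⟩
  · have hfe : f = fun u => MvPolynomial.eval u p := funext hfp
    refine ⟨by rw [hfe]; exact k3c_h1_eval_meas p, p, 0, 1, Set.univ, hp, by simp, by simp, ?_, isOpen_univ, Set.subset_univ _, ?_⟩
    · refine ⟨1, one_pos, fun u _ => ?_⟩
      simp only [map_one]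
      constructor <;> norm_num
    · intro u _
      rw [hfp]
      unfold sh2_val
      simp
  · have hfe : f = fun u => k4eRoot A (MvPolynomial.eval u b) (MvPolynomial.eval u c) s := funext hfr
    have hfm : Measurable f := by rw [hfe]; exact k3c_h1_root_meas A s b c
    have hstab := k3c_k4e_stable _ u₀ r hr hst
    have hpos := sh2_stable_pos (by norm_num : (1 : ℝ) ≤ 2) hstab
    have hDdeg := k3c_h1_disc_deg A b c hb hc
    by_cases hA : A = 0
    · -- the linear case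
      have hD : ∀ u, MvPolynomial.eval u (k4eDisc A b c) = MvPolynomial.eval u b ^ 2 := by
        intro u
        rw [k3c_h1_disc_eval, hA]
        ring
      have hu₀ : u₀ ∈ Set.Icc (fun i => u₀ i - r) (fun i => u₀ i + r) :=
        ⟨fun i => by simp only; linarith, fun i => by simp only; linarith⟩
      have hbne : ∀ u ∈ Set.Icc (fun i => u₀ i - r) (fun i => u₀ i + r), MvPolynomial.eval u b ≠ 0 := by
        intro u hu h0
        have := hpos hu
        rw [Set.mem_ofPred_eq, hD, h0] at this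
        norm_num at this
      obtain ⟨σ, hσ, hσ0⟩ : ∃ σ : ℝ, (σ = 1 ∨ σ = -1) ∧ 0 < σ * MvPolynomial.eval u₀ b := by
        rcases lt_or_gt_of_ne (hbne u₀ hu₀) with h | h
        · exact ⟨-1, Or.inr rfl, by linarith⟩
        · exact ⟨1, Or.inl rfl, by linarith⟩
      have hσ2 : σ * σ = 1 := by rcases hσ with rfl | rfl <;> norm_num
      have hcont : Continuous fun u : Fin n → ℝ => σ * MvPolynomial.eval u b := continuous_const.mul (MvPolynomial.continuous_eval b)
      refine ⟨hfm, 0, MvPolynomial.C (-σ) * c, k4eDisc A b c, {u | 0 < σ * MvPolynomial.eval u b}, by simp, k3c_h1_C_mul_deg _ _ _ hc, hDdeg, hstab,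
        isOpen_lt continuous_const hcont, ?_, ?_⟩
      · intro u hu
        by_contra hcon
        have hle : σ * MvPolynomial.eval u b ≤ 0 := not_lt.1 hcon
        obtain ⟨v, hv, hv0⟩ := (convex_Icc (fun i => u₀ i - r) (fun i => u₀ i + r)).isPreconnected.intermediate_value hu hu₀ hcont.continuousOn
          ⟨hle, hσ0.le⟩
        have hv0' : σ * MvPolynomial.eval v b = 0 := hv0
        rcases mul_eq_zero.1 hv0' with h | h
        · rw [h] at hσ2
          norm_num at hσ2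
        · exact hbne v hv h
      · intro u hu
        have hu' : 0 < σ * MvPolynomial.eval u b := hu
        have hb0 : MvPolynomial.eval u b ≠ 0 := by
          intro h0
          rw [h0] at hu'
          simp at hu'
        rw [hfr]
        unfold sh2_val k4eRoot
        rw [if_pos hA, hD]
        have hsq : Real.sqrt (MvPolynomial.eval u b ^ 2) = σ * MvPolynomial.eval u b := by
          rw [Real.sqrt_sq_eq_abs]
          rcases hσ with rfl | rfl
          · rw [abs_of_pos (by linarith)]; ring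
          · rw [abs_of_neg (by linarith)]; ring
        rw [hsq]
        simp only [map_zero, map_mul, MvPolynomial.eval_C, pow_one, zero_add]
        field_simp
        linear_combination (MvPolynomial.eval u c) * hσ2
    · refine ⟨hfm, MvPolynomial.C (-1 / (2 * A)) * b, MvPolynomial.C (s / (2 * A)) * k4eDisc A b c, k4eDisc A b c,
        {u | 0 < MvPolynomial.eval u (k4eDisc A b c)}, k3c_h1_C_mul_deg _ _ _ (hb.trans (by norm_num)), k3c_h1_C_mul_deg _ _ _ hDdeg, hDdeg, hstab,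
        isOpen_lt continuous_const (MvPolynomial.continuous_eval _), hpos, ?_⟩
      intro u hu
      have hu' : 0 < MvPolynomial.eval u (k4eDisc A b c) := hu
      rw [hfr]
      unfold sh2_val k4eRoot
      rw [if_neg hA]
      simp only [map_mul, MvPolynomial.eval_C, pow_one]
      rw [← k3c_h1_disc_eval]
      field_simp

/-! ## 2. The hubs      (LEAVES L-252-S3c-H2, H3, H4) -/

/-- **HUB `K4eRemez`** (LEAF H2).   PLAN: `k3c_sheet_remez n 2 0 1` (`kap = 2`): `p`, `C₀`;  first component of `sh2Bd` (values on the box);  `volume (Icc ..) = ofReal ((2r)^n)` (`Real.volume_Icc_pi`);  `C := max (C₀ 2^p) p`: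
`C₀ (2/θ)^p η ≤ C θ^(-C) η` because `θ ≤ 1` (`Real.rpow_le_rpow_of_exponent_ge`, `Real.rpow_neg`, `Real.rpow_natCast`) and `η ≥ 0` (`F` is nonempty, having positive measure). -/
theorem k3c_K4eRemez (n : ℕ) : ∃ C : ℝ, 1 ≤ C ∧ K4eRemez n C := by
  obtain ⟨p, C₀, hC₀, hrem⟩ := k3c_sheet_remez n 2 0 1
  have h2p : (1 : ℝ) ≤ 2 ^ p := one_le_pow₀ (by norm_num)
  have hC1 : 1 ≤ C₀ * 2 ^ p := by nlinarith
  refine ⟨max (C₀ * 2 ^ p) p, hC1.trans (le_max_left _ _), ?_⟩
  intro u₀ r θ η f g F hr hθ hθ1 hf hg _ hFsub hvol hclose u hu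
  have hab : ∀ i, u₀ i - r < u₀ i + r := fun i => by linarith
  rw [k3c_ball_eq_Icc u₀ r hr.le] at hFsub hu
  have hη : 0 ≤ η := by
    have hne : F.Nonempty := by
      by_contra hcon
      rw [Set.not_nonempty_iff_eq_empty] at hcon
      rw [hcon, measure_empty, nonpos_iff_eq_zero, ENNReal.ofReal_eq_zero] at hvol
      have : 0 < θ * (2 * r) ^ n := by positivity
      linarith
    obtain ⟨x, hx⟩ := hne
    exact (abs_nonneg _).trans (hclose x hx)
  have hvolI : volume (Set.Icc (fun i => u₀ i - r) (fun i => u₀ i + r)) = ENNReal.ofReal ((2 * r) ^ n) := by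
    rw [Real.volume_Icc_pi]
    have e : ∀ i : Fin n, u₀ i + r - (u₀ i - r) = 2 * r := fun i => by ring
    simp only [e]
    rw [Finset.prod_const, Finset.card_univ, Fintype.card_fin, ENNReal.ofReal_pow (by linarith)]
  have key := (hrem 2 _ _ θ η F (by norm_num) hab f (k3c_k4eSh_sub n u₀ r hr hf) g (k3c_k4eSh_sub n u₀ r hr hg) hθ hθ1 hFsub
    (by rw [hvolI, ← ENNReal.ofReal_mul hθ.le]; exact hvol) hclose).1 u hu
  refine key.trans (mul_le_mul_of_nonneg_right ?_ hη)
  have e1 : C₀ * (2 / θ) ^ p = C₀ * 2 ^ p * θ ^ (-(p : ℝ)) := by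
    rw [div_pow, Real.rpow_neg hθ.le, Real.rpow_natCast]
    ring
  rw [e1]
  have h3 : θ ^ (-(p : ℝ)) ≤ θ ^ (-(max (C₀ * 2 ^ p) (p : ℝ))) :=
    Real.rpow_le_rpow_of_exponent_ge hθ hθ1 (neg_le_neg (le_max_right _ _))
  exact mul_le_mul (le_max_left _ _) h3 (Real.rpow_nonneg hθ.le _) (by positivity)

/-- **HUB `K4eCode`** (LEAF H3).   PLAN: `k3c_sheet_node2 n 2 1`: `k`, `c`, `C₀`.   `m = (k+1)^n`, `e : Fin m ≃ (Fin n → Fin (k+1))` (`Fintype.equivFinOfCardEq`/`finFunctionFinEquiv.symm`);  `J f l = f (k3cGrid k (u₀ - r) (u₀ + r) (e l))` (values on the tensor grid; the grid lies in the box).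
`C = C₀ 2^c`.   First direction with constant `1 ≤ C` (`η ≥ 0`). -/
theorem k3c_K4eCode (n : ℕ) : ∃ (m : ℕ) (C : ℝ), 1 ≤ C ∧ K4eCode n m C := by
  obtain ⟨k, c, C₀, hk, hC₀, hnode⟩ := k3c_sheet_node2 n 2 1
  have hC : 1 ≤ C₀ * 2 ^ c := by
    have h2 : (1 : ℝ) ≤ 2 ^ c := one_le_pow₀ (by norm_num)
    nlinarith
  refine ⟨(k + 1) ^ n, C₀ * 2 ^ c, hC, ?_⟩
  intro u₀ r hr
  have hab : ∀ i, u₀ i - r < u₀ i + r := fun i => by linarith
  have hgrid : ∀ g : Fin n → Fin (k + 1),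
      k3cGrid k (fun i => u₀ i - r) (fun i => u₀ i + r) g ∈ Metric.closedBall u₀ r := by
    intro g
    rw [k3c_ball_eq_Icc u₀ r hr.le]
    have hk0 : (0 : ℝ) < k := by exact_mod_cast hk
    have hg : ∀ i, (((g i : ℕ) : ℝ)) / k ≤ 1 := by
      intro i
      rw [div_le_one hk0]
      exact_mod_cast Nat.lt_succ_iff.1 (g i).2
    have hg0 : ∀ i, 0 ≤ (((g i : ℕ) : ℝ)) / k := fun i => by positivity
    constructor
    · intro i
      show u₀ i - r ≤ u₀ i - r + (u₀ i + r - (u₀ i - r)) * ((g i : ℕ) : ℝ) / k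
      rw [mul_div_assoc]
      nlinarith [hg0 i]
    · intro i
      show u₀ i - r + (u₀ i + r - (u₀ i - r)) * ((g i : ℕ) : ℝ) / k ≤ u₀ i + r
      rw [mul_div_assoc]
      nlinarith [hg i]
  refine ⟨fun f l => f (k3cGrid k (fun i => u₀ i - r) (fun i => u₀ i + r) (finFunctionFinEquiv.symm l)), ?_⟩
  intro f hf g hg η
  constructor
  · intro hcl l
    have h1 := hcl _ (hgrid (finFunctionFinEquiv.symm l))
    have h0 : 0 ≤ η := (abs_nonneg _).trans h1
    exact h1.trans (le_mul_of_one_le_left h0 hC)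
  · intro hJ u hu
    rw [k3c_ball_eq_Icc u₀ r hr.le] at hu
    refine hnode 2 _ _ (by norm_num) hab f (k3c_k4eSh_sub n u₀ r hr hf) g (k3c_k4eSh_sub n u₀ r hr hg) η ?_ u hu
    intro γ
    have := hJ (finFunctionFinEquiv γ)
    simpa using this

/-- **HUB `K4eMatch`** (LEAF H4) = 03 Cor 3.4 for the comparison graphs.
PLAN.  `k3c_class_sheet 2 1`: `(k₀,p₀,k₁,p₁,c,C)`.   `k3c_match n k₀ p₀ k₁ p₁ d₀ hd`: `ε₁`, `R₁`.   `ε₀ := ε₁`, `R₀ := max R₁ (max 1 ((C 2^c)^(1/ε₁)))` so that `C 2^c ≤ R^ε₁`.   For `ε ≤ ε₁`, `d ≤ d₀`, `R ≥ R₀` all hypotheses of `K4eMatch n d ε R` imply those of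
`k3c_match` at `ε₁` (`R ≥ 1`: `R^ε ≤ R^ε₁`, `R^(d+ε) ≤ R^(d₀+ε₁)`, `R^(-ε₁) ≤ R^(-ε)`): box `a = u₀ - r`, `b = u₀ + r` (`k3c_ball_eq_Icc`, `∏ (b i - a i) = (2r)^n`), `S = k3cShC n 2 1 2 a b` (class constant raised to `R^ε₁`: fields of `K3cClass` + `sh2_good1_mono`),
`ι₁ = ι₂ = E`, `f₁ = f₂ = f`, `π₁ = π₂ = 1/card E` (if `E` is empty the mass is `0 < ofReal (R^(-ε))`);   gap: `pr e₁ e₂ ≠ 0` gives a point where the a.e. statement holds, so `¬ k4eClose ..`, i.e. `∃ u ∈ ball, M R^(-ε) < |f e₁ u - f e₂ u|`.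
Conclusion `< ofReal (R^(-ε₁)) ≤ ofReal (R^(-ε))`. -/
theorem k3c_K4eMatch (n : ℕ) (d₀ : ℝ) (hd : d₀ < 1) : ∃ ε₀ > 0, ∃ R₀ : ℝ, ∀ d ≤ d₀, ∀ ε, 0 < ε → ε ≤ ε₀ → ∀ R ≥ R₀, K4eMatch n d ε R := by
  obtain ⟨k₀, p₀, k₁, p₁, c, C, hk₀, hC, hclass⟩ := k3c_class_sheet 2 1
  obtain ⟨ε₁, hε₁, R₁, hmatch⟩ := k3c_match n k₀ p₀ k₁ p₁ d₀ hd
  refine ⟨ε₁, hε₁, max R₁ (max 1 ((C * 2 ^ c) ^ (1 / ε₁))), ?_⟩
  intro d hdd ε hε hεε R hR
  have hR₁ : R₁ ≤ R := (le_max_left _ _).trans hR
  have hR1 : 1 ≤ R := ((le_max_left _ _).trans (le_max_right _ _)).trans hR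
  have hR0 : 0 < R := lt_of_lt_of_le one_pos hR1
  have hC2 : 0 ≤ C * 2 ^ c := by positivity
  have hCR : C * 2 ^ c ≤ R ^ ε₁ := by
    have h1 : (C * 2 ^ c) ^ (1 / ε₁) ≤ R := ((le_max_right _ _).trans (le_max_right _ _)).trans hR
    calc C * 2 ^ c = ((C * 2 ^ c) ^ (1 / ε₁)) ^ ε₁ := by
          rw [← Real.rpow_mul hC2, one_div_mul_cancel hε₁.ne', Real.rpow_one]
      _ ≤ R ^ ε₁ := Real.rpow_le_rpow (Real.rpow_nonneg hC2 _) h1 hε₁.le
  have hRε : R ^ ε ≤ R ^ ε₁ := Real.rpow_le_rpow_of_exponent_le hR1 hεε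
  have hRn : R ^ (-ε₁) ≤ R ^ (-ε) := Real.rpow_le_rpow_of_exponent_le hR1 (neg_le_neg hεε)
  intro u₀ r M Δ E _ f f₀ pr hr hΔ hM hf₀ hf hcard hclose hm₁ hm₂ hev
  have hM0 : 0 < M := by rw [hM]; positivity
  have hball := k3c_ball_eq_Icc u₀ r hr.le
  have hprod : ∏ i : Fin n, ((u₀ i + r) - (u₀ i - r)) = (2 * r) ^ n := by
    have : ∀ i : Fin n, (u₀ i + r) - (u₀ i - r) = 2 * r := fun i => by ring
    simp [this]
  have hcl := hclass n 2 (fun i => u₀ i - r) (fun i => u₀ i + r) (by norm_num)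
  have hcl' : K3cClass k₀ p₀ k₁ p₁ (p₀ + 3) (R ^ ε₁) (fun i => u₀ i - r) (fun i => u₀ i + r)
      (k3cShC n 2 1 2 (fun i => u₀ i - r) (fun i => u₀ i + r)) :=
    ⟨hcl.meas, hcl.sm, fun F hF G hG x v hs => sh2_good1_mono le_rfl hCR (hcl.good₀ F hF G hG x v hs),
      fun F hF G hG x v hs => sh2_good1_mono le_rfl hCR (hcl.good₁ F hF G hG x v hs)⟩
  have hmarg : ENNReal.ofReal (R ^ ε / (Fintype.card E * (2 * r) ^ n))
      ≤ ENNReal.ofReal (R ^ ε₁ * (1 / (Fintype.card E : ℝ)) / ∏ i : Fin n, ((u₀ i + r) - (u₀ i - r))) := by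
    rw [hprod]
    refine ENNReal.ofReal_le_ofReal ?_
    rw [mul_one_div, div_div]
    exact div_le_div_of_nonneg_right hRε (by positivity)
  have hsum : ∑ _e : E, (1 / (Fintype.card E : ℝ)) ≤ 1 := by
    rw [Finset.sum_const, Finset.card_univ, nsmul_eq_mul, mul_one_div]
    exact div_self_le_one _
  have key := hmatch R hR₁ (fun i => u₀ i - r) (fun i => u₀ i + r)
    (k3cShC n 2 1 2 (fun i => u₀ i - r) (fun i => u₀ i + r)) M Δ E E f f f₀
    (fun _ => 1 / (Fintype.card E : ℝ)) (fun _ => 1 / (Fintype.card E : ℝ)) pr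
    (fun i => by linarith) hΔ hM hcl' (fun e => k3c_k4eSh_sub n u₀ r hr (hf e)) (fun e => k3c_k4eSh_sub n u₀ r hr (hf e))
    (hcard.trans (Real.rpow_le_rpow_of_exponent_le hR1 (add_le_add hdd hεε)))
    (fun e u hu => (hclose e u (hball ▸ hu)).trans (mul_le_mul_of_nonneg_left hRε hM0.le))
    (fun e u hu => (hclose e u (hball ▸ hu)).trans (mul_le_mul_of_nonneg_left hRε hM0.le))
    (fun _ => by positivity) (fun _ => by positivity) hsum hsum
    (fun e₁ => by
      rw [← hball]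
      refine (hm₁ e₁).trans (Measure.le_iff'.2 fun s => ?_)
      rw [Measure.smul_apply, Measure.smul_apply, smul_eq_mul, smul_eq_mul]
      exact mul_le_mul_left hmarg _)
    (fun e₂ => by
      rw [← hball]
      refine (hm₂ e₂).trans (Measure.le_iff'.2 fun s => ?_)
      rw [Measure.smul_apply, Measure.smul_apply, smul_eq_mul, smul_eq_mul]
      exact mul_le_mul_left hmarg _)
    (fun e₁ e₂ => (hev e₁ e₂).mono fun u hu => hu.1.trans (mul_le_mul_of_nonneg_left hRε hΔ.le))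
    (fun e₁ e₂ hne => by
      have : (ae (pr e₁ e₂)).NeBot := ae_neBot.2 hne
      obtain ⟨u, -, hu⟩ := (hev e₁ e₂).exists
      unfold k4eClose at hu
      push Not at hu
      obtain ⟨u', hu', hlt⟩ := hu
      exact ⟨u', hball ▸ hu', (mul_le_mul_of_nonneg_left hRn hM0.le).trans hlt.le⟩)
  exact key.trans_le (ENNReal.ofReal_le_ofReal hRn)

end

end Claimed.Agent.R252
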