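-- KEEP
import Claimed.Agent.R252.Sheet.AbsContract
import Claimed.Agent.R252.S6b.SqGen
import Claimed.Agent.R252.S3a.Contract
import Claimed.Agent.R252.Sheet.MvContract

/-! PACKED FILE (helper10, closed unit): parts S3c.GoodContract, S3c.RadContract, S3c.MatchDefs, S3c.RadMvContract.  Each part is wrapped in its own `section`. -/

section PkS3cGoodContract

/-!
# ROW 252 (S0492), unit S3c (post BP-252-S3c, sub-architect helper172, chief helper10), file 1: GOOD FUNCTIONS OF ONE VARIABLE: CLOSURE LEMMAS.   (all leaves G1-G5b PROVED, helper78)   -- KEEP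

PAPER-FREE.  Imports: Mathlib, `R252/Remez`, `R252/Sheet/{Defs,AbsContract}` (`sh2Good1`: MEASURE form), `R252/S6b/SqGen` (`k6b_rolle_iter`, `k6b_gap_le`: black boxes).  Prefix `k3c_` / `k3c` / `K3c`.
The `sorry`s are the leaves `L-252-S3c-G*`: prove IN PLACE, statement verbatim, helper lemmas directly above (same prefix).  Earlier statements of this file may be cited even if still `sorry`.

PURPOSE.  `k3cGood1 k p q C h` (NODE form, defined HERE; it implies the measure form `sh2Good1 k p q C h`: `k3c_good1_meas`; the closure lemma (C) is FALSE for the measure form: `k+1` `δ`-separated nodes in `[-1,1]` with `|h| ≤ M` bound `h, h', .., h^(q)` on `[-1,1]` by `C δ^(-p) M`) is closed under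
 (A) polynomials are good                         `k3c_poly_good1`
 (B) multiplication by a stable smooth weight     `k3c_good1_mul`
 (C) `n`-fold integration                         `k3c_good1_int`   (`h^(n)` good ⟹ `h` good; iterated Rolle + Lagrange on consecutive groups of `n+1` sorted nodes)
`S3c/RadContract.lean` deduces by induction on the number of terms that all sums `∑ P_i D₁^(a_i) D₂^(b_i)` are good (differences of TWO square-root sheets; 03 L3.1 for the sheets really used).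
-/

set_option autoImplicit false

namespace Claimed.Agent.R252

open Polynomial MeasureTheory

noncomputable section

/-! ## 1. Smooth functions near `[-1,1]`      (LEAF L-252-S3c-G1) -/

/-- smooth (all finite orders) at every point of `[-1,1]` -/
def k3cSm (h : ℝ → ℝ) : Prop := ∀ t ∈ Set.Icc (-1 : ℝ) 1, ∀ N : ℕ, ContDiffAt ℝ (N : WithTop ℕ∞) h t

/-- **good functions of one variable, NODE form** (normalised): `k + 1` `δ`-separated nodes of `[-1,1]` with `|h| ≤ M` bound `h, .., h^(q)` on `[-1,1]` by `C δ⁻¹^p M` -/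
def k3cGood1 (k p q : ℕ) (C : ℝ) (h : ℝ → ℝ) : Prop :=
  ∀ (x : Fin (k + 1) → ℝ) (δ M : ℝ), 0 < δ → (∀ i, |x i| ≤ 1) → (∀ i j, i ≠ j → δ ≤ |x i - x j|) → (∀ i, |h (x i)| ≤ M) →
    ∀ j ≤ q, ∀ t ∈ Set.Icc (-1 : ℝ) 1, |iteratedDeriv j h t| ≤ C * δ⁻¹ ^ p * M

theorem k3c_good_eqns_cite : True := by
  have := @k3cSm.eq_1
  have := @k3cGood1.eq_1
  trivial

theorem k3c_good1_mono {k p q q' : ℕ} {C C' : ℝ} (hq : q' ≤ q) (hC : C ≤ C') {h : ℝ → ℝ} (hg : k3cGood1 k p q C h) : k3cGood1 k p q' C' h := by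
  intro x δ M hδ hx hsep hM j hj t ht
  have hM0 : 0 ≤ M := (abs_nonneg _).trans (hM 0)
  refine (hg x δ M hδ hx hsep hM j (hj.trans hq) t ht).trans ?_
  have h1 : 0 ≤ δ⁻¹ ^ p := by positivity
  exact mul_le_mul_of_nonneg_right (mul_le_mul_of_nonneg_right hC h1) hM0

/-- **BRIDGE: the node form implies the measure form** (`E` ANY subset of `[-1,1]` of outer measure `≥ 2 θ`): `rmz_nodes_int k E (-1) 1 θ`, gaps `θ/(k+1)` -/
theorem k3c_good1_meas {k p q : ℕ} {C : ℝ} {h : ℝ → ℝ} (hg : k3cGood1 k p q C h) : sh2Good1 k p q C h := by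
  intro E θ M hθ hE hvol hM j hj t ht
  obtain ⟨x, hxE, hsep⟩ := rmz_nodes_int k E (-1) 1 θ (by norm_num) hθ (by
    rw [show θ * (1 - (-1 : ℝ)) = 2 * θ by ring]; exact hvol)
  have hk : (0 : ℝ) < (k : ℝ) + 1 := by positivity
  have e : (θ / ((k : ℝ) + 1))⁻¹ = ((k : ℝ) + 1) / θ := inv_div _ _
  have := hg x (θ / ((k : ℝ) + 1)) M (by positivity) (fun i => abs_le.2 (hE (hxE i)))
    (fun i i' hii => by
      have h1 := hsep i i' hii
      have e2 : θ * (1 - (-1 : ℝ)) / (2 * ((k : ℝ) + 1)) = θ / ((k : ℝ) + 1) := by field_simp; ring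
      rwa [e2] at h1)
    (fun i => hM _ (hxE i)) j hj t ht
  rwa [e] at this

/-- (`iteratedDeriv_eq_iterate`, `Function.iterate_add_apply`) -/
theorem k3c_iter_iter (h : ℝ → ℝ) (n j : ℕ) : iteratedDeriv j (iteratedDeriv n h) = iteratedDeriv (j + n) h := by
  rw [iteratedDeriv_eq_iterate, iteratedDeriv_eq_iterate, iteratedDeriv_eq_iterate, Function.iterate_add_apply]

/-- (induction on `n` generalizing `h`, `iteratedDeriv_succ'`, `ContDiffAt.derivWithin` [which is about `deriv`]) -/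
theorem k3c_contDiffAt_iter (h : ℝ → ℝ) (t : ℝ) (n N : ℕ) (hh : ContDiffAt ℝ ((N + n : ℕ) : WithTop ℕ∞) h t) :
    ContDiffAt ℝ (N : WithTop ℕ∞) (iteratedDeriv n h) t := by
  induction n generalizing h with
  | zero => simpa [iteratedDeriv_zero] using hh
  | succ n ih =>
    rw [iteratedDeriv_succ']
    apply ih
    have h1 : ((N + n : ℕ) : WithTop ℕ∞) + 1 ≤ ((N + (n + 1) : ℕ) : WithTop ℕ∞) := by
      have : ((N + (n + 1) : ℕ) : WithTop ℕ∞) = ((N + n : ℕ) : WithTop ℕ∞) + 1 := by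
        rw [← Nat.add_assoc]; push_cast; rfl
      rw [this]
    exact hh.derivWithin h1

theorem k3c_sm_iter {h : ℝ → ℝ} (hh : k3cSm h) (n : ℕ) : k3cSm (iteratedDeriv n h) := by
  intro t ht N
  exact k3c_contDiffAt_iter h t n N (hh t ht (N + n))

/-- the iterated derivatives are a jet (`k3c_contDiffAt_iter` with `N = 1`, `ContDiffAt.differentiableAt`, `iteratedDeriv_succ`) -/
theorem k3c_sm_jet {h : ℝ → ℝ} (hh : k3cSm h) (j : ℕ) (t : ℝ) (ht : t ∈ Set.Icc (-1 : ℝ) 1) :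
    HasDerivAt (iteratedDeriv j h) (iteratedDeriv (j + 1) h t) t := by
  have h1 : ContDiffAt ℝ ((1 : ℕ) : WithTop ℕ∞) (iteratedDeriv j h) t := k3c_sm_iter hh j t ht 1
  have h2 : DifferentiableAt ℝ (iteratedDeriv j h) t := h1.differentiableAt (by simp)
  rw [iteratedDeriv_succ]
  exact h2.hasDerivAt

theorem k3c_sm_add {f g : ℝ → ℝ} (hf : k3cSm f) (hg : k3cSm g) : k3cSm fun t => f t + g t := by
  intro t ht N
  exact (hf t ht N).add (hg t ht N)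

theorem k3c_sm_sub {f g : ℝ → ℝ} (hf : k3cSm f) (hg : k3cSm g) : k3cSm fun t => f t - g t := by
  intro t ht N
  exact (hf t ht N).sub (hg t ht N)

theorem k3c_sm_mul {f g : ℝ → ℝ} (hf : k3cSm f) (hg : k3cSm g) : k3cSm fun t => f t * g t := by
  intro t ht N
  exact (hf t ht N).mul (hg t ht N)

theorem k3c_sm_sum {ι : Type} (s : Finset ι) {f : ι → ℝ → ℝ} (hf : ∀ i ∈ s, k3cSm (f i)) : k3cSm fun t => ∑ i ∈ s, f i t := by
  intro t ht N
  exact ContDiffAt.sum fun i hi => hf i hi t ht N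

/-- (`Polynomial.contDiff_aeval`, or `Polynomial.contDiff`) -/
theorem k3c_sm_poly (P : ℝ[X]) : k3cSm fun t => P.eval t := by
  intro t _ N
  have h1 := (Polynomial.contDiff_aeval (𝕜 := ℝ) P (N : WithTop ℕ∞)).contDiffAt (x := t)
  simpa [Polynomial.coe_aeval_eq_eval] using h1

/-- (`Polynomial.deriv`, `iteratedDeriv_succ'`, `Function.iterate_succ_apply`) -/
theorem k3c_iter_poly (P : ℝ[X]) (j : ℕ) : iteratedDeriv j (fun t : ℝ => P.eval t) = fun t : ℝ => (derivative^[j] P).eval t := by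
  induction j generalizing P with
  | zero => simp [iteratedDeriv_zero]
  | succ j ih =>
    rw [iteratedDeriv_succ']
    have h1 : deriv (fun t : ℝ => P.eval t) = fun t : ℝ => (derivative P).eval t := by
      funext t
      exact Polynomial.deriv P
    rw [h1, ih, Function.iterate_succ_apply]

/-- functions which coincide on an open set have the same iterated derivatives there (`Filter.EventuallyEq.iteratedDeriv_eq`, `IsOpen.mem_nhds`) -/
theorem k3c_iter_congr {U : Set ℝ} (hU : IsOpen U) {f g : ℝ → ℝ} (hfg : ∀ t ∈ U, f t = g t) (j : ℕ) (t : ℝ) (ht : t ∈ U) :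
    iteratedDeriv j f t = iteratedDeriv j g t := by
  apply Filter.EventuallyEq.iteratedDeriv_eq
  filter_upwards [hU.mem_nhds ht] with s hs using hfg s hs

theorem k3c_sm_congr {U : Set ℝ} (hU : IsOpen U) (hI : Set.Icc (-1 : ℝ) 1 ⊆ U) {f g : ℝ → ℝ} (hfg : ∀ t ∈ U, f t = g t) (hf : k3cSm f) : k3cSm g := by
  intro t ht N
  refine (hf t ht N).congr_of_eventuallyEq ?_
  filter_upwards [hU.mem_nhds (hI ht)] with s hs using (hfg s hs).symm

theorem k3c_good1_congr {k p q : ℕ} {C : ℝ} {U : Set ℝ} (hU : IsOpen U) (hI : Set.Icc (-1 : ℝ) 1 ⊆ U) {f g : ℝ → ℝ} (hfg : ∀ t ∈ U, f t = g t)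
    (hf : k3cGood1 k p q C f) : k3cGood1 k p q C g := by
  intro x δ M hδ hx hsep hM j hj t ht
  rw [← k3c_iter_congr hU hfg j t (hI ht)]
  refine hf x δ M hδ hx hsep (fun i => ?_) j hj t ht
  rw [hfg _ (hI (abs_le.1 (hx i)))]
  exact hM i

/-- the exponent of `δ⁻¹` may be raised: two distinct nodes (`k ≥ 1`: `0 ≠ Fin.last k`) give `δ ≤ 2`, so `δ⁻¹^p = δ⁻¹^p' δ^(p'-p) ≤ 2^(p'-p) δ⁻¹^p'` -/
theorem k3c_good1_mono_p {k p p' q : ℕ} {C : ℝ} {h : ℝ → ℝ} (hk : 1 ≤ k) (hp : p ≤ p') (hC : 0 ≤ C) (hg : k3cGood1 k p q C h) :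
    k3cGood1 k p' q (2 ^ (p' - p) * C) h := by
  intro x δ M hδ hx hsep hM j hj t ht
  have hM0 : 0 ≤ M := (abs_nonneg _).trans (hM 0)
  have hne : (0 : Fin (k + 1)) ≠ Fin.last k := by
    intro e
    have := congrArg Fin.val e
    simp at this
    omega
  have hδ2 : δ ≤ 2 := by
    have h1 := hsep 0 (Fin.last k) hne
    have h2 := abs_le.1 (hx 0)
    have h3 := abs_le.1 (hx (Fin.last k))
    have h4 : |x 0 - x (Fin.last k)| ≤ 2 := by
      rw [abs_le]; constructor <;> linarith [h2.1, h2.2, h3.1, h3.2]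
    linarith
  refine (hg x δ M hδ hx hsep hM j hj t ht).trans ?_
  have h1 : δ⁻¹ ^ p ≤ 2 ^ (p' - p) * δ⁻¹ ^ p' := by
    have e : δ⁻¹ ^ p' = δ⁻¹ ^ (p' - p) * δ⁻¹ ^ p := by rw [← pow_add, Nat.sub_add_cancel hp]
    rw [e, ← mul_assoc, ← mul_pow]
    have h2 : 1 ≤ 2 * δ⁻¹ := by
      rw [← div_eq_mul_inv, le_div_iff₀ hδ]; linarith
    have h3 : 1 ≤ (2 * δ⁻¹) ^ (p' - p) := one_le_pow₀ h2
    have h4 : 0 ≤ δ⁻¹ ^ p := by positivity
    nlinarith
  calc C * δ⁻¹ ^ p * M ≤ C * (2 ^ (p' - p) * δ⁻¹ ^ p') * M :=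
        mul_le_mul_of_nonneg_right (mul_le_mul_of_nonneg_left h1 hC) hM0
    _ = 2 ^ (p' - p) * C * δ⁻¹ ^ p' * M := by ring

/-- more nodes than necessary (use the first `k + 1` nodes: `x ∘ Fin.castLE`) -/
theorem k3c_good1_mono_k {k k' p q : ℕ} {C : ℝ} {h : ℝ → ℝ} (hk : k ≤ k') (hg : k3cGood1 k p q C h) : k3cGood1 k' p q C h := by
  intro x δ M hδ hx hsep hM j hj t ht
  have hle : k + 1 ≤ k' + 1 := by omega
  refine hg (fun i => x (Fin.castLE hle i)) δ M hδ (fun i => hx _) (fun i i' hii => hsep _ _ ?_) (fun i => hM _) j hj t ht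
  intro e
  exact hii (Fin.castLE_injective hle e)

/-! ## 2. (A) polynomials, (B) weights      (LEAF L-252-S3c-G2) -/

/-- **(A) polynomials are good.**   `C = (k+1) 2^k max(k,1)^q`.
PLAN: `rmz_nodes_coeff k P hP x δ 1 M`: `rmzN P ≤ (k+1) (2/δ)^k M`;  `k3c_iter_poly`;  `rmz_eval_le _ k _ 1 t` (degree of `derivative^[j] P` `≤ k`: `Polynomial.natDegree_iterate_derivative`), `rmz_N_iter_derivative P k hP j`. -/
theorem k3c_poly_good1 (k q : ℕ) : ∃ C : ℝ, 1 ≤ C ∧ ∀ P : ℝ[X], P.natDegree ≤ k → k3cGood1 k k q C fun t : ℝ => P.eval t := by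
  have hmx : (1 : ℝ) ≤ ((max k 1 : ℕ) : ℝ) := by exact_mod_cast le_max_right k 1
  refine ⟨((k : ℝ) + 1) * 2 ^ k * ((max k 1 : ℕ) : ℝ) ^ q, ?_, ?_⟩
  · have h1 : (1 : ℝ) ≤ (k : ℝ) + 1 := by have : (0 : ℝ) ≤ k := Nat.cast_nonneg k; linarith
    have h2 : (1 : ℝ) ≤ 2 ^ k := one_le_pow₀ (by norm_num)
    have h3 : (1 : ℝ) ≤ ((max k 1 : ℕ) : ℝ) ^ q := one_le_pow₀ hmx
    calc (1 : ℝ) = 1 * 1 * 1 := by norm_num
      _ ≤ _ := by gcongr
  · intro P hP x δ M hδ hx hsep hM j hj t ht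
    have hM0 : 0 ≤ M := (abs_nonneg _).trans (hM 0)
    have hN := rmz_nodes_coeff k P hP x δ 1 M hδ hsep hx hM
    rw [k3c_iter_poly]
    have h2 := rmz_eval_le (derivative^[j] P) k ((natDegree_iterate_derivative P j).trans ((Nat.sub_le _ _).trans hP)) 1 t le_rfl
      (abs_le.2 ht)
    rw [one_pow, mul_one] at h2
    have h3 := rmz_N_iter_derivative P k hP j
    have h4 : (k : ℝ) ^ j ≤ ((max k 1 : ℕ) : ℝ) ^ q := by
      calc (k : ℝ) ^ j ≤ ((max k 1 : ℕ) : ℝ) ^ j := by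
            apply pow_le_pow_left₀ (Nat.cast_nonneg k)
            exact_mod_cast le_max_left k 1
        _ ≤ ((max k 1 : ℕ) : ℝ) ^ q := pow_le_pow_right₀ hmx hj
    have h5 : ((1 : ℝ) + 1) / δ = 2 * δ⁻¹ := by rw [div_eq_mul_inv]; norm_num
    rw [h5, mul_pow] at hN
    have h6 : 0 ≤ rmzN P := rmz_N_nonneg P
    calc |(derivative^[j] P).eval t| ≤ (k : ℝ) ^ j * rmzN P := h2.trans h3
      _ ≤ ((max k 1 : ℕ) : ℝ) ^ q * (((k : ℝ) + 1) * (2 ^ k * δ⁻¹ ^ k) * M) := by gcongr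
      _ = ((k : ℝ) + 1) * 2 ^ k * ((max k 1 : ℕ) : ℝ) ^ q * δ⁻¹ ^ k * M := by ring

/-- **(B) multiplication by a stable weight.**
PLAN: at the nodes `|g (x i)| ≤ κ₂ |W (x i)| |g (x i)| ≤ κ₂ M` (`κ₂ > 0` by `h2`);  goodness of `g`: `|g^(i)| ≤ C δ⁻¹^p (κ₂ M)` for `i ≤ q`;
Leibniz `iteratedDeriv_fun_mul` / `iteratedDeriv_mul` (`ContDiffAt` from `hW`, `hg`): `|(W g)^(j)| ≤ ∑_{i ≤ j} (j choose i) κ₁ C δ⁻¹^p κ₂ M = 2^j ..` (`Nat.sum_range_choose`), `2^j ≤ 2^q`. -/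
theorem k3c_good1_mul {k p q : ℕ} {C κ₁ κ₂ : ℝ} (hC : 0 ≤ C) (W g : ℝ → ℝ) (hW : k3cSm W) (hg : k3cSm g)
    (h1 : ∀ j ≤ q, ∀ t ∈ Set.Icc (-1 : ℝ) 1, |iteratedDeriv j W t| ≤ κ₁) (h2 : ∀ t ∈ Set.Icc (-1 : ℝ) 1, 1 ≤ κ₂ * |W t|)
    (hgood : k3cGood1 k p q C g) : k3cGood1 k p q (2 ^ q * κ₁ * κ₂ * C) fun t => W t * g t := by
  intro x δ M hδ hx hsep hM j hj t ht
  have hM0 : 0 ≤ M := (abs_nonneg _).trans (hM 0)
  have hκ2 : 0 < κ₂ := by
    have h3 := h2 t ht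
    by_contra hcon
    have : κ₂ * |W t| ≤ 0 := mul_nonpos_of_nonpos_of_nonneg (not_lt.1 hcon) (abs_nonneg _)
    linarith
  have hκ1 : 0 ≤ κ₁ := (abs_nonneg _).trans (h1 0 (Nat.zero_le _) t ht)
  have hnode : ∀ i, |g (x i)| ≤ κ₂ * M := by
    intro i
    have h3 := h2 (x i) (abs_le.1 (hx i))
    have h4 := hM i
    rw [abs_mul] at h4
    calc |g (x i)| = 1 * |g (x i)| := (one_mul _).symm
      _ ≤ κ₂ * |W (x i)| * |g (x i)| := mul_le_mul_of_nonneg_right h3 (abs_nonneg _)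
      _ = κ₂ * (|W (x i)| * |g (x i)|) := by ring
      _ ≤ κ₂ * M := mul_le_mul_of_nonneg_left h4 hκ2.le
  have hgd := hgood x δ (κ₂ * M) hδ hx hsep hnode
  have hB0 : 0 ≤ C * δ⁻¹ ^ p * (κ₂ * M) := by positivity
  have e := iteratedDeriv_fun_mul (hW t ht j) (hg t ht j)
  rw [e]
  calc |∑ i ∈ Finset.range (j + 1), (j.choose i : ℝ) * iteratedDeriv i W t * iteratedDeriv (j - i) g t|
      ≤ ∑ i ∈ Finset.range (j + 1), |(j.choose i : ℝ) * iteratedDeriv i W t * iteratedDeriv (j - i) g t| := Finset.abs_sum_le_sum_abs _ _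
    _ ≤ ∑ i ∈ Finset.range (j + 1), (j.choose i : ℝ) * (κ₁ * (C * δ⁻¹ ^ p * (κ₂ * M))) := by
        refine Finset.sum_le_sum fun i hi => ?_
        have hi' : i ≤ j := Nat.lt_succ_iff.1 (Finset.mem_range.1 hi)
        rw [abs_mul, abs_mul, Nat.abs_cast, mul_assoc]
        refine mul_le_mul_of_nonneg_left ?_ (Nat.cast_nonneg _)
        exact mul_le_mul (h1 i (hi'.trans hj) t ht) (hgd (j - i) ((Nat.sub_le _ _).trans hj) t ht) (abs_nonneg _) hκ1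
    _ = (2 : ℝ) ^ j * (κ₁ * (C * δ⁻¹ ^ p * (κ₂ * M))) := by
        rw [← Finset.sum_mul]
        congr 1
        exact_mod_cast Nat.sum_range_choose j
    _ ≤ (2 : ℝ) ^ q * (κ₁ * (C * δ⁻¹ ^ p * (κ₂ * M))) := by
        refine mul_le_mul_of_nonneg_right (pow_le_pow_right₀ (by norm_num) hj) (by positivity)
    _ = 2 ^ q * κ₁ * κ₂ * C * δ⁻¹ ^ p * M := by ring

/-! ## 3. Sorted nodes, groups      (LEAF L-252-S3c-G3) -/

/-- **sorting**: `δ`-separated nodes can be enumerated increasingly.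
PLAN: as in `k6b_nodes_sorted` (`R252/S6b/SqGen.lean`): `x` is injective (`rmz_sep_inj`), `S = Finset.univ.image x`, `S.card = N + 1`, `e = S.orderEmbOfFin _`, `y i = if h : i < N + 1 then e ⟨i, h⟩ else 0`;
`e i = x (τ i)` (`Finset.orderEmbOfFin_mem`), `e i < e (i+1)`, so `τ i ≠ τ (i+1)` and `e (i+1) - e i = |x (τ (i+1)) - x (τ i)| ≥ δ`. -/
theorem k3c_sort (N : ℕ) (x : Fin (N + 1) → ℝ) (δ : ℝ) (hδ : 0 < δ) (hsep : ∀ i j, i ≠ j → δ ≤ |x i - x j|) :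
    ∃ y : ℕ → ℝ, (∀ i ≤ N, ∃ l, y i = x l) ∧ ∀ i < N, y i + δ ≤ y (i + 1) := by
  classical
  have hinj := rmz_sep_inj hδ hsep
  have hcard : (Finset.univ.image x).card = N + 1 := by
    rw [Finset.card_image_of_injective _ hinj, Finset.card_univ, Fintype.card_fin]
  have hmem : ∀ i : Fin (N + 1), ∃ k, x k = (Finset.univ.image x).orderEmbOfFin hcard i := by
    intro i
    have := Finset.orderEmbOfFin_mem (Finset.univ.image x) hcard i
    obtain ⟨k, -, hk⟩ := Finset.mem_image.1 this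
    exact ⟨k, hk⟩
  refine ⟨fun i => if h : i < N + 1 then (Finset.univ.image x).orderEmbOfFin hcard ⟨i, h⟩ else 0,
    fun i hi => ?_, fun i hi => ?_⟩
  · have h : i < N + 1 := by omega
    simp only [dif_pos h]
    obtain ⟨k, hk⟩ := hmem ⟨i, h⟩
    exact ⟨k, hk.symm⟩
  · have h1 : i < N + 1 := by omega
    have h2 : i + 1 < N + 1 := by omega
    simp only [dif_pos h1, dif_pos h2]
    obtain ⟨a, ha⟩ := hmem ⟨i, h1⟩
    obtain ⟨b, hb⟩ := hmem ⟨i + 1, h2⟩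
    have hlt : (Finset.univ.image x).orderEmbOfFin hcard ⟨i, h1⟩
        < (Finset.univ.image x).orderEmbOfFin hcard ⟨i + 1, h2⟩ :=
      ((Finset.univ.image x).orderEmbOfFin hcard).strictMono (by simp [Fin.lt_def])
    rw [← ha, ← hb] at hlt ⊢
    have hne : b ≠ a := fun e => by rw [e] at hlt; exact lt_irrefl _ hlt
    have := hsep b a hne
    rw [abs_of_pos (by linarith)] at this
    linarith

/-! ## 4. Lagrange + Rolle on `[-1,1]`      (LEAF L-252-S3c-G4) -/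

/-- **a point where the `m`-th derivative is small.**   This is `k6b_rolle_small` (`R252/S6b/SqGen.lean`) on `[-1,1]` instead of `[0,1]`: COPY its proof (the nodes satisfy `|x i| ≤ 1` in both cases; `rmz_nodes_coeff` with `L = 1`, `rmz_eval_le` with `L = 1`). -/
theorem k3c_rolle_small (m : ℕ) (g : ℕ → ℝ → ℝ) (x : ℕ → ℝ) (σ ε : ℝ) (hσ : 0 < σ)
    (hx : ∀ i ≤ m, x i ∈ Set.Icc (-1 : ℝ) 1) (hgap : ∀ i < m, x i + σ ≤ x (i + 1))
    (hg : ∀ j < m, ∀ t ∈ Set.Icc (-1 : ℝ) 1, HasDerivAt (g j) (g (j + 1) t) t)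
    (hε : ∀ i ≤ m, |g 0 (x i)| ≤ ε) :
    ∃ ζ ∈ Set.Icc (x 0) (x m), |g m ζ| ≤ (m : ℝ) ^ m * (((m : ℝ) + 1) * (2 / σ) ^ m * ε) := by
  classical
  obtain ⟨v, hv⟩ : ∃ v : Fin (m + 1) → ℝ, ∀ i, v i = x i := ⟨fun i => x i, fun _ => rfl⟩
  have hsep : ∀ i j : Fin (m + 1), i ≠ j → σ ≤ |v i - v j| := by
    intro i j hij
    rcases lt_or_gt_of_ne (Fin.val_ne_of_ne hij) with h | h
    · have h1 := k6b_gap_le x σ hσ.le m hgap i j h (Nat.lt_succ_iff.1 j.2)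
      rw [hv, hv, abs_sub_comm, le_abs]
      left
      linarith
    · have h1 := k6b_gap_le x σ hσ.le m hgap j i h (Nat.lt_succ_iff.1 i.2)
      rw [hv, hv, le_abs]
      left
      linarith
  have hinj := rmz_sep_inj hσ hsep
  obtain ⟨L, hL⟩ : ∃ L : ℝ[X], L = Lagrange.interpolate Finset.univ v (fun i => g 0 (v i)) := ⟨_, rfl⟩
  have hLdeg : L.natDegree ≤ m := by
    have h1 := Lagrange.degree_interpolate_lt (s := Finset.univ) (v := v) (fun i => g 0 (v i)) hinj.injOn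
    rw [Finset.card_univ, Fintype.card_fin, ← hL] at h1
    by_cases h0 : L = 0
    · rw [h0]; simp
    · have h2 := (natDegree_lt_iff_degree_lt h0).2 h1
      omega
  have hLev : ∀ i : Fin (m + 1), L.eval (v i) = g 0 (v i) := by
    intro i
    rw [hL]
    exact Lagrange.eval_interpolate_at_node _ hinj.injOn (Finset.mem_univ i)
  have hN := rmz_nodes_coeff m L hLdeg v σ 1 ε hσ hsep
    (fun i => by
      have := hx i (Nat.lt_succ_iff.1 i.2)
      rw [hv, abs_le]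
      constructor <;> linarith [this.1, this.2])
    (fun i => by
      rw [hLev, hv]
      exact hε i (Nat.lt_succ_iff.1 i.2))
  have hsub : Set.Icc (x 0) (x m) ⊆ Set.Icc (-1 : ℝ) 1 := fun t ht =>
    ⟨(hx 0 (Nat.zero_le _)).1.trans ht.1, ht.2.trans (hx m le_rfl).2⟩
  obtain ⟨ζ, hζ, hζ0⟩ := k6b_rolle_iter m (fun j t => g j t - (derivative^[j] L).eval t) x
    (fun i hi => by linarith [hgap i hi])
    (fun j hj t ht => by
      have h1 := (hg j hj t (hsub ht)).sub ((derivative^[j] L).hasDerivAt t)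
      rw [← Function.iterate_succ_apply' derivative j L] at h1
      exact h1)
    (fun i hi => by
      have h1 := hLev ⟨i, Nat.lt_succ_of_le hi⟩
      rw [hv] at h1
      simp only [Function.iterate_zero, id_eq]
      rw [h1]
      exact sub_self _)
  refine ⟨ζ, hζ, ?_⟩
  have h1 : g m ζ = (derivative^[m] L).eval ζ := by
    have : g m ζ - (derivative^[m] L).eval ζ = 0 := hζ0
    linarith
  rw [h1]
  have hζ1 := hsub hζ
  have h2 := rmz_eval_le (derivative^[m] L) m ((natDegree_iterate_derivative L m).trans ((Nat.sub_le _ _).trans hLdeg)) 1 ζ le_rfl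
    (by rw [abs_le]; constructor <;> linarith [hζ1.1, hζ1.2])
  rw [one_pow, mul_one] at h2
  have h3 := rmz_N_iter_derivative L m hLdeg m
  have h4 : (1 + 1 : ℝ) = 2 := by norm_num
  rw [h4] at hN
  exact h2.trans (h3.trans (mul_le_mul_of_nonneg_left hN (by positivity)))

/-- mean value inequality on `[-1,1]` (`Convex.norm_image_sub_le_of_norm_hasDerivWithin_le` on `Icc (-1) 1`: `|f t - f ζ| ≤ M |t - ζ| ≤ 2 M`) -/
theorem k3c_mv_down (f f' : ℝ → ℝ) (M M' ζ : ℝ) (hζ : ζ ∈ Set.Icc (-1 : ℝ) 1)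
    (hf : ∀ t ∈ Set.Icc (-1 : ℝ) 1, HasDerivAt f (f' t) t) (hM : ∀ t ∈ Set.Icc (-1 : ℝ) 1, |f' t| ≤ M) (hζ' : |f ζ| ≤ M') :
    ∀ t ∈ Set.Icc (-1 : ℝ) 1, |f t| ≤ M' + 2 * M := by
  intro t ht
  have hM0 : 0 ≤ M := (abs_nonneg _).trans (hM t ht)
  have h1 := Convex.norm_image_sub_le_of_norm_hasDerivWithin_le (f := f) (f' := f') (C := M) (s := Set.Icc (-1 : ℝ) 1)
    (fun s hs => (hf s hs).hasDerivWithinAt) (fun s hs => by rw [Real.norm_eq_abs]; exact hM s hs) (convex_Icc _ _) hζ ht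
  rw [Real.norm_eq_abs, Real.norm_eq_abs] at h1
  have h2 : |t - ζ| ≤ 2 := by
    rw [abs_le]; constructor <;> linarith [ht.1, ht.2, hζ.1, hζ.2]
  have h3 : |f t| ≤ |f ζ| + |f t - f ζ| := by
    have := abs_add_le (f ζ) (f t - f ζ)
    rwa [add_sub_cancel] at this
  have h4 : M * |t - ζ| ≤ M * 2 := mul_le_mul_of_nonneg_left h2 hM0
  linarith

/-! ## 5. (C) integration      (LEAF L-252-S3c-G5) -/

/-- **the derivatives of order `< n`**: sorted `σ`-separated nodes `y 0 < .. < y n` with `|g 0| ≤ ε`, and `|g n| ≤ B` on `[-1,1]`.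
PLAN: downward induction on `j` (write `j = n - i`).  `k3c_rolle_small j g y σ ε` (first `j + 1` nodes) gives one point `ζ` with `|g j ζ| ≤ j^j (j+1) (2/σ)^j ε ≤ n^n (n+1) (2/σ)^n ε`
(`2/σ ≥ 1` because `y 0 + σ ≤ y 1`, both in `[-1,1]`, if `n ≥ 1`; for `n = 0` nothing to prove beyond `j = 0 = n`);  `k3c_mv_down`: `sup |g j| ≤ |g j ζ| + 2 sup |g (j+1)|`. -/
theorem k3c_int_low (n : ℕ) (g : ℕ → ℝ → ℝ) (y : ℕ → ℝ) (σ ε B : ℝ) (hσ : 0 < σ) (hε : 0 ≤ ε) (hB0 : 0 ≤ B)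
    (hy : ∀ i ≤ n, y i ∈ Set.Icc (-1 : ℝ) 1) (hgap : ∀ i < n, y i + σ ≤ y (i + 1))
    (hg : ∀ j < n, ∀ t ∈ Set.Icc (-1 : ℝ) 1, HasDerivAt (g j) (g (j + 1) t) t)
    (hε' : ∀ i ≤ n, |g 0 (y i)| ≤ ε) (hB : ∀ t ∈ Set.Icc (-1 : ℝ) 1, |g n t| ≤ B) :
    ∀ j ≤ n, ∀ t ∈ Set.Icc (-1 : ℝ) 1, |g j t| ≤ 2 ^ n * (B + (n : ℝ) ^ n * (((n : ℝ) + 1) * (2 / σ) ^ n * ε) * (n + 1)) := by
  obtain ⟨A, hA⟩ : ∃ A : ℝ, A = (n : ℝ) ^ n * (((n : ℝ) + 1) * (2 / σ) ^ n * ε) := ⟨_, rfl⟩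
  have hA0 : 0 ≤ A := by rw [hA]; positivity
  rw [← hA]
  have key : ∀ i ≤ n, ∀ t ∈ Set.Icc (-1 : ℝ) 1, |g (n - i) t| ≤ 2 ^ i * (B + A * i) := by
    intro i
    induction i with
    | zero =>
      intro _ t ht
      simpa using hB t ht
    | succ i ih =>
      intro hi t ht
      have hj : n - (i + 1) < n := by omega
      have hj1 : n - (i + 1) + 1 = n - i := by omega
      have hn1 : 1 ≤ n := by omega
      have hσ2 : 1 ≤ 2 / σ := by
        rw [le_div_iff₀ hσ]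
        have h1 := hgap 0 (by omega)
        have h2 := hy 0 (by omega)
        have h3 := hy (0 + 1) (by omega)
        linarith [h2.1, h3.2]
      obtain ⟨ζ, hζ, hζb⟩ := k3c_rolle_small (n - (i + 1)) g y σ ε hσ (fun l hl => hy l (by omega)) (fun l hl => hgap l (by omega))
        (fun l hl => hg l (by omega)) (fun l hl => hε' l (by omega))
      have hζI : ζ ∈ Set.Icc (-1 : ℝ) 1 := ⟨(hy 0 (by omega)).1.trans hζ.1, hζ.2.trans (hy _ (by omega)).2⟩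
      have hle : ((n - (i + 1) : ℕ) : ℝ) ^ (n - (i + 1)) * ((((n - (i + 1) : ℕ) : ℝ) + 1) * (2 / σ) ^ (n - (i + 1)) * ε) ≤ A := by
        rw [hA]
        have c1 : ((n - (i + 1) : ℕ) : ℝ) ≤ (n : ℝ) := by exact_mod_cast Nat.sub_le _ _
        have c2 : (1 : ℝ) ≤ (n : ℝ) := by exact_mod_cast hn1
        have c3 : ((n - (i + 1) : ℕ) : ℝ) ^ (n - (i + 1)) ≤ (n : ℝ) ^ n :=
          (pow_le_pow_left₀ (Nat.cast_nonneg _) c1 _).trans (pow_le_pow_right₀ c2 (Nat.sub_le _ _))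
        have c4 : (2 / σ) ^ (n - (i + 1)) ≤ (2 / σ) ^ n := pow_le_pow_right₀ hσ2 (Nat.sub_le _ _)
        gcongr
      have h1 := k3c_mv_down (g (n - (i + 1))) (g (n - i)) (2 ^ i * (B + A * i)) A ζ hζI
        (fun s hs => by have := hg _ hj s hs; rwa [hj1] at this) (ih (by omega)) (hζb.trans hle) t ht
      refine h1.trans ?_
      have h2 : (1 : ℝ) ≤ 2 ^ (i + 1) := one_le_pow₀ (by norm_num)
      have h3 : A ≤ 2 ^ (i + 1) * A := by nlinarith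
      push_cast
      rw [pow_succ]
      rw [pow_succ] at h3
      nlinarith
  intro j hj t ht
  have h1 := key (n - j) (Nat.sub_le _ _) t ht
  rw [Nat.sub_sub_self hj] at h1
  refine h1.trans ?_
  have c1 : ((n - j : ℕ) : ℝ) ≤ (n : ℝ) + 1 := by
    have : ((n - j : ℕ) : ℝ) ≤ (n : ℝ) := by exact_mod_cast Nat.sub_le _ _
    linarith
  have c2 : (2 : ℝ) ^ (n - j) ≤ 2 ^ n := pow_le_pow_right₀ (by norm_num) (Nat.sub_le _ _)
  gcongr

/-- **(C) integration**: if `h^(n)` is good then `h` is good.   Number of nodes `n + k + n k + 1 = (n+1)(k+1)`.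
PLAN.  Nodes `x`, `δ`-separated, `|h (x i)| ≤ M`.  `k3c_sort` gives `y 0 < y 1 < ..` (`N = n + k + n k`), gaps `≥ δ`, all in `[-1,1]`, `|h (y i)| ≤ M`.   Jet `g j = iteratedDeriv j h` (`k3c_sm_jet`, `iteratedDeriv_zero`).
Group `a ≤ k`: the nodes `y (a (n+1) + l)`, `l ≤ n`;  `k3c_rolle_small n g (fun l => y (a (n+1) + l)) δ M` gives `ζ a` in the hull with `|g n (ζ a)| ≤ M₁ := n^n (n+1) (2/δ)^n M`.
`ζ a + δ ≤ ζ a'` for `a < a'` (`ζ a ≤ y (a(n+1)+n)`, `y (a(n+1)+n) + δ ≤ y ((a+1)(n+1)) ≤ y (a'(n+1)) ≤ ζ a'`; `k6b_gap_le`), so `ζ : Fin (k+1) → ℝ` is `δ`-separated.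
Goodness of `g n`: `|iteratedDeriv i (g n) t| ≤ C δ⁻¹^p M₁` for `i ≤ q`;  `k3c_iter_iter`: these are the derivatives of `h` of order `i + n`.   Orders `j < n`: `k3c_int_low n g y δ M (C δ⁻¹^p M₁)`.
Constants: `(2/δ)^n = 2^n δ⁻¹^n`; if `n ≥ 1` then `δ ≤ 2`, so `δ⁻¹^n ≤ 2^p δ⁻¹^(p+n)`;  `C' = 2^n (n^n (n+1) 2^n + n^n (n+1)^2 2^n 2^p)` works (any larger constant is fine). -/
theorem k3c_good1_int (n k p q : ℕ) : ∃ C' : ℝ, 1 ≤ C' ∧ ∀ (C : ℝ) (h : ℝ → ℝ), 1 ≤ C → k3cSm h → k3cGood1 k p q C (iteratedDeriv n h) →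
    k3cGood1 (n + k + n * k) (p + n) (q + n) (C' * C) h := by
  obtain ⟨c₁, hc₁⟩ : ∃ c₁ : ℝ, c₁ = (n : ℝ) ^ n * (((n : ℝ) + 1) * 2 ^ n) := ⟨_, rfl⟩
  have hc1 : 1 ≤ c₁ := by
    rw [hc₁]
    have a1 : (1 : ℝ) ≤ (n : ℝ) ^ n := by
      rcases Nat.eq_zero_or_pos n with h0 | h0
      · rw [h0]; simp
      · exact one_le_pow₀ (by exact_mod_cast h0)
    have a2 : (1 : ℝ) ≤ (n : ℝ) + 1 := by have : (0 : ℝ) ≤ n := Nat.cast_nonneg n; linarith
    have a3 : (1 : ℝ) ≤ 2 ^ n := one_le_pow₀ (by norm_num)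
    calc (1 : ℝ) = 1 * (1 * 1) := by norm_num
      _ ≤ _ := by gcongr
  have hn0 : (0 : ℝ) ≤ (n : ℝ) := Nat.cast_nonneg n
  refine ⟨2 ^ n * (c₁ + c₁ * ((n : ℝ) + 1) * 2 ^ p), ?_, ?_⟩
  · have a3 : (1 : ℝ) ≤ 2 ^ n := one_le_pow₀ (by norm_num)
    have a4 : 0 ≤ c₁ * ((n : ℝ) + 1) * 2 ^ p := by positivity
    nlinarith
  intro C h hC hh hgood x δ M hδ hx hsep hM j hj t ht
  have hM0 : 0 ≤ M := (abs_nonneg _).trans (hM 0)
  obtain ⟨y, hyx, hygap⟩ := k3c_sort (n + k + n * k) x δ hδ hsep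
  have hyI : ∀ i ≤ n + k + n * k, y i ∈ Set.Icc (-1 : ℝ) 1 := by
    intro i hi
    obtain ⟨l, hl⟩ := hyx i hi
    rw [hl]
    exact abs_le.1 (hx l)
  have hyM : ∀ i ≤ n + k + n * k, |h (y i)| ≤ M := by
    intro i hi
    obtain ⟨l, hl⟩ := hyx i hi
    rw [hl]
    exact hM l
  have hidx : ∀ a ≤ k, ∀ l ≤ n, a * (n + 1) + l ≤ n + k + n * k := by
    intro a ha l hl
    have : a * (n + 1) ≤ k * (n + 1) := Nat.mul_le_mul_right _ ha
    nlinarith
  obtain ⟨M₁, hM₁⟩ : ∃ M₁ : ℝ, M₁ = (n : ℝ) ^ n * (((n : ℝ) + 1) * (2 / δ) ^ n * M) := ⟨_, rfl⟩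
  have hM₁e : M₁ = c₁ * δ⁻¹ ^ n * M := by
    rw [hM₁, hc₁, div_eq_mul_inv, mul_pow]; ring
  have hjet : ∀ j' : ℕ, ∀ s ∈ Set.Icc (-1 : ℝ) 1, HasDerivAt (iteratedDeriv j' h) (iteratedDeriv (j' + 1) h s) s :=
    fun j' s hs => k3c_sm_jet hh j' s hs
  have hz : ∀ a : ℕ, ∃ ζ : ℝ, a ≤ k → ζ ∈ Set.Icc (y (a * (n + 1))) (y (a * (n + 1) + n)) ∧ |iteratedDeriv n h ζ| ≤ M₁ := by
    intro a
    by_cases ha : a ≤ k
    · obtain ⟨ζ, hζ, hζb⟩ := k3c_rolle_small n (fun j' => iteratedDeriv j' h) (fun l => y (a * (n + 1) + l)) δ M hδ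
        (fun l hl => hyI _ (hidx a ha l hl))
        (fun l hl => by
          have := hygap (a * (n + 1) + l) (lt_of_lt_of_le (by omega) (hidx a ha (l + 1) hl))
          rwa [Nat.add_assoc] at this)
        (fun j' _ s hs => hjet j' s hs)
        (fun l hl => by
          simp only [iteratedDeriv_zero]
          exact hyM _ (hidx a ha l hl))
      exact ⟨ζ, fun _ => ⟨by simpa using hζ, by rw [hM₁]; exact hζb⟩⟩
    · exact ⟨0, fun h' => absurd h' ha⟩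
  choose ζ hζ using hz
  have hζsep : ∀ a a' : ℕ, a < a' → a' ≤ k → ζ a + δ ≤ ζ a' := by
    intro a a' haa ha'
    have h1 := (hζ a (by omega)).1.2
    have h2 := (hζ a' ha').1.1
    have h3 : a * (n + 1) + n < a' * (n + 1) := by
      have : (a + 1) * (n + 1) ≤ a' * (n + 1) := Nat.mul_le_mul_right _ haa
      nlinarith
    have h4 := k6b_gap_le y δ hδ.le (n + k + n * k) hygap _ _ h3 (by simpa using hidx a' ha' 0 (Nat.zero_le _))
    linarith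
  have hgd := hgood (fun a : Fin (k + 1) => ζ a) δ M₁ hδ
    (fun a => by
      have ha : (a : ℕ) ≤ k := Nat.lt_succ_iff.1 a.2
      have h1 := (hζ a ha).1
      have h2 := hyI _ (hidx a ha 0 (Nat.zero_le _))
      have h3 := hyI _ (hidx a ha n le_rfl)
      rw [abs_le]
      constructor
      · have := h2.1; simp only [Nat.add_zero] at this; linarith [h1.1]
      · linarith [h1.2, h3.2])
    (fun a a' haa => by
      rcases lt_or_gt_of_ne (Fin.val_ne_of_ne haa) with hlt | hlt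
      · have := hζsep a a' hlt (Nat.lt_succ_iff.1 a'.2)
        rw [abs_sub_comm, le_abs]; left; linarith
      · have := hζsep a' a hlt (Nat.lt_succ_iff.1 a.2)
        rw [le_abs]; left; linarith)
    (fun a => (hζ a (Nat.lt_succ_iff.1 a.2)).2)
  have hδi : 0 < δ⁻¹ := inv_pos.2 hδ
  have hBe : C * δ⁻¹ ^ p * M₁ = c₁ * C * δ⁻¹ ^ (p + n) * M := by
    rw [hM₁e, pow_add]; ring
  have hX0 : 0 ≤ C * δ⁻¹ ^ (p + n) * M := by positivity
  have a3 : (1 : ℝ) ≤ 2 ^ n := one_le_pow₀ (by norm_num)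
  by_cases hjn : n ≤ j
  · have h1 := hgd (j - n) (by omega) t ht
    rw [k3c_iter_iter, Nat.sub_add_cancel hjn, hBe] at h1
    refine h1.trans ?_
    have a4 : 0 ≤ c₁ * ((n : ℝ) + 1) * 2 ^ p := by positivity
    have e1 : c₁ * C * δ⁻¹ ^ (p + n) * M = c₁ * (C * δ⁻¹ ^ (p + n) * M) := by ring
    have e2 : 2 ^ n * (c₁ + c₁ * ((n : ℝ) + 1) * 2 ^ p) * C * δ⁻¹ ^ (p + n) * M
        = (2 ^ n * (c₁ + c₁ * ((n : ℝ) + 1) * 2 ^ p)) * (C * δ⁻¹ ^ (p + n) * M) := by ring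
    rw [e1, e2]
    refine mul_le_mul_of_nonneg_right ?_ hX0
    nlinarith
  · have hn1 : 1 ≤ n := by omega
    have hδ2 : 1 ≤ 2 * δ⁻¹ := by
      rw [← div_eq_mul_inv, le_div_iff₀ hδ]
      have h1 := hygap 0 (by omega)
      have h2 := hyI 0 (by omega)
      have h3 := hyI (0 + 1) (by omega)
      linarith [h2.1, h3.2]
    have hB0 : 0 ≤ C * δ⁻¹ ^ p * M₁ := by rw [hBe]; positivity
    have h1 := k3c_int_low n (fun j' => iteratedDeriv j' h) y δ M (C * δ⁻¹ ^ p * M₁) hδ hM0 hB0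
      (fun i hi => hyI i (by nlinarith)) (fun i hi => hygap i (by nlinarith)) (fun j' _ s hs => hjet j' s hs)
      (fun i hi => by simp only [iteratedDeriv_zero]; exact hyM i (by nlinarith))
      (fun s hs => by
        have := hgd 0 (Nat.zero_le _) s hs
        rwa [iteratedDeriv_zero] at this) j (by omega) t ht
    rw [← hM₁] at h1
    refine h1.trans ?_
    have h2 : δ⁻¹ ^ n ≤ 2 ^ p * δ⁻¹ ^ (p + n) := by
      rw [pow_add, ← mul_assoc, ← mul_pow]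
      have : 1 ≤ (2 * δ⁻¹) ^ p := one_le_pow₀ hδ2
      have h0 : 0 ≤ δ⁻¹ ^ n := by positivity
      nlinarith
    have h3 : M₁ ≤ c₁ * 2 ^ p * (C * δ⁻¹ ^ (p + n) * M) := by
      rw [hM₁e]
      calc c₁ * δ⁻¹ ^ n * M ≤ c₁ * (2 ^ p * δ⁻¹ ^ (p + n)) * M := by gcongr
        _ = c₁ * 2 ^ p * (1 * δ⁻¹ ^ (p + n) * M) := by ring
        _ ≤ c₁ * 2 ^ p * (C * δ⁻¹ ^ (p + n) * M) := by gcongr
    rw [hBe]
    have e2 : 2 ^ n * (c₁ + c₁ * ((n : ℝ) + 1) * 2 ^ p) * C * δ⁻¹ ^ (p + n) * M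
        = 2 ^ n * (c₁ * C * δ⁻¹ ^ (p + n) * M + c₁ * 2 ^ p * (C * δ⁻¹ ^ (p + n) * M) * ((n : ℝ) + 1)) := by ring
    rw [e2]
    gcongr

end

end Claimed.Agent.R252

end PkS3cGoodContract

section PkS3cRadContract

/-!
# ROW 252 (S0492), unit S3c (sub-architect helper172), file 2: SUMS `∑ P_i D₁^(a_i) D₂^(b_i)` ARE GOOD (two radicals, one variable).   CONTRACT   -- KEEP

PAPER-FREE.  Imports `S3c/GoodContract`.  Prefix `k3c_` / `k3c` / `K3c`.  The `sorry`s are the leaves `L-252-S3c-R*`: prove IN PLACE, statement verbatim, helpers directly above.  Earlier statements may be cited even if still `sorry`.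

THE CLASS.  `D₁, D₂` real polynomials of degree `≤ dD`, STABLE on `[-1,1]` (`1/κ ≤ D ≤ κ` after normalisation), `P_i` polynomials of degree `≤ d` with ARBITRARY coefficients (huge cancellations allowed), real exponents `|a_i|, |b_i| ≤ E`:
      `h = ∑_{i < r} P_i D₁^(a_i) D₂^(b_i)`.
`(P D₁^a D₂^b)' = (P' D₁ D₂ + a P D₁' D₂ + b P D₁ D₂') D₁^(a-1) D₂^(b-1)`   (`k3cDn`, `k3c_T_hasDerivAt`).
INDUCTION ON `r` (`k3c_rad_succ`):   `h = W g`, `W = D₁^(a_0) D₂^(b_0)`, `g = P_0 + ∑_{i ≥ 1} P_i D₁^(a_i - a_0) D₂^(b_i - b_0)`;   `g^(d+1)` is a sum of `r` terms (the polynomial `P_0` is killed): good by induction;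
`g` is good by (C) `k3c_good1_int`;   `h` is good by (B) `k3c_good1_mul` and the bounds of the weight (`k3c_W_bound`).
EXITS: `k3c_rad_good1` (normalised), `k3c_two_good1` (`A + B₁ √D₁/D₁^m₁ + B₂ √D₂/D₂^m₂`, un-normalised, polynomial dependence on the slack `kap`), `k3c_one_good1` (verbatim the statement `sh2_sheet_good1`).
-/

set_option autoImplicit false

namespace Claimed.Agent.R252

open Polynomial MeasureTheory

noncomputable section

/-! ## 0. Definitions -/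

/-- one term `P D₁^a D₂^b` -/
def k3cT (D₁ D₂ P : ℝ[X]) (a b : ℝ) (t : ℝ) : ℝ := P.eval t * (D₁.eval t) ^ a * (D₂.eval t) ^ b

/-- the numerator of the derivative of `P D₁^a D₂^b` -/
def k3cDn (D₁ D₂ : ℝ[X]) (a b : ℝ) (P : ℝ[X]) : ℝ[X] :=
  derivative P * D₁ * D₂ + C a * P * derivative D₁ * D₂ + C b * P * D₁ * derivative D₂

/-- the numerator of the `j`-th derivative of `P D₁^a D₂^b` -/
def k3cDnI (D₁ D₂ : ℝ[X]) (a b : ℝ) (P : ℝ[X]) : ℕ → ℝ[X]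
  | 0 => P
  | j + 1 => k3cDn D₁ D₂ (a - j) (b - j) (k3cDnI D₁ D₂ a b P j)

/-- `D` is stable on `[-1,1]`, normalised -/
def k3cSt (κ : ℝ) (D : ℝ[X]) : Prop := ∀ t ∈ Set.Icc (-1 : ℝ) 1, 1 / κ ≤ D.eval t ∧ D.eval t ≤ κ

/-- the statement "sums of `r` terms are good" (NODE form `k3cGood1` of `S3c/GoodContract`) -/
def K3cRad (dD r d q E k p : ℕ) (C : ℝ) : Prop :=
  ∀ (κ : ℝ) (D₁ D₂ : ℝ[X]) (P : Fin r → ℝ[X]) (a b : Fin r → ℝ), 1 ≤ κ → D₁.natDegree ≤ dD → D₂.natDegree ≤ dD → k3cSt κ D₁ → k3cSt κ D₂ →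
    (∀ i, (P i).natDegree ≤ d) → (∀ i, |a i| ≤ E) → (∀ i, |b i| ≤ E) → k3cGood1 k p q (C * κ ^ p) fun t => ∑ i, k3cT D₁ D₂ (P i) (a i) (b i) t

theorem k3c_rad_eqns_cite : True := by
  have := @k3cT.eq_1
  have := @k3cDn.eq_1
  have := @k3cDnI.eq_1
  have := @k3cDnI.eq_2
  have := @k3cSt.eq_1
  have := @K3cRad.eq_1
  trivial

/-! ## 1. Calculus of one term      (LEAF L-252-S3c-R1) -/

/-- the set where both discriminants are positive is open and contains `[-1,1]` -/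
theorem k3c_pos_isOpen (D₁ D₂ : ℝ[X]) : IsOpen {t : ℝ | 0 < D₁.eval t ∧ 0 < D₂.eval t} := by
  exact (isOpen_lt continuous_const D₁.continuous).inter (isOpen_lt continuous_const D₂.continuous)

theorem k3c_st_pos {κ : ℝ} (hκ : 1 ≤ κ) {D₁ D₂ : ℝ[X]} (h1 : k3cSt κ D₁) (h2 : k3cSt κ D₂) : Set.Icc (-1 : ℝ) 1 ⊆ {t : ℝ | 0 < D₁.eval t ∧ 0 < D₂.eval t} := by
  intro t ht
  have hκ0 : 0 < κ := by linarith
  exact ⟨lt_of_lt_of_le (by positivity) (h1 t ht).1, lt_of_lt_of_le (by positivity) (h2 t ht).1⟩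

/-- (`Polynomial.hasDerivAt`, `HasDerivAt.rpow_const` (base `≠ 0`), `HasDerivAt.mul`; then `x^a = x * x^(a-1)` for `x > 0`: `Real.rpow_sub_one` / `Real.rpow_add`; `ring`) -/
theorem k3c_T_hasDerivAt (D₁ D₂ P : ℝ[X]) (a b t : ℝ) (h1 : 0 < D₁.eval t) (h2 : 0 < D₂.eval t) :
    HasDerivAt (k3cT D₁ D₂ P a b) (k3cT D₁ D₂ (k3cDn D₁ D₂ a b P) (a - 1) (b - 1) t) t := by
  have hP := P.hasDerivAt t
  have hD1 := (D₁.hasDerivAt t).rpow_const (p := a) (Or.inl h1.ne')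
  have hD2 := (D₂.hasDerivAt t).rpow_const (p := b) (Or.inl h2.ne')
  have h := (hP.fun_mul hD1).fun_mul hD2
  have e1 : D₁.eval t ^ a = D₁.eval t * D₁.eval t ^ (a - 1) := by
    rw [Real.rpow_sub_one h1.ne']
    field_simp
  have e2 : D₂.eval t ^ b = D₂.eval t * D₂.eval t ^ (b - 1) := by
    rw [Real.rpow_sub_one h2.ne']
    field_simp
  unfold k3cT
  refine h.congr_deriv ?_
  unfold k3cDn
  simp only [eval_add, eval_mul, eval_C]
  rw [e1, e2]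
  ring

/-- (`sh2c_jet_iteratedDeriv`-type induction: `iteratedDeriv_succ`, the two sides coincide near `t` by `k3c_pos_isOpen`, `Filter.EventuallyEq.deriv_eq`, `k3c_T_hasDerivAt`; `a - j - 1 = a - (j+1)` with casts) -/
theorem k3c_T_iter (D₁ D₂ P : ℝ[X]) (a b : ℝ) (j : ℕ) (t : ℝ) (h1 : 0 < D₁.eval t) (h2 : 0 < D₂.eval t) :
    iteratedDeriv j (k3cT D₁ D₂ P a b) t = k3cT D₁ D₂ (k3cDnI D₁ D₂ a b P j) (a - j) (b - j) t := by
  induction j generalizing t with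
  | zero => simp [k3cDnI]
  | succ j ih =>
    rw [iteratedDeriv_succ]
    have hev : iteratedDeriv j (k3cT D₁ D₂ P a b) =ᶠ[nhds t] k3cT D₁ D₂ (k3cDnI D₁ D₂ a b P j) (a - j) (b - j) := by
      filter_upwards [(k3c_pos_isOpen D₁ D₂).mem_nhds (show t ∈ {t : ℝ | 0 < D₁.eval t ∧ 0 < D₂.eval t} from ⟨h1, h2⟩)] with s hs
      exact ih s hs.1 hs.2
    rw [hev.deriv_eq, (k3c_T_hasDerivAt D₁ D₂ _ _ _ t h1 h2).deriv]
    have e1 : a - (j : ℝ) - 1 = a - ((j + 1 : ℕ) : ℝ) := by push_cast; ring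
    have e2 : b - (j : ℝ) - 1 = b - ((j + 1 : ℕ) : ℝ) := by push_cast; ring
    rw [e1, e2]
    rfl

/-- (`ContDiffAt.rpow_const_of_ne`, `Polynomial.contDiff_aeval`, `ContDiffAt.mul`) -/
theorem k3c_T_contDiffAt (D₁ D₂ P : ℝ[X]) (a b t : ℝ) (h1 : 0 < D₁.eval t) (h2 : 0 < D₂.eval t) (N : ℕ) :
    ContDiffAt ℝ (N : WithTop ℕ∞) (k3cT D₁ D₂ P a b) t := by
  have hp : ∀ Q : ℝ[X], ContDiffAt ℝ (N : WithTop ℕ∞) (fun x : ℝ => Q.eval x) t := by
    intro Q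
    have := (Polynomial.contDiff_aeval (𝕜 := ℝ) Q (N : WithTop ℕ∞)).contDiffAt (x := t)
    simpa using this
  unfold k3cT
  exact ((hp P).mul ((hp D₁).rpow_const_of_ne h1.ne')).mul ((hp D₂).rpow_const_of_ne h2.ne')

theorem k3c_T_sm {κ : ℝ} (hκ : 1 ≤ κ) {D₁ D₂ : ℝ[X]} (h1 : k3cSt κ D₁) (h2 : k3cSt κ D₂) (P : ℝ[X]) (a b : ℝ) : k3cSm (k3cT D₁ D₂ P a b) := by
  intro t ht N
  have := k3c_st_pos hκ h1 h2 ht
  exact k3c_T_contDiffAt D₁ D₂ P a b t this.1 this.2 N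

/-- factor a weight out (`Real.rpow_add`) -/
theorem k3c_T_factor (D₁ D₂ P : ℝ[X]) (a b a₀ b₀ t : ℝ) (h1 : 0 < D₁.eval t) (h2 : 0 < D₂.eval t) :
    k3cT D₁ D₂ P a b t = k3cT D₁ D₂ 1 a₀ b₀ t * k3cT D₁ D₂ P (a - a₀) (b - b₀) t := by
  unfold k3cT
  have e1 : D₁.eval t ^ a = D₁.eval t ^ a₀ * D₁.eval t ^ (a - a₀) := by
    rw [← Real.rpow_add h1]
    congr 1
    ring
  have e2 : D₂.eval t ^ b = D₂.eval t ^ b₀ * D₂.eval t ^ (b - b₀) := by
    rw [← Real.rpow_add h2]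
    congr 1
    ring
  rw [e1, e2, eval_one]
  ring

theorem k3c_T_zero_exp (D₁ D₂ P : ℝ[X]) (t : ℝ) : k3cT D₁ D₂ P 0 0 t = P.eval t := by
  simp [k3cT]

/-! ## 2. Degrees and norms of the numerators      (LEAF L-252-S3c-R2) -/

/-- (`natDegree_add_le`, `natDegree_mul_le`, `natDegree_derivative_le`, `natDegree_C`) -/
theorem k3c_Dn_natDegree (dD : ℕ) (D₁ D₂ : ℝ[X]) (h1 : D₁.natDegree ≤ dD) (h2 : D₂.natDegree ≤ dD) (a b : ℝ) (P : ℝ[X]) :
    (k3cDn D₁ D₂ a b P).natDegree ≤ P.natDegree + 2 * dD := by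
  unfold k3cDn
  have hP' : (derivative P).natDegree ≤ P.natDegree := (natDegree_derivative_le P).trans (Nat.sub_le _ _)
  have hD1' : (derivative D₁).natDegree ≤ dD := ((natDegree_derivative_le D₁).trans (Nat.sub_le _ _)).trans h1
  have hD2' : (derivative D₂).natDegree ≤ dD := ((natDegree_derivative_le D₂).trans (Nat.sub_le _ _)).trans h2
  have hCa : (C a * P).natDegree ≤ P.natDegree := natDegree_C_mul_le a P
  have hCb : (C b * P).natDegree ≤ P.natDegree := natDegree_C_mul_le b P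
  have e : P.natDegree + 2 * dD = P.natDegree + dD + dD := by ring
  rw [e]
  refine (natDegree_add_le _ _).trans (max_le ((natDegree_add_le _ _).trans (max_le ?_ ?_)) ?_)
  · exact natDegree_mul_le_of_le (natDegree_mul_le_of_le hP' h1) h2
  · exact natDegree_mul_le_of_le (natDegree_mul_le_of_le hCa hD1') h2
  · exact natDegree_mul_le_of_le (natDegree_mul_le_of_le hCb h1) hD2'

theorem k3c_DnI_natDegree (dD : ℕ) (D₁ D₂ : ℝ[X]) (h1 : D₁.natDegree ≤ dD) (h2 : D₂.natDegree ≤ dD) (a b : ℝ) (P : ℝ[X]) (j : ℕ) :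
    (k3cDnI D₁ D₂ a b P j).natDegree ≤ P.natDegree + j * (2 * dD) := by
  induction j with
  | zero => simp [k3cDnI]
  | succ j ih =>
    have := k3c_Dn_natDegree dD D₁ D₂ h1 h2 (a - j) (b - j) (k3cDnI D₁ D₂ a b P j)
    have e : k3cDnI D₁ D₂ a b P (j + 1) = k3cDn D₁ D₂ (a - j) (b - j) (k3cDnI D₁ D₂ a b P j) := rfl
    rw [e]
    refine this.trans ?_
    calc (k3cDnI D₁ D₂ a b P j).natDegree + 2 * dD ≤ P.natDegree + j * (2 * dD) + 2 * dD := by omega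
      _ = P.natDegree + (j + 1) * (2 * dD) := by ring

/-- (`rmz_N_add`, `rmz_N_mul`, `rmz_N_C_mul`, `rmz_N_derivative`) -/
theorem k3c_Dn_N (dD d : ℕ) (D₁ D₂ : ℝ[X]) (h1 : D₁.natDegree ≤ dD) (h2 : D₂.natDegree ≤ dD) (a b : ℝ) (P : ℝ[X]) (hP : P.natDegree ≤ d) :
    rmzN (k3cDn D₁ D₂ a b P) ≤ ((d : ℝ) + (|a| + |b|) * dD) * rmzN P * rmzN D₁ * rmzN D₂ := by
  unfold k3cDn
  have n0 := rmz_N_nonneg P
  have n1 := rmz_N_nonneg D₁
  have n2 := rmz_N_nonneg D₂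
  have A : rmzN (derivative P * D₁ * D₂) ≤ (d : ℝ) * rmzN P * rmzN D₁ * rmzN D₂ := by
    refine (rmz_N_mul _ _).trans ?_
    have := (rmz_N_mul (derivative P) D₁).trans (mul_le_mul_of_nonneg_right (rmz_N_derivative P d hP) n1)
    gcongr
  have B : rmzN (C a * P * derivative D₁ * D₂) ≤ |a| * rmzN P * ((dD : ℝ) * rmzN D₁) * rmzN D₂ := by
    refine (rmz_N_mul _ _).trans ?_
    have h3 : rmzN (C a * P * derivative D₁) ≤ |a| * rmzN P * ((dD : ℝ) * rmzN D₁) := by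
      refine (rmz_N_mul _ _).trans ?_
      rw [rmz_N_C_mul]
      have := rmz_N_derivative D₁ dD h1
      gcongr
    gcongr
  have Cc : rmzN (C b * P * D₁ * derivative D₂) ≤ |b| * rmzN P * rmzN D₁ * ((dD : ℝ) * rmzN D₂) := by
    refine (rmz_N_mul _ _).trans ?_
    have h3 : rmzN (C b * P * D₁) ≤ |b| * rmzN P * rmzN D₁ := by
      refine (rmz_N_mul _ _).trans ?_
      rw [rmz_N_C_mul]
    have := rmz_N_derivative D₂ dD h2
    have h4 : 0 ≤ |b| * rmzN P * rmzN D₁ := by positivity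
    exact mul_le_mul h3 this (rmz_N_nonneg _) h4
  calc rmzN (derivative P * D₁ * D₂ + C a * P * derivative D₁ * D₂ + C b * P * D₁ * derivative D₂)
      ≤ rmzN (derivative P * D₁ * D₂) + rmzN (C a * P * derivative D₁ * D₂) + rmzN (C b * P * D₁ * derivative D₂) :=
        (rmz_N_add _ _).trans (add_le_add_left (rmz_N_add _ _) _)
    _ ≤ (d : ℝ) * rmzN P * rmzN D₁ * rmzN D₂ + |a| * rmzN P * ((dD : ℝ) * rmzN D₁) * rmzN D₂
          + |b| * rmzN P * rmzN D₁ * ((dD : ℝ) * rmzN D₂) := by linarith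
    _ = _ := by ring

/-- a polynomial bounded by `κ` on `[-1,1]` has coefficient norm `≤ (d+1) (d+1)^d κ`   (`rmz_nodes_coeff d D hD x δ 1 κ` with the nodes `x i = -1 + 2 i/(d+1)`, `δ = 2/(d+1)`: `(1+1)/δ = d+1`) -/
theorem k3c_st_N (d : ℕ) (D : ℝ[X]) (hD : D.natDegree ≤ d) (κ : ℝ) (h : ∀ t ∈ Set.Icc (-1 : ℝ) 1, |D.eval t| ≤ κ) :
    rmzN D ≤ ((d : ℝ) + 1) * ((d : ℝ) + 1) ^ d * κ := by
  have hd : (0 : ℝ) < (d : ℝ) + 1 := by positivity
  have hx : ∀ i : Fin (d + 1), -1 + 2 * (i : ℝ) / ((d : ℝ) + 1) ∈ Set.Icc (-1 : ℝ) 1 := by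
    intro i
    have hi : ((i : ℕ) : ℝ) ≤ d := by exact_mod_cast Nat.lt_succ_iff.1 i.2
    have h0 : (0 : ℝ) ≤ 2 * (i : ℝ) / ((d : ℝ) + 1) := by positivity
    have h1 : 2 * ((i : ℕ) : ℝ) / ((d : ℝ) + 1) ≤ 2 := by
      rw [div_le_iff₀ hd]
      linarith
    constructor <;> linarith
  have key := rmz_nodes_coeff d D hD (fun i => -1 + 2 * (i : ℝ) / ((d : ℝ) + 1)) (2 / ((d : ℝ) + 1)) 1 κ (by positivity)
    (by
      intro i j hij
      have e : (-1 + 2 * ((i : ℕ) : ℝ) / ((d : ℝ) + 1)) - (-1 + 2 * ((j : ℕ) : ℝ) / ((d : ℝ) + 1))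
          = 2 / ((d : ℝ) + 1) * (((i : ℕ) : ℝ) - ((j : ℕ) : ℝ)) := by ring
      rw [e, abs_mul, abs_of_pos (by positivity : (0 : ℝ) < 2 / ((d : ℝ) + 1))]
      have h1 : (1 : ℝ) ≤ |((i : ℕ) : ℝ) - ((j : ℕ) : ℝ)| := by
        have hne : ((i : ℕ) : ℤ) - ((j : ℕ) : ℤ) ≠ 0 := by
          intro h0
          apply hij
          apply Fin.ext
          omega
        have := Int.one_le_abs hne
        have h2 : ((|((i : ℕ) : ℤ) - ((j : ℕ) : ℤ)| : ℤ) : ℝ) = |((i : ℕ) : ℝ) - ((j : ℕ) : ℝ)| := by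
          push_cast
          rfl
        rw [← h2]
        exact_mod_cast this
      have h3 : (0 : ℝ) < 2 / ((d : ℝ) + 1) := by positivity
      nlinarith)
    (fun i => abs_le.2 (hx i))
    (fun i => h _ (hx i))
  have e : ((1 : ℝ) + 1) / (2 / ((d : ℝ) + 1)) = (d : ℝ) + 1 := by
    field_simp
    norm_num
  rwa [e] at key

theorem k3c_rpow_stable_aux (κ x a : ℝ) (E : ℕ) (hκ : 1 ≤ κ) (h1 : 1 / κ ≤ x) (h2 : x ≤ κ) (ha : |a| ≤ E) : x ^ a ≤ κ ^ E := by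
  have hκ0 : 0 < κ := by linarith
  have hx0 : 0 < x := lt_of_lt_of_le (by positivity) h1
  have habs := abs_le.1 ha
  rw [← Real.rpow_natCast κ E]
  rcases le_or_gt 0 a with h0 | h0
  · exact (Real.rpow_le_rpow hx0.le h2 h0).trans (Real.rpow_le_rpow_of_exponent_le hκ habs.2)
  · have e : x ^ a = (x⁻¹) ^ (-a) := by
      rw [Real.inv_rpow hx0.le, Real.rpow_neg hx0.le, inv_inv]
    rw [e]
    have h3 : x⁻¹ ≤ κ := by
      rw [inv_le_comm₀ hx0 hκ0, ← one_div]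
      exact h1
    exact (Real.rpow_le_rpow (by positivity) h3 (by linarith)).trans (Real.rpow_le_rpow_of_exponent_le hκ (by linarith))

/-- powers of a stable quantity (`Real.rpow_le_rpow_left_iff`, `Real.rpow_natCast`; cases `a ≥ 0`, `a < 0`: `x^a ≤ κ^|a| ≤ κ^E`, and the same for `x⁻¹`) -/
theorem k3c_rpow_stable (κ x a : ℝ) (E : ℕ) (hκ : 1 ≤ κ) (h1 : 1 / κ ≤ x) (h2 : x ≤ κ) (ha : |a| ≤ E) : x ^ a ≤ κ ^ E ∧ 1 ≤ κ ^ E * x ^ a := by
  have hκ0 : 0 < κ := by linarith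
  have hx0 : 0 < x := lt_of_lt_of_le (by positivity) h1
  refine ⟨k3c_rpow_stable_aux κ x a E hκ h1 h2 ha, ?_⟩
  have h3 := k3c_rpow_stable_aux κ x (-a) E hκ h1 h2 (by rwa [abs_neg])
  have h4 : x ^ (-a) * x ^ a = 1 := by
    rw [← Real.rpow_add hx0]
    simp
  rw [← h4]
  have : 0 ≤ x ^ a := by positivity
  gcongr

/-! ## 3. The weights      (LEAF L-252-S3c-R3) -/

/-- the coefficient norm of the numerators of the weight -/
theorem k3c_W_num (dD q E : ℕ) (N₀ : ℝ) (D₁ D₂ : ℝ[X]) (a b : ℝ) (h1 : D₁.natDegree ≤ dD) (h2 : D₂.natDegree ≤ dD)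
    (hN₀ : 0 ≤ N₀) (n1 : rmzN D₁ ≤ N₀) (n2 : rmzN D₂ ≤ N₀) (ha : |a| ≤ E) (hb : |b| ≤ E) (j : ℕ) (hj : j ≤ q) :
    rmzN (k3cDnI D₁ D₂ a b 1 j) ≤ (((2 * q * dD : ℕ) + (2 * E + 2 * q : ℕ) * dD + 1 : ℝ) * N₀ ^ 2) ^ j := by
  induction j with
  | zero => simp [k3cDnI, rmz_N_one]
  | succ j ih =>
    have ih' := ih (by omega)
    have e : k3cDnI D₁ D₂ a b 1 (j + 1) = k3cDn D₁ D₂ (a - j) (b - j) (k3cDnI D₁ D₂ a b 1 j) := rfl
    have hdeg : (k3cDnI D₁ D₂ a b 1 j).natDegree ≤ j * (2 * dD) := by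
      have := k3c_DnI_natDegree dD D₁ D₂ h1 h2 a b 1 j
      simpa using this
    have key := k3c_Dn_N dD (j * (2 * dD)) D₁ D₂ h1 h2 (a - j) (b - j) _ hdeg
    rw [e, pow_succ]
    refine key.trans ?_
    have hjq : (j : ℝ) ≤ q := by exact_mod_cast (by omega : j ≤ q)
    have haj : |a - j| ≤ E + q := by
      have := abs_sub a (j : ℝ)
      have h3 : |(j : ℝ)| = j := abs_of_nonneg (Nat.cast_nonneg j)
      linarith [abs_sub_le a 0 (j : ℝ), abs_nonneg (a - j), (by simpa using abs_sub_le a 0 (j : ℝ) : |a - j| ≤ |a| + |(j : ℝ)|)]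
    have hbj : |b - j| ≤ E + q := by
      have h3 : |(j : ℝ)| = j := abs_of_nonneg (Nat.cast_nonneg j)
      linarith [(by simpa using abs_sub_le b 0 (j : ℝ) : |b - j| ≤ |b| + |(j : ℝ)|)]
    have hfac : (((j * (2 * dD) : ℕ) : ℝ) + (|a - j| + |b - j|) * dD) ≤ ((2 * q * dD : ℕ) + (2 * E + 2 * q : ℕ) * dD + 1 : ℝ) := by
      push_cast
      have hd0 : (0 : ℝ) ≤ dD := Nat.cast_nonneg _
      nlinarith
    have hQ0 := rmz_N_nonneg (k3cDnI D₁ D₂ a b 1 j)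
    have m1 := rmz_N_nonneg D₁
    have m2 := rmz_N_nonneg D₂
    have hfac0 : 0 ≤ (((j * (2 * dD) : ℕ) : ℝ) + (|a - j| + |b - j|) * dD) := by positivity
    calc (((j * (2 * dD) : ℕ) : ℝ) + (|a - j| + |b - j|) * dD) * rmzN (k3cDnI D₁ D₂ a b 1 j) * rmzN D₁ * rmzN D₂
        ≤ ((2 * q * dD : ℕ) + (2 * E + 2 * q : ℕ) * dD + 1 : ℝ) *
            ((((2 * q * dD : ℕ) + (2 * E + 2 * q : ℕ) * dD + 1 : ℝ) * N₀ ^ 2) ^ j) * N₀ * N₀ := by gcongr
      _ = _ := by ring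

/-- **bounds of the weight `W = D₁^a D₂^b`.**
PLAN.  `iteratedDeriv j W t = (k3cDnI D₁ D₂ a b 1 j).eval t * D₁^(a-j) D₂^(b-j)` (`k3c_T_iter`).   `Q_j := k3cDnI .. 1 j`: `natDegree ≤ j 2 dD` (`k3c_DnI_natDegree`), `rmzN Q_(j+1) ≤ (j 2 dD + (2E + 2j) dD) rmzN Q_j N₁ N₂` (`k3c_Dn_N`),
`N_l = rmzN D_l ≤ c₀ κ` (`k3c_st_N`), `rmzN 1 = 1` (`rmz_N_one`): by induction `rmzN Q_j ≤ (c₁ κ²)^j`, `c₁ = (2 q dD + (2E + 2q) dD + 1) c₀²`.   `|Q_j t| ≤ rmzN Q_j` (`rmz_eval_le` with `L = 1`),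
`D_l^(a-j) ≤ κ^(E+q)` (`k3c_rpow_stable`, `|a - j| ≤ E + q`).   So `c = 2q + 2(E+q)`, `C = c₁^q` (use `κ ≥ 1`, `c₁ ≥ 1` to raise the powers `j ≤ q`).   Lower bound: `k3c_rpow_stable` twice. -/
theorem k3c_W_bound (dD q E : ℕ) : ∃ (c : ℕ) (C : ℝ), 1 ≤ C ∧ ∀ (κ : ℝ) (D₁ D₂ : ℝ[X]) (a b : ℝ), 1 ≤ κ → D₁.natDegree ≤ dD → D₂.natDegree ≤ dD → k3cSt κ D₁ → k3cSt κ D₂ →
    |a| ≤ E → |b| ≤ E → (∀ j ≤ q, ∀ t ∈ Set.Icc (-1 : ℝ) 1, |iteratedDeriv j (k3cT D₁ D₂ 1 a b) t| ≤ C * κ ^ c) ∧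
      ∀ t ∈ Set.Icc (-1 : ℝ) 1, 1 ≤ κ ^ (2 * E) * |k3cT D₁ D₂ 1 a b t| := by
  obtain ⟨c₀, hc₀⟩ : ∃ c₀ : ℝ, c₀ = ((dD : ℝ) + 1) * ((dD : ℝ) + 1) ^ dD := ⟨_, rfl⟩
  have hc₀1 : 1 ≤ c₀ := by
    rw [hc₀]
    have h1 : (1 : ℝ) ≤ (dD : ℝ) + 1 := by
      have : (0 : ℝ) ≤ dD := Nat.cast_nonneg _
      linarith
    exact one_le_mul_of_one_le_of_one_le h1 (one_le_pow₀ h1)
  obtain ⟨m, hm⟩ : ∃ m : ℝ, m = ((2 * q * dD : ℕ) + (2 * E + 2 * q : ℕ) * dD + 1 : ℝ) := ⟨_, rfl⟩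
  have hm1 : 1 ≤ m := by
    rw [hm]
    have : (0 : ℝ) ≤ ((2 * q * dD : ℕ) : ℝ) + ((2 * E + 2 * q : ℕ) : ℝ) * dD := by positivity
    linarith
  refine ⟨2 * q + 2 * (E + q), (m * c₀ ^ 2) ^ q, one_le_pow₀ (one_le_mul_of_one_le_of_one_le hm1 (one_le_pow₀ hc₀1)), ?_⟩
  intro κ D₁ D₂ a b hκ h1 h2 s1 s2 ha hb
  have hκ0 : 0 < κ := by linarith
  have hU := k3c_st_pos hκ s1 s2
  have hN : ∀ D : ℝ[X], D.natDegree ≤ dD → k3cSt κ D → rmzN D ≤ c₀ * κ := by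
    intro D hD hs
    rw [hc₀]
    refine k3c_st_N dD D hD κ fun t ht => ?_
    have := hs t ht
    rw [abs_le]
    constructor
    · have : 0 < 1 / κ := by positivity
      linarith
    · exact this.2
  constructor
  · intro j hj t ht
    have hpos := hU ht
    rw [k3c_T_iter D₁ D₂ 1 a b j t hpos.1 hpos.2]
    unfold k3cT
    have hnum := k3c_W_num dD q E (c₀ * κ) D₁ D₂ a b h1 h2 (by positivity) (hN D₁ h1 s1) (hN D₂ h2 s2) ha hb j hj
    rw [← hm] at hnum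
    have hev : |(k3cDnI D₁ D₂ a b 1 j).eval t| ≤ rmzN (k3cDnI D₁ D₂ a b 1 j) := by
      have := rmz_eval_le (k3cDnI D₁ D₂ a b 1 j) _ le_rfl 1 t le_rfl (abs_le.2 ht)
      simpa using this
    have hjq : (j : ℝ) ≤ q := by exact_mod_cast hj
    have haj : |a - j| ≤ ((E + q : ℕ) : ℝ) := by
      have h3 : |(j : ℝ)| = j := abs_of_nonneg (Nat.cast_nonneg j)
      push_cast
      linarith [(by simpa using abs_sub_le a 0 (j : ℝ) : |a - j| ≤ |a| + |(j : ℝ)|)]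
    have hbj : |b - j| ≤ ((E + q : ℕ) : ℝ) := by
      have h3 : |(j : ℝ)| = j := abs_of_nonneg (Nat.cast_nonneg j)
      push_cast
      linarith [(by simpa using abs_sub_le b 0 (j : ℝ) : |b - j| ≤ |b| + |(j : ℝ)|)]
    have r1 := (k3c_rpow_stable κ _ (a - j) (E + q) hκ (s1 t ht).1 (s1 t ht).2 haj).1
    have r2 := (k3c_rpow_stable κ _ (b - j) (E + q) hκ (s2 t ht).1 (s2 t ht).2 hbj).1
    have p1 : 0 ≤ D₁.eval t ^ (a - j) := (Real.rpow_pos_of_pos hpos.1 _).le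
    have p2 : 0 ≤ D₂.eval t ^ (b - j) := (Real.rpow_pos_of_pos hpos.2 _).le
    rw [abs_mul, abs_mul, abs_of_nonneg p1, abs_of_nonneg p2]
    have hbase : 1 ≤ m * (c₀ * κ) ^ 2 :=
      one_le_mul_of_one_le_of_one_le hm1 (one_le_pow₀ (one_le_mul_of_one_le_of_one_le hc₀1 hκ))
    calc |(k3cDnI D₁ D₂ a b 1 j).eval t| * D₁.eval t ^ (a - j) * D₂.eval t ^ (b - j)
        ≤ (m * (c₀ * κ) ^ 2) ^ j * κ ^ (E + q) * κ ^ (E + q) := by
          have := hev.trans hnum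
          gcongr
      _ ≤ (m * (c₀ * κ) ^ 2) ^ q * κ ^ (E + q) * κ ^ (E + q) := by
          have := pow_le_pow_right₀ hbase hj
          gcongr
      _ = (m * c₀ ^ 2) ^ q * κ ^ (2 * q + 2 * (E + q)) := by
          ring
  · intro t ht
    have hpos := hU ht
    unfold k3cT
    rw [eval_one, one_mul]
    have r1 := (k3c_rpow_stable κ _ a E hκ (s1 t ht).1 (s1 t ht).2 ha).2
    have r2 := (k3c_rpow_stable κ _ b E hκ (s2 t ht).1 (s2 t ht).2 hb).2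
    have p1 : 0 < D₁.eval t ^ a := Real.rpow_pos_of_pos hpos.1 _
    have p2 : 0 < D₂.eval t ^ b := Real.rpow_pos_of_pos hpos.2 _
    rw [abs_of_pos (mul_pos p1 p2)]
    calc (1 : ℝ) = 1 * 1 := (one_mul 1).symm
      _ ≤ (κ ^ E * D₁.eval t ^ a) * (κ ^ E * D₂.eval t ^ b) := by gcongr
      _ = κ ^ (2 * E) * (D₁.eval t ^ a * D₂.eval t ^ b) := by
          rw [two_mul, pow_add]
          ring

/-! ## 4. The induction      (LEAF L-252-S3c-R4) -/

/-- the empty sum (`iteratedDeriv` of the zero function: `iteratedDeriv_fun_const_zero` / `iteratedDeriv_const`; `0 ≤ M` from the node `0`) -/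
theorem k3c_rad_zero (dD d q E : ℕ) : K3cRad dD 0 d q E 1 0 1 := by
  intro κ D₁ D₂ P a b _ _ _ _ _ _ _ _ x δ M _ _ _ hM j _ t _
  have hM0 : 0 ≤ M := (abs_nonneg _).trans (hM 0)
  simp only [Finset.univ_eq_empty, Finset.sum_empty, iteratedDeriv_fun_const_zero, abs_zero, pow_zero, mul_one, one_mul]
  exact hM0

/-- **the induction step.**
PLAN.  `n := d + 1`, `U := {D₁ > 0 ∧ D₂ > 0}` (open, `⊇ [-1,1]`).   `W := k3cT D₁ D₂ 1 (a 0) (b 0)`,   `g t := (P 0).eval t + ∑ i : Fin r, k3cT D₁ D₂ (P i.succ) (a i.succ - a 0) (b i.succ - b 0) t`.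
(1) `∑ i, k3cT .. = W g` on `U` (`Fin.sum_univ_succ`, `k3c_T_factor`, `k3c_T_zero_exp`, `sub_self`).
(2) on `U`: `iteratedDeriv n g t = ∑ i : Fin r, k3cT D₁ D₂ (k3cDnI D₁ D₂ (a i.succ - a 0) (b i.succ - b 0) (P i.succ) n) (a i.succ - a 0 - n) (b i.succ - b 0 - n) t`
    (`iteratedDeriv_add`/`iteratedDeriv_sum`-type lemmas with `ContDiffAt` from `k3c_T_contDiffAt`; `k3c_iter_poly` and `Polynomial.iterate_derivative_eq_zero` kill `P 0`; `k3c_T_iter`).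
(3) hypothesis `h` for the `r` numerators (degree `≤ d + (d+1)(2 dD)`: `k3c_DnI_natDegree`; exponents `|a i.succ - a 0 - n| ≤ 2E + d + 1`) + `k3c_good1_congr` (on `U`): `iteratedDeriv n g` is `k3cGood1 k p q (C κ^p)`.
(4) `k3c_good1_int n k p q`: `g` is `k3cGood1 (n+k+nk) (p+n) (q+n) (C' C κ^p)`; `k3c_good1_mono` to order `q`.      (5) `k3c_W_bound dD q E` and `k3c_good1_mul`: `W g` is `k3cGood1 (n+k+nk) (p+n) q (2^q C₁ κ^c κ^(2E) C' C κ^p)`; `k3c_good1_congr` back.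
(6) `p' := p + n + c + 2E`: raise the exponent of `δ⁻¹` by `k3c_good1_mono_p` (`n+k+nk ≥ 1`) and the power of `κ ≥ 1`;   `C'' = 2^(c+2E) 2^q C₁ C' C`. -/
theorem k3c_rad_succ (dD r d q E k p : ℕ) (C : ℝ) (hk : 1 ≤ k) (hC : 1 ≤ C) (h : K3cRad dD r (d + (d + 1) * (2 * dD)) q (2 * E + d + 1) k p C) :
    ∃ (k' p' : ℕ) (C' : ℝ), 1 ≤ k' ∧ 1 ≤ C' ∧ K3cRad dD (r + 1) d q E k' p' C' := by
  obtain ⟨n, hn⟩ : ∃ n : ℕ, n = d + 1 := ⟨_, rfl⟩
  obtain ⟨C', hC', hint⟩ := k3c_good1_int n k p q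
  obtain ⟨c, C₁, hC₁, hWb⟩ := k3c_W_bound dD q E
  refine ⟨n + k + n * k, p + n + c + 2 * E, 2 ^ (c + 2 * E) * (2 ^ q * C₁ * C' * C), by omega, ?_, ?_⟩
  · have h2 : ∀ m : ℕ, (1 : ℝ) ≤ 2 ^ m := fun m => one_le_pow₀ (by norm_num)
    exact one_le_mul_of_one_le_of_one_le (h2 _) (one_le_mul_of_one_le_of_one_le
      (one_le_mul_of_one_le_of_one_le (one_le_mul_of_one_le_of_one_le (h2 _) hC₁) hC') hC)
  intro κ D₁ D₂ P a b hκ hd1 hd2 s1 s2 hP ha hb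
  have hκ0 : 0 < κ := by linarith
  have hUo := k3c_pos_isOpen D₁ D₂
  have hI := k3c_st_pos hκ s1 s2
  obtain ⟨W, hW⟩ : ∃ W : ℝ → ℝ, W = k3cT D₁ D₂ 1 (a 0) (b 0) := ⟨_, rfl⟩
  obtain ⟨g, hg⟩ : ∃ g : ℝ → ℝ, g = fun t => (P 0).eval t +
      ∑ i : Fin r, k3cT D₁ D₂ (P i.succ) (a i.succ - a 0) (b i.succ - b 0) t := ⟨_, rfl⟩
  -- (1)
  have step1 : ∀ t ∈ {t : ℝ | 0 < D₁.eval t ∧ 0 < D₂.eval t}, W t * g t = ∑ i, k3cT D₁ D₂ (P i) (a i) (b i) t := by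
    intro t ht
    rw [Fin.sum_univ_succ, hW, hg]
    simp only
    rw [mul_add, Finset.mul_sum, k3c_T_factor D₁ D₂ (P 0) (a 0) (b 0) (a 0) (b 0) t ht.1 ht.2, sub_self, sub_self,
      k3c_T_zero_exp]
    congr 1
    refine Finset.sum_congr rfl fun i _ => ?_
    rw [← k3c_T_factor D₁ D₂ (P i.succ) (a i.succ) (b i.succ) (a 0) (b 0) t ht.1 ht.2]
  -- (2)
  obtain ⟨G, hG⟩ : ∃ G : ℝ → ℝ, G = fun t => ∑ i : Fin r, k3cT D₁ D₂
      (k3cDnI D₁ D₂ (a i.succ - a 0) (b i.succ - b 0) (P i.succ) n) (a i.succ - a 0 - n) (b i.succ - b 0 - n) t := ⟨_, rfl⟩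
  have step2 : ∀ t ∈ {t : ℝ | 0 < D₁.eval t ∧ 0 < D₂.eval t}, G t = iteratedDeriv n g t := by
    intro t ht
    have hpoly : ContDiffAt ℝ (n : WithTop ℕ∞) (fun t : ℝ => (P 0).eval t) t := by
      have := (Polynomial.contDiff_aeval (𝕜 := ℝ) (P 0) (n : WithTop ℕ∞)).contDiffAt (x := t)
      simpa using this
    have hterm : ∀ i ∈ (Finset.univ : Finset (Fin r)), ContDiffAt ℝ (n : WithTop ℕ∞)
        (k3cT D₁ D₂ (P i.succ) (a i.succ - a 0) (b i.succ - b 0)) t :=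
      fun i _ => k3c_T_contDiffAt D₁ D₂ _ _ _ t ht.1 ht.2 n
    have hsum : ContDiffAt ℝ (n : WithTop ℕ∞)
        (fun t => ∑ i : Fin r, k3cT D₁ D₂ (P i.succ) (a i.succ - a 0) (b i.succ - b 0) t) t :=
      ContDiffAt.sum hterm
    rw [hg, iteratedDeriv_fun_add hpoly hsum, iteratedDeriv_fun_sum hterm, k3c_iter_poly,
      Polynomial.iterate_derivative_eq_zero (by rw [hn]; exact Nat.lt_succ_of_le (hP 0)), hG]
    simp only [eval_zero, zero_add]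
    refine Finset.sum_congr rfl fun i _ => ?_
    rw [k3c_T_iter D₁ D₂ _ _ _ n t ht.1 ht.2]
  -- (3)
  have hexp : ∀ (z : Fin (r + 1) → ℝ), (∀ i, |z i| ≤ E) → ∀ i : Fin r, |z i.succ - z 0 - n| ≤ ((2 * E + d + 1 : ℕ) : ℝ) := by
    intro z hz i
    have h1 := abs_le.1 (hz i.succ)
    have h2 := abs_le.1 (hz 0)
    have h3 : (n : ℝ) = d + 1 := by rw [hn]; push_cast; ring
    have hd0 : (0 : ℝ) ≤ d := Nat.cast_nonneg _
    push_cast
    rw [abs_le, h3]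
    constructor <;> linarith
  have step3 : k3cGood1 k p q (C * κ ^ p) (iteratedDeriv n g) := by
    have h0 := h κ D₁ D₂ (fun i : Fin r => k3cDnI D₁ D₂ (a i.succ - a 0) (b i.succ - b 0) (P i.succ) n)
      (fun i => a i.succ - a 0 - n) (fun i => b i.succ - b 0 - n) hκ hd1 hd2 s1 s2
      (by
        intro i
        refine (k3c_DnI_natDegree dD D₁ D₂ hd1 hd2 _ _ _ n).trans ?_
        rw [hn]
        have := hP i.succ
        omega)
      (hexp a ha) (hexp b hb)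
    refine k3c_good1_congr hUo hI ?_ h0
    intro t ht
    rw [← step2 t ht, hG]
  -- (4)
  have hgsm : k3cSm g := by
    rw [hg]
    exact k3c_sm_add (k3c_sm_poly (P 0)) (k3c_sm_sum Finset.univ fun i _ => k3c_T_sm hκ s1 s2 _ _ _)
  have hκp : ∀ m : ℕ, 1 ≤ κ ^ m := fun m => one_le_pow₀ hκ
  have step4 : k3cGood1 (n + k + n * k) (p + n) q (C' * (C * κ ^ p)) g :=
    k3c_good1_mono (Nat.le_add_right q n) le_rfl
      (hint (C * κ ^ p) g (one_le_mul_of_one_le_of_one_le hC (hκp p)) hgsm step3)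
  -- (5)
  obtain ⟨w1, w2⟩ := hWb κ D₁ D₂ (a 0) (b 0) hκ hd1 hd2 s1 s2 (ha 0) (hb 0)
  have hWsm : k3cSm W := by rw [hW]; exact k3c_T_sm hκ s1 s2 _ _ _
  have hC0 : 0 ≤ C' * (C * κ ^ p) := by positivity
  have step5 : k3cGood1 (n + k + n * k) (p + n) q (2 ^ q * (C₁ * κ ^ c) * κ ^ (2 * E) * (C' * (C * κ ^ p)))
      fun t => ∑ i, k3cT D₁ D₂ (P i) (a i) (b i) t := by
    refine k3c_good1_congr hUo hI step1 ?_
    exact k3c_good1_mul hC0 W g hWsm hgsm (by rw [hW]; exact w1) (by rw [hW]; exact w2) step4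
  -- (6)
  have hC1 : 0 ≤ 2 ^ q * (C₁ * κ ^ c) * κ ^ (2 * E) * (C' * (C * κ ^ p)) := by positivity
  have step6 := k3c_good1_mono_p (p' := p + n + c + 2 * E) (by omega : 1 ≤ n + k + n * k) (by omega) hC1 step5
  refine k3c_good1_mono le_rfl ?_ step6
  have e1 : p + n + c + 2 * E - (p + n) = c + 2 * E := by omega
  rw [e1]
  have e2 : κ ^ c * κ ^ (2 * E) * κ ^ p ≤ κ ^ (p + n + c + 2 * E) := by
    rw [← pow_add, ← pow_add]
    exact pow_le_pow_right₀ hκ (by omega)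
  calc (2 : ℝ) ^ (c + 2 * E) * (2 ^ q * (C₁ * κ ^ c) * κ ^ (2 * E) * (C' * (C * κ ^ p)))
      = 2 ^ (c + 2 * E) * (2 ^ q * C₁ * C' * C) * (κ ^ c * κ ^ (2 * E) * κ ^ p) := by ring
    _ ≤ 2 ^ (c + 2 * E) * (2 ^ q * C₁ * C' * C) * κ ^ (p + n + c + 2 * E) := by gcongr

/-- **EXIT (normalised)**: sums of `r` terms are good. -/
theorem k3c_rad_good1 (dD r : ℕ) : ∀ d q E : ℕ, ∃ (k p : ℕ) (C : ℝ), 1 ≤ k ∧ 1 ≤ C ∧ K3cRad dD r d q E k p C := by
  induction r with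
  | zero => exact fun d q E => ⟨1, 0, 1, le_refl _, le_refl _, k3c_rad_zero dD d q E⟩
  | succ r ih =>
    intro d q E
    obtain ⟨k, p, C, hk, hC, h⟩ := ih (d + (d + 1) * (2 * dD)) q (2 * E + d + 1)
    exact k3c_rad_succ dD r d q E k p C hk hC h

/-! ## 5. Square-root sheets      (LEAF L-252-S3c-R5) -/

/-- `√x / x^m = x^(1/2 - m)`   (`Real.sqrt_eq_rpow`, `Real.rpow_sub`, `Real.rpow_natCast`) -/
theorem k3c_sqrt_rpow (x : ℝ) (hx : 0 < x) (m : ℕ) : Real.sqrt x / x ^ m = x ^ ((1 : ℝ) / 2 - m) := by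
  rw [Real.rpow_sub hx, Real.rpow_natCast, Real.sqrt_eq_rpow]

/-- normalisation of one radical -/
theorem k3c_norm_rad (E x e : ℝ) (hE : 0 < E) (hx : 0 < x) : E ^ e * (E⁻¹ * x) ^ e = x ^ e := by
  rw [Real.mul_rpow (by positivity) hx.le, Real.inv_rpow hE.le, ← mul_assoc, mul_inv_cancel₀ (Real.rpow_pos_of_pos hE e).ne', one_mul]

theorem k3c_norm_st (kap E : ℝ) (D : ℝ[X]) (hkap : 1 ≤ kap) (hE : 0 < E)
    (s : ∀ t ∈ Set.Icc (-1 : ℝ) 1, E / kap ≤ D.eval t ∧ D.eval t ≤ kap * E) : k3cSt kap (C E⁻¹ * D) := by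
  intro t ht
  have hk0 : 0 < kap := by linarith
  rw [eval_mul, eval_C]
  obtain ⟨h1, h2⟩ := s t ht
  constructor
  · calc 1 / kap = E⁻¹ * (E / kap) := by field_simp
      _ ≤ E⁻¹ * D.eval t := by gcongr
  · calc E⁻¹ * D.eval t ≤ E⁻¹ * (kap * E) := by gcongr
      _ = kap := by field_simp

/-- **EXIT: TWO RADICALS, NODE form**, un-normalised, polynomial dependence on the slack.
PLAN.  Constants of `k3c_rad_good1 d 3 d q (max m₁ m₂ + 1)`.   `D_l' := C (E_l)⁻¹ * D_l` is `k3cSt kap`.   On `U = {D₁ > 0 ∧ D₂ > 0}` the function is `∑ i : Fin 3, k3cT D₁' D₂' (P i) (a i) (b i)` with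
`P = ![A, C (E₁^(1/2-m₁)) * B₁, C (E₂^(1/2-m₂)) * B₂]`, `a = ![0, 1/2 - m₁, 0]`, `b = ![0, 0, 1/2 - m₂]`   (`Fin.sum_univ_three`, `k3c_sqrt_rpow`, `Real.mul_rpow`, `Real.rpow_zero`);   `k3c_good1_congr`. -/
theorem k3c_two_node1 (d q m₁ m₂ : ℕ) : ∃ (k p : ℕ) (C : ℝ), 1 ≤ C ∧
    ∀ (kap : ℝ) (A B₁ B₂ D₁ D₂ : ℝ[X]) (E₁ E₂ : ℝ), 1 ≤ kap → A.natDegree ≤ d → B₁.natDegree ≤ d → B₂.natDegree ≤ d → D₁.natDegree ≤ d → D₂.natDegree ≤ d →
      0 < E₁ → 0 < E₂ → (∀ t ∈ Set.Icc (-1 : ℝ) 1, E₁ / kap ≤ D₁.eval t ∧ D₁.eval t ≤ kap * E₁) → (∀ t ∈ Set.Icc (-1 : ℝ) 1, E₂ / kap ≤ D₂.eval t ∧ D₂.eval t ≤ kap * E₂) →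
      k3cGood1 k p q (C * kap ^ p) fun t : ℝ =>
        A.eval t + B₁.eval t * Real.sqrt (D₁.eval t) / D₁.eval t ^ m₁ + B₂.eval t * Real.sqrt (D₂.eval t) / D₂.eval t ^ m₂ := by
  obtain ⟨k, p, C₀, _, hC, hrad⟩ := k3c_rad_good1 d 3 d q (max m₁ m₂ + 1)
  refine ⟨k, p, C₀, hC, ?_⟩
  intro kap A B₁ B₂ D₁ D₂ E₁ E₂ hkap hA hB₁ hB₂ hD₁ hD₂ hE₁ hE₂ s1 s2
  have t1 := k3c_norm_st kap E₁ D₁ hkap hE₁ s1
  have t2 := k3c_norm_st kap E₂ D₂ hkap hE₂ s2
  have hm1 : (m₁ : ℝ) ≤ (max m₁ m₂ : ℕ) := by exact_mod_cast le_max_left _ _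
  have hm2 : (m₂ : ℝ) ≤ (max m₁ m₂ : ℕ) := by exact_mod_cast le_max_right _ _
  have hmx : (0 : ℝ) ≤ (max m₁ m₂ : ℕ) := Nat.cast_nonneg _
  have habs : ∀ m : ℕ, (m : ℝ) ≤ (max m₁ m₂ : ℕ) → |(1 : ℝ) / 2 - m| ≤ ((max m₁ m₂ + 1 : ℕ) : ℝ) := by
    intro m hm
    have h0 : (0 : ℝ) ≤ m := Nat.cast_nonneg _
    push_cast at hm ⊢
    rw [abs_le]
    constructor <;> linarith
  have h0 := hrad kap (C E₁⁻¹ * D₁) (C E₂⁻¹ * D₂)
    ![A, C (E₁ ^ ((1 : ℝ) / 2 - m₁)) * B₁, C (E₂ ^ ((1 : ℝ) / 2 - m₂)) * B₂]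
    ![0, (1 : ℝ) / 2 - m₁, 0] ![0, 0, (1 : ℝ) / 2 - m₂] hkap
    ((natDegree_C_mul_le _ _).trans hD₁) ((natDegree_C_mul_le _ _).trans hD₂) t1 t2
    (by
      intro i
      fin_cases i
      · exact hA
      · exact (natDegree_C_mul_le _ _).trans hB₁
      · exact (natDegree_C_mul_le _ _).trans hB₂)
    (by
      intro i
      fin_cases i
      · simp only [Fin.zero_eta, Matrix.cons_val_zero, abs_zero]; exact Nat.cast_nonneg _
      · exact habs m₁ hm1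
      · simp only [Fin.reduceFinMk, Matrix.cons_val, abs_zero]; exact Nat.cast_nonneg _)
    (by
      intro i
      fin_cases i
      · simp only [Fin.zero_eta, Matrix.cons_val_zero, abs_zero]; exact Nat.cast_nonneg _
      · simp only [Fin.mk_one, Matrix.cons_val_one, Matrix.cons_val_zero, abs_zero]; exact Nat.cast_nonneg _
      · exact habs m₂ hm2)
  refine k3c_good1_congr (k3c_pos_isOpen (C E₁⁻¹ * D₁) (C E₂⁻¹ * D₂)) (k3c_st_pos hkap t1 t2) ?_ h0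
  intro t ht
  obtain ⟨p1, p2⟩ := ht
  rw [eval_mul, eval_C] at p1 p2
  have q1 : 0 < D₁.eval t := by
    by_contra hc
    have : E₁⁻¹ * D₁.eval t ≤ 0 := mul_nonpos_of_nonneg_of_nonpos (by positivity) (not_lt.1 hc)
    linarith
  have q2 : 0 < D₂.eval t := by
    by_contra hc
    have : E₂⁻¹ * D₂.eval t ≤ 0 := mul_nonpos_of_nonneg_of_nonpos (by positivity) (not_lt.1 hc)
    linarith
  rw [Fin.sum_univ_three]
  unfold k3cT
  simp only [Matrix.cons_val_zero, Matrix.cons_val_one, Matrix.cons_val, eval_mul, eval_C, Real.rpow_zero, mul_one]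
  rw [mul_div_assoc, mul_div_assoc, k3c_sqrt_rpow _ q1, k3c_sqrt_rpow _ q2]
  have e1 := k3c_norm_rad E₁ (D₁.eval t) ((1 : ℝ) / 2 - m₁) hE₁ q1
  have e2 := k3c_norm_rad E₂ (D₂.eval t) ((1 : ℝ) / 2 - m₂) hE₂ q2
  rw [← e1, ← e2]
  ring

/-- **EXIT: TWO RADICALS** (measure form): the BRIDGE `k3c_good1_meas`. -/
theorem k3c_two_good1 (d q m₁ m₂ : ℕ) : ∃ (k p : ℕ) (C : ℝ), 1 ≤ C ∧
    ∀ (kap : ℝ) (A B₁ B₂ D₁ D₂ : ℝ[X]) (E₁ E₂ : ℝ), 1 ≤ kap → A.natDegree ≤ d → B₁.natDegree ≤ d → B₂.natDegree ≤ d → D₁.natDegree ≤ d → D₂.natDegree ≤ d →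
      0 < E₁ → 0 < E₂ → (∀ t ∈ Set.Icc (-1 : ℝ) 1, E₁ / kap ≤ D₁.eval t ∧ D₁.eval t ≤ kap * E₁) → (∀ t ∈ Set.Icc (-1 : ℝ) 1, E₂ / kap ≤ D₂.eval t ∧ D₂.eval t ≤ kap * E₂) →
      sh2Good1 k p q (C * kap ^ p) fun t : ℝ =>
        A.eval t + B₁.eval t * Real.sqrt (D₁.eval t) / D₁.eval t ^ m₁ + B₂.eval t * Real.sqrt (D₂.eval t) / D₂.eval t ^ m₂ := by
  obtain ⟨k, p, C, hC, h⟩ := k3c_two_node1 d q m₁ m₂
  exact ⟨k, p, C, hC, fun kap A B₁ B₂ D₁ D₂ E₁ E₂ h1 h2 h3 h4 h5 h6 h7 h8 h9 h10 => k3c_good1_meas (h kap A B₁ B₂ D₁ D₂ E₁ E₂ h1 h2 h3 h4 h5 h6 h7 h8 h9 h10)⟩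

/-- **EXIT: ONE RADICAL** (verbatim the statement of `sh2_sheet_good1`): `k3c_two_good1 d q m 0` with `B₂ = 0`, `D₂ = 1`, `E₂ = 1`. -/
theorem k3c_one_good1 (d q m : ℕ) : ∃ (k p : ℕ) (C : ℝ), 1 ≤ C ∧
    ∀ (kap : ℝ) (A B Dl : ℝ[X]) (D0 : ℝ), 1 ≤ kap → A.natDegree ≤ d → B.natDegree ≤ d → Dl.natDegree ≤ d → 0 < D0 →
      (∀ t ∈ Set.Icc (-1 : ℝ) 1, D0 / kap ≤ Dl.eval t ∧ Dl.eval t ≤ kap * D0) →
      sh2Good1 k p q (C * kap ^ p) fun t : ℝ => A.eval t + B.eval t * Real.sqrt (Dl.eval t) / Dl.eval t ^ m := by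
  obtain ⟨k, p, C₀, hC, h⟩ := k3c_two_good1 d q m 0
  refine ⟨k, p, C₀, hC, ?_⟩
  intro kap A B Dl D0 hkap hA hB hD hD0 s
  have hk0 : 0 < kap := by linarith
  have := h kap A B 0 Dl 1 D0 1 hkap hA hB (by simp) hD (by simp) hD0 one_pos s (by
    intro t _
    rw [eval_one]
    constructor
    · rw [div_le_one hk0]
      exact hkap
    · linarith)
  simpa using this

end

end Claimed.Agent.R252

end PkS3cRadContract

section PkS3cMatchDefs

/-!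
# ROW 252 (S0492), unit S3c (sub-architect helper172), file 3: LOCAL MATCHING OF SCALAR GRAPHS (03 Cor 3.4 = `a02:local-graph-matching`).   DEFINITIONS   -- KEEP

PAPER-FREE, no `sorry`.  Prefix `k3c_` / `k3c` / `K3c`.   ONE scale `R`, all slacks are one explicit `K ≥ 1`.
* `k3cSmB a b F`    : `F` is smooth at every point of the closed box `Icc a b ⊆ ℝⁿ`.
* `k3cDer q a b F B`: the derivatives of order `≤ q` of `F` along all segments `x + s v`, `|s| ≤ 1`, of the box are `≤ B` (in the parameter `s`).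
* `K3cClass k₀ p₀ k₁ p₁ q K a b S` : a CLASS `S` of functions on the box: measurable, smooth, all DIFFERENCES of two members are `sh2Good` (values: `(k₀, p₀)`; derivatives of order `≤ q`: `(k₁, p₁)`), constant `K`.
      Examples: polynomials of bounded degree; square-root sheets with stable discriminants (`S3c/RadMvContract.lean`).   NO bound on coefficients.
* `K3cCfg n ι₁ ι₂`, `K3cCfg.Ok X k p q d R K` : the NORMALISED configuration on the unit cube in density form (`M = 1`, `Δ = 1/R`, common reference `0`).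
* `k3cTau`, `k3cM2`, `k3cEta`, `k3cLoss` : the explicit constants of the reduction to one variable (all are `C K^(±c)`: `k3c_loss_le`).
-/

set_option autoImplicit false

namespace Claimed.Agent.R252

open MeasureTheory
open scoped ENNReal

noncomputable section

/-- smooth at every point of the closed box -/
def k3cSmB {n : ℕ} (a b : Fin n → ℝ) (F : (Fin n → ℝ) → ℝ) : Prop := ∀ u ∈ Set.Icc a b, ∀ N : ℕ, ContDiffAt ℝ (N : WithTop ℕ∞) F u

/-- derivative bounds along all segments of the box -/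
def k3cDer {n : ℕ} (q : ℕ) (a b : Fin n → ℝ) (F : (Fin n → ℝ) → ℝ) (B : ℝ) : Prop :=
  ∀ x v : Fin n → ℝ, (∀ s ∈ Set.Icc (-1 : ℝ) 1, x + s • v ∈ Set.Icc a b) → ∀ j ≤ q, ∀ t ∈ Set.Icc (-1 : ℝ) 1,
    |iteratedDeriv j (fun s : ℝ => F (x + s • v)) t| ≤ B

/-- a class of functions on a box all of whose differences are good -/
structure K3cClass {n : ℕ} (k₀ p₀ k₁ p₁ q : ℕ) (K : ℝ) (a b : Fin n → ℝ) (S : Set ((Fin n → ℝ) → ℝ)) : Prop where
  meas : ∀ F ∈ S, Measurable F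
  sm : ∀ F ∈ S, k3cSmB a b F
  good₀ : ∀ F ∈ S, ∀ G ∈ S, sh2Good k₀ p₀ 0 K a b fun u => F u - G u
  good₁ : ∀ F ∈ S, ∀ G ∈ S, sh2Good k₁ p₁ q K a b fun u => F u - G u

/-- a normalised two-colour configuration on the unit cube of `ℝⁿ` -/
structure K3cCfg (n : ℕ) (ι₁ ι₂ : Type) where
  /-- the first list -/
  F₁ : ι₁ → (Fin n → ℝ) → ℝ
  /-- the second list -/
  F₂ : ι₂ → (Fin n → ℝ) → ℝ
  /-- index weights of the first colour -/
  π₁ : ι₁ → ℝ
  /-- index weights of the second colour -/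
  π₂ : ι₂ → ℝ
  /-- density of the incidence law -/
  ρ : ι₁ → ι₂ → (Fin n → ℝ) → ℝ

/-- the hypotheses of the local matching at scale `R` with slack `K` (normalised: `M = 1`, `Δ = 1/R`) -/
structure K3cCfg.Ok {n : ℕ} {ι₁ ι₂ : Type} [Fintype ι₁] [Fintype ι₂] (X : K3cCfg n ι₁ ι₂) (k p q : ℕ) (d R K : ℝ) : Prop where
  card : (Fintype.card ι₁ : ℝ) ≤ K * R ^ d
  meas₁ : ∀ i, Measurable (X.F₁ i)
  meas₂ : ∀ i, Measurable (X.F₂ i)
  sm₁ : ∀ i, k3cSmB 0 1 (X.F₁ i)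
  sm₂ : ∀ i, k3cSmB 0 1 (X.F₂ i)
  der₁ : ∀ i, k3cDer q 0 1 (X.F₁ i) K
  der₂ : ∀ i, k3cDer q 0 1 (X.F₂ i) K
  good : ∀ i₁ i₂, sh2Good k p 0 K 0 1 fun u => X.F₁ i₁ u - X.F₂ i₂ u
  π₁_nonneg : ∀ i, 0 ≤ X.π₁ i
  π₂_nonneg : ∀ i, 0 ≤ X.π₂ i
  π₁_sum : ∑ i, X.π₁ i ≤ 1
  π₂_sum : ∑ i, X.π₂ i ≤ 1
  ρ_meas : ∀ i₁ i₂, Measurable (X.ρ i₁ i₂)
  ρ_nonneg : ∀ i₁ i₂ u, 0 ≤ X.ρ i₁ i₂ u
  ρ_supp : ∀ i₁ i₂ u, u ∉ Set.Icc (0 : Fin n → ℝ) 1 → X.ρ i₁ i₂ u = 0
  marg₁ : ∀ i₁ u, ∑ i₂, X.ρ i₁ i₂ u ≤ K * X.π₁ i₁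
  marg₂ : ∀ i₂ u, ∑ i₁, X.ρ i₁ i₂ u ≤ K * X.π₂ i₂
  mass : ENNReal.ofReal (1 / K) ≤ ∑ i₁, ∑ i₂, ∫⁻ u, ENNReal.ofReal (X.ρ i₁ i₂ u)
  close : ∀ i₁ i₂ u, X.ρ i₁ i₂ u ≠ 0 → |X.F₁ i₁ u - X.F₂ i₂ u| ≤ K / R
  gap : ∀ i₁ i₂ u, X.ρ i₁ i₂ u ≠ 0 → ∃ u' ∈ Set.Icc (0 : Fin n → ℝ) 1, 1 / K ≤ |X.F₁ i₁ u' - X.F₂ i₂ u'|

/-- the margin -/
def k3cTau (n : ℕ) (K : ℝ) : ℝ := 1 / (24 * ((n : ℝ) + 1) * K ^ 2)

/-- the size of the difference at the far point -/
def k3cM2 (n k p : ℕ) (K : ℝ) : ℝ := 1 / (2 * K * sh2K n k p K ((2 * k3cTau n K) ^ n / 2))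

/-- the length of the Taylor interval -/
def k3cDel (k p : ℕ) (K m : ℝ) : ℝ := m / (4 * K ^ 2 * (2 * ((k : ℝ) + 1)) ^ p)

/-- the lower bound of the jet -/
def k3cEta (k p : ℕ) (K m : ℝ) : ℝ := m * k3cDel k p K m ^ p / (2 * K * (2 * ((k : ℝ) + 1)) ^ p * ((p : ℝ) + 2))

/-- the total loss of the reduction to one variable -/
def k3cLoss (n k p : ℕ) (K : ℝ) : ℝ := 2 ^ (p + 3) * K + 1 / k3cEta k p K (k3cM2 n k p K)

/-- the set of base points whose translate by `v` is a far point of the pair -/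
def k3cFar {n : ℕ} {ι₁ ι₂ : Type} (X : K3cCfg n ι₁ ι₂) (m : ℝ) (v : Fin n → ℝ) (i₁ : ι₁) (i₂ : ι₂) : Set (Fin n → ℝ) :=
  {u | m < |X.F₁ i₁ (u + v) - X.F₂ i₂ (u + v)|}

theorem k3c_match_eqns_cite : True := by
  have := @k3cSmB.eq_1
  have := @k3cDer.eq_1
  have := @k3cTau.eq_1
  have := @k3cM2.eq_1
  have := @k3cDel.eq_1
  have := @k3cEta.eq_1
  have := @k3cLoss.eq_1
  have := @k3cFar.eq_1
  trivial

end

end Claimed.Agent.R252

end PkS3cMatchDefs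

section PkS3cRadMvContract

/-!
# ROW 252 (S0492), unit S3c (sub-architect helper172), file 5: CLASSES OF FUNCTIONS OF SEVERAL VARIABLES ALL OF WHOSE DIFFERENCES ARE GOOD; TENSOR GRIDS.   CONTRACT   -- KEEP

PAPER-FREE.  Prefix `k3c_` / `k3c` / `K3c`.  The `sorry`s are the leaves `L-252-S3c-V*`: prove IN PLACE, statement verbatim, helpers directly above.  Earlier statements (also of the imported files) may be cited even if still `sorry`.
* `k3cGood` = NODE form of goodness on a box (`sh2Good` is the MEASURE form; bridge `k3c_good_meas`).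
* `k3c_two_node`, `k3c_two_good` : `sh2_val m₁ α β₁ D₁ + sh2_val m₂ 0 β₂ D₂` (TWO radicals) is good on every box where both discriminants are stable.
* `k3c_poly_good`  : polynomials.
* `k3c_grid`       : a good function is controlled by its values on the tensor grid with `k + 1` nodes per axis ("NODE": sup over the box `≤ Λ^n` max over the grid).
* `k3cShC n d m kap a b` : THE CLASS OF STABLE SHEETS on the box: measurable functions which coincide near the box with some `α + β √D / D^m`, degrees `≤ d`, `D` stable with constant `kap`;   `k3c_class_sheet`: it is a `K3cClass`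
  (so `k3c_match` = 03 Cor 3.4 applies to it), `k3c_sheet_node2` (NODE2), `k3c_sheet_remez` (03 (a02:remez) for differences of two sheets).      `k3cPolC n d`, `k3c_class_poly`: polynomial graphs.
-/

set_option autoImplicit false

namespace Claimed.Agent.R252

open Polynomial MeasureTheory

noncomputable section

/-! ## 1. Goodness in several variables      (LEAF L-252-S3c-V1) -/

/-- **good functions on a box, NODE form** (`sh2Good` of `Sheet/Defs` is the MEASURE form; the node form is stronger: `k3c_good_meas`) -/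
def k3cGood {n : ℕ} (k p q : ℕ) (C : ℝ) (a b : Fin n → ℝ) (F : (Fin n → ℝ) → ℝ) : Prop :=
  ∀ x v : Fin n → ℝ, (∀ s ∈ Set.Icc (-1 : ℝ) 1, x + s • v ∈ Set.Icc a b) → k3cGood1 k p q C fun s : ℝ => F (x + s • v)

/-- the bridge (`k3c_good1_meas` on every segment) -/
theorem k3c_good_meas {n k p q : ℕ} {C : ℝ} {a b : Fin n → ℝ} {F : (Fin n → ℝ) → ℝ} (hF : k3cGood k p q C a b F) : sh2Good k p q C a b F :=
  fun x v hseg => k3c_good1_meas (hF x v hseg)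

/-- functions which coincide on an open neighbourhood of the box (`k3c_good1_congr` with the open set `(fun s => x + s • v) ⁻¹' U`) -/
theorem k3c_good_congr {n k p q : ℕ} {C : ℝ} {a b : Fin n → ℝ} {U : Set (Fin n → ℝ)} (hU : IsOpen U) (hI : Set.Icc a b ⊆ U) {F G : (Fin n → ℝ) → ℝ}
    (hFG : ∀ u ∈ U, F u = G u) (hF : k3cGood k p q C a b F) : k3cGood k p q C a b G := by
  intro x v hseg
  have hcont : Continuous fun s : ℝ => x + s • v := by fun_prop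
  exact k3c_good1_congr (U := (fun s : ℝ => x + s • v) ⁻¹' U) (hU.preimage hcont) (fun s hs => hI (hseg s hs))
    (fun s hs => hFG _ hs) (hF x v hseg)

/-- (`k3c_good1_mono_k`, `k3c_good1_mono_p`, `k3c_good1_mono`) -/
theorem k3c_good_mono {n k k' p p' q q' : ℕ} {C C' : ℝ} {a b : Fin n → ℝ} {F : (Fin n → ℝ) → ℝ} (hk1 : 1 ≤ k) (hk : k ≤ k') (hp : p ≤ p') (hq : q' ≤ q) (hC0 : 0 ≤ C)
    (hC : 2 ^ (p' - p) * C ≤ C') (hF : k3cGood k p q C a b F) : k3cGood k' p' q' C' a b F := by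
  intro x v hseg
  exact k3c_good1_mono hq hC (k3c_good1_mono_k hk (k3c_good1_mono_p hk1 hp hC0 (hF x v hseg)))

/-- **TWO RADICALS in several variables, NODE form** (constants of `k3c_two_node1 d q m₁ m₂`; `sh2_val_line` twice; the polynomial part of the second summand is the restriction of `0`; `funext`) -/
theorem k3c_two_node (d q m₁ m₂ : ℕ) : ∃ (k p : ℕ) (C : ℝ), 1 ≤ C ∧
    ∀ (n : ℕ) (kap : ℝ) (α β₁ β₂ D₁ D₂ : MvPolynomial (Fin n) ℝ) (a b : Fin n → ℝ), 1 ≤ kap → α.totalDegree ≤ d → β₁.totalDegree ≤ d → β₂.totalDegree ≤ d →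
      D₁.totalDegree ≤ d → D₂.totalDegree ≤ d → sh2Stable kap D₁ a b → sh2Stable kap D₂ a b →
      k3cGood k p q (C * kap ^ p) a b fun u => sh2_val m₁ α β₁ D₁ u + sh2_val m₂ 0 β₂ D₂ u := by
  obtain ⟨k, p, C, hC, h⟩ := k3c_two_node1 d q m₁ m₂
  refine ⟨k, p, C, hC, ?_⟩
  intro n kap α β₁ β₂ D₁ D₂ a b hkap hα hβ₁ hβ₂ hD₁ hD₂ hst₁ hst₂ x v hseg
  obtain ⟨A, B₁, Dl₁, hA, hB₁, hDl₁, e1, e2⟩ := sh2_val_line m₁ α β₁ D₁ x v
  obtain ⟨A₂, B₂, Dl₂, hA₂, hB₂, hDl₂, e3, e4⟩ := sh2_val_line m₂ 0 β₂ D₂ x v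
  obtain ⟨E₁, h1, hst₁⟩ := hst₁
  obtain ⟨E₂, h2, hst₂⟩ := hst₂
  have hAA : (A + A₂).natDegree ≤ d := by
    refine (natDegree_add_le _ _).trans (max_le (hA.trans hα) (hA₂.trans ?_))
    simp
  have := h kap (A + A₂) B₁ B₂ Dl₁ Dl₂ E₁ E₂ hkap hAA (hB₁.trans hβ₁) (hB₂.trans hβ₂) (hDl₁.trans hD₁) (hDl₂.trans hD₂) h1 h2
    (fun t ht => by rw [← e1 t]; exact hst₁ _ (hseg t ht)) (fun t ht => by rw [← e3 t]; exact hst₂ _ (hseg t ht))
  have e5 : (fun s : ℝ => sh2_val m₁ α β₁ D₁ (x + s • v) + sh2_val m₂ 0 β₂ D₂ (x + s • v)) = fun t : ℝ =>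
      (A + A₂).eval t + B₁.eval t * Real.sqrt (Dl₁.eval t) / Dl₁.eval t ^ m₁ + B₂.eval t * Real.sqrt (Dl₂.eval t) / Dl₂.eval t ^ m₂ := by
    funext s
    rw [e2, e4, eval_add]
    ring
  rw [e5]
  exact this

/-- **TWO RADICALS in several variables** (measure form) -/
theorem k3c_two_good (d q m₁ m₂ : ℕ) : ∃ (k p : ℕ) (C : ℝ), 1 ≤ C ∧
    ∀ (n : ℕ) (kap : ℝ) (α β₁ β₂ D₁ D₂ : MvPolynomial (Fin n) ℝ) (a b : Fin n → ℝ), 1 ≤ kap → α.totalDegree ≤ d → β₁.totalDegree ≤ d → β₂.totalDegree ≤ d →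
      D₁.totalDegree ≤ d → D₂.totalDegree ≤ d → sh2Stable kap D₁ a b → sh2Stable kap D₂ a b →
      sh2Good k p q (C * kap ^ p) a b fun u => sh2_val m₁ α β₁ D₁ u + sh2_val m₂ 0 β₂ D₂ u := by
  obtain ⟨k, p, C, hC, h⟩ := k3c_two_node d q m₁ m₂
  exact ⟨k, p, C, hC, fun n kap α β₁ β₂ D₁ D₂ a b h1 h2 h3 h4 h5 h6 h7 h8 => k3c_good_meas (h n kap α β₁ β₂ D₁ D₂ a b h1 h2 h3 h4 h5 h6 h7 h8)⟩

/-- **polynomials, NODE form** (`k3c_poly_good1 d q`, `rmz_line`) -/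
theorem k3c_poly_node (d q : ℕ) : ∃ C : ℝ, 1 ≤ C ∧ ∀ (n : ℕ) (P : MvPolynomial (Fin n) ℝ) (a b : Fin n → ℝ), P.totalDegree ≤ d →
    k3cGood d d q C a b fun u => MvPolynomial.eval u P := by
  obtain ⟨C, hC, h⟩ := k3c_poly_good1 d q
  refine ⟨C, hC, ?_⟩
  intro n P a b hP x v _
  obtain ⟨p, hp, hp'⟩ := rmz_line n P x v
  have e : (fun s : ℝ => MvPolynomial.eval (x + s • v) P) = fun t : ℝ => p.eval t := by
    funext s
    rw [← hp' s]
    congr 1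
  rw [e]
  exact h p (hp.trans hP)

/-- **polynomials** (measure form) -/
theorem k3c_poly_good (d q : ℕ) : ∃ C : ℝ, 1 ≤ C ∧ ∀ (n : ℕ) (P : MvPolynomial (Fin n) ℝ) (a b : Fin n → ℝ), P.totalDegree ≤ d →
    sh2Good d d q C a b fun u => MvPolynomial.eval u P := by
  obtain ⟨C, hC, h⟩ := k3c_poly_node d q
  exact ⟨C, hC, fun n P a b hP => k3c_good_meas (h n P a b hP)⟩

/-! ## 2. Tensor grids      (LEAF L-252-S3c-V2) -/

/-- the tensor grid with `k + 1` nodes per axis -/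
def k3cGrid {n : ℕ} (k : ℕ) (a b : Fin n → ℝ) (g : Fin n → Fin (k + 1)) : Fin n → ℝ := fun i => a i + (b i - a i) * ((g i : ℕ) : ℝ) / k

/-- **NODE: the values on the tensor grid control a good function (NODE form `k3cGood`) on the box.**
PLAN.  `Λ = C (k/2)^p`.   By `Finset.induction_on J`: for all `u` with `u i ∈ Icc (a i) (b i)` for `i ∈ J` and `u i = k3cGrid k a b g i` for some `g` for `i ∉ J`:  `|F u| ≤ Λ^(J.card) η`.
Step (`insert i J`): `x = Function.update u i ((a i + b i)/2)`, `v = Pi.single i ((b i - a i)/2)`; the segment `x + s • v` lies in the box;  nodes `s_l = -1 + 2 l / k`, `l : Fin (k+1)`, `2/k`-separated, `x + s_l • v = Function.update u i (a i + (b i - a i) l / k)`: there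
the induction hypothesis gives `≤ Λ^(J.card) η`;  `hF x v _ s (2/k) _ .. 0 le_rfl t ht` with `t = (2 u i - a i - b i)/(b i - a i)` (`iteratedDeriv_zero`, `(2/k)⁻¹ = k/2`). -/
theorem k3c_grid {n : ℕ} (k p : ℕ) (hk : 1 ≤ k) (C : ℝ) (a b : Fin n → ℝ) (hab : ∀ i, a i < b i) (F : (Fin n → ℝ) → ℝ) (hF : k3cGood k p 0 C a b F) (η : ℝ)
    (hη : ∀ g : Fin n → Fin (k + 1), |F (k3cGrid k a b g)| ≤ η) : ∀ u ∈ Set.Icc a b, |F u| ≤ (C * ((k : ℝ) / 2) ^ p) ^ n * η := by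
  classical
  have hk0 : (0 : ℝ) < k := by exact_mod_cast hk
  have hgb : ∀ (l : Fin (k + 1)) (i : Fin n), a i + (b i - a i) * ((l : ℕ) : ℝ) / k ∈ Set.Icc (a i) (b i) := by
    intro l i
    have h1 : (0 : ℝ) ≤ ((l : ℕ) : ℝ) / k := by positivity
    have h2 : ((l : ℕ) : ℝ) / k ≤ 1 := by
      rw [div_le_one hk0]; exact_mod_cast Nat.lt_succ_iff.1 l.2
    have h3 : 0 < b i - a i := sub_pos.2 (hab i)
    rw [mul_div_assoc]
    constructor
    · nlinarith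
    · nlinarith
  have main : ∀ J : Finset (Fin n), ∀ u : Fin n → ℝ, (∀ i ∈ J, u i ∈ Set.Icc (a i) (b i)) →
      (∃ g : Fin n → Fin (k + 1), ∀ i ∉ J, u i = k3cGrid k a b g i) → |F u| ≤ (C * ((k : ℝ) / 2) ^ p) ^ J.card * η := by
    intro J
    induction J using Finset.induction_on with
    | empty =>
      rintro u - ⟨g, hg⟩
      have : u = k3cGrid k a b g := funext fun i => hg i (Finset.notMem_empty i)
      rw [this]
      simpa using hη g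
    | insert i J hi ih =>
      rintro u hu ⟨g, hg⟩
      have hubox : ∀ j, u j ∈ Set.Icc (a j) (b j) := by
        intro j
        by_cases hj : j ∈ insert i J
        · exact hu j hj
        · rw [hg j hj]; exact hgb (g j) j
      have hd : 0 < b i - a i := sub_pos.2 (hab i)
      obtain ⟨x, hx⟩ : ∃ x : Fin n → ℝ, x = Function.update u i ((a i + b i) / 2) := ⟨_, rfl⟩
      obtain ⟨v, hv⟩ : ∃ v : Fin n → ℝ, v = Pi.single i ((b i - a i) / 2) := ⟨_, rfl⟩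
      have hxv : ∀ s : ℝ, x + s • v = Function.update u i ((a i + b i) / 2 + s * ((b i - a i) / 2)) := by
        intro s
        funext j
        by_cases hj : j = i
        · subst hj
          simp [hx, hv]
        · simp [hx, hv, hj]
      have hseg : ∀ s ∈ Set.Icc (-1 : ℝ) 1, x + s • v ∈ Set.Icc a b := by
        intro s hs
        rw [hxv s, Set.mem_Icc, Pi.le_def, Pi.le_def]
        constructor
        · intro j
          by_cases hj : j = i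
          · subst hj
            rw [Function.update_self]
            nlinarith [hs.1, hs.2]
          · rw [Function.update_of_ne hj]; exact (hubox j).1
        · intro j
          by_cases hj : j = i
          · subst hj
            rw [Function.update_self]
            nlinarith [hs.1, hs.2]
          · rw [Function.update_of_ne hj]; exact (hubox j).2
      have hnode : ∀ l : Fin (k + 1), |F (x + (-1 + 2 * ((l : ℕ) : ℝ) / k) • v)| ≤ (C * ((k : ℝ) / 2) ^ p) ^ J.card * η := by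
        intro l
        rw [hxv]
        have e : (a i + b i) / 2 + (-1 + 2 * ((l : ℕ) : ℝ) / k) * ((b i - a i) / 2) = a i + (b i - a i) * ((l : ℕ) : ℝ) / k := by
          field_simp
          ring
        rw [e]
        refine ih _ ?_ ⟨Function.update g i l, ?_⟩
        · intro j hj
          have hji : j ≠ i := fun h => hi (h ▸ hj)
          rw [Function.update_of_ne hji]
          exact hubox j
        · intro j hj
          by_cases hji : j = i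
          · subst hji
            simp [k3cGrid]
          · rw [Function.update_of_ne hji, hg j (by simp [hji, hj])]
            simp [k3cGrid, hji]
      have hs1 : ∀ l : Fin (k + 1), |(-1 + 2 * ((l : ℕ) : ℝ) / k : ℝ)| ≤ 1 := by
        intro l
        have h1 : (0 : ℝ) ≤ ((l : ℕ) : ℝ) / k := by positivity
        have h2 : ((l : ℕ) : ℝ) / k ≤ 1 := by
          rw [div_le_one hk0]; exact_mod_cast Nat.lt_succ_iff.1 l.2
        rw [mul_div_assoc, abs_le]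
        constructor <;> linarith
      have hsep : ∀ l l' : Fin (k + 1), l ≠ l' → 2 / (k : ℝ) ≤ |(-1 + 2 * ((l : ℕ) : ℝ) / k) - (-1 + 2 * ((l' : ℕ) : ℝ) / k)| := by
        intro l l' hll
        have e : (-1 + 2 * ((l : ℕ) : ℝ) / k) - (-1 + 2 * ((l' : ℕ) : ℝ) / k) = 2 / (k : ℝ) * (((l : ℕ) : ℝ) - ((l' : ℕ) : ℝ)) := by
          field_simp
          ring
        rw [e, abs_mul, abs_of_pos (by positivity : (0 : ℝ) < 2 / (k : ℝ))]
        have h1 : (1 : ℝ) ≤ |((l : ℕ) : ℝ) - ((l' : ℕ) : ℝ)| := by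
          have hne : ((l : ℕ) : ℤ) - ((l' : ℕ) : ℤ) ≠ 0 := by
            intro h
            apply hll
            apply Fin.ext
            omega
          have := Int.one_le_abs hne
          have h2 : ((|((l : ℕ) : ℤ) - ((l' : ℕ) : ℤ)| : ℤ) : ℝ) = |((l : ℕ) : ℝ) - ((l' : ℕ) : ℝ)| := by
            push_cast; rfl
          rw [← h2]
          exact_mod_cast this
        have h0 : (0 : ℝ) < 2 / (k : ℝ) := by positivity
        nlinarith
      obtain ⟨t, ht⟩ : ∃ t : ℝ, t = (2 * u i - a i - b i) / (b i - a i) := ⟨_, rfl⟩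
      have htm : t ∈ Set.Icc (-1 : ℝ) 1 := by
        rw [ht]
        constructor
        · rw [le_div_iff₀ hd]; linarith [(hubox i).1]
        · rw [div_le_iff₀ hd]; linarith [(hubox i).2]
      have hut : x + t • v = u := by
        rw [hxv]
        have e : (a i + b i) / 2 + t * ((b i - a i) / 2) = u i := by
          rw [ht]
          field_simp
          ring
        rw [e, Function.update_eq_self]
      have := hF x v hseg (fun l : Fin (k + 1) => -1 + 2 * ((l : ℕ) : ℝ) / k) (2 / (k : ℝ)) _ (by positivity) hs1 hsep hnode 0 le_rfl t htm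
      rw [iteratedDeriv_zero, hut, inv_div] at this
      rw [Finset.card_insert_of_notMem hi, pow_succ]
      calc |F u| ≤ _ := this
        _ = _ := by ring
  intro u hu
  have := main Finset.univ u (fun i _ => ⟨hu.1 i, hu.2 i⟩) ⟨fun _ => 0, fun i hi => absurd (Finset.mem_univ i) hi⟩
  rwa [Finset.card_univ, Fintype.card_fin] at this

/-! ## 3. The classes      (LEAF L-252-S3c-V3) -/

/-- **the class of stable sheets on a box** -/
def k3cShC (n d m : ℕ) (kap : ℝ) (a b : Fin n → ℝ) : Set ((Fin n → ℝ) → ℝ) :=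
  {F | Measurable F ∧ ∃ (α β D : MvPolynomial (Fin n) ℝ) (U : Set (Fin n → ℝ)), α.totalDegree ≤ d ∧ β.totalDegree ≤ d ∧ D.totalDegree ≤ d ∧ sh2Stable kap D a b ∧
    IsOpen U ∧ Set.Icc a b ⊆ U ∧ ∀ u ∈ U, F u = sh2_val m α β D u}

/-- polynomial graphs -/
def k3cPolC (n d : ℕ) : Set ((Fin n → ℝ) → ℝ) := {F | ∃ P : MvPolynomial (Fin n) ℝ, P.totalDegree ≤ d ∧ ∀ u, F u = MvPolynomial.eval u P}

theorem k3c_radmv_eqns_cite : True := by
  have := @k3cGood.eq_1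
  have := @k3cGrid.eq_1
  have := @k3cShC.eq_1
  have := @k3cPolC.eq_1
  trivial

/-- the difference of two members of the class is good (NODE form).
PLAN.  On `U ∩ U'` (open, `⊇` box): `F - G = sh2_val m (α - α') β D + sh2_val m 0 (-β') D'` (unfold `sh2_val`, `map_sub`, `map_neg`, `map_zero`, `ring`); `MvPolynomial.totalDegree_sub`, `totalDegree_neg`;  `k3c_two_node d q m m`, `k3c_good_congr`;
`1 ≤ k` by `k3c_good1_mono_k` (replace `k` by `k + 1`). -/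
theorem k3c_sheet_diff_node (d q m : ℕ) : ∃ (k p : ℕ) (C : ℝ), 1 ≤ k ∧ 1 ≤ C ∧ ∀ (n : ℕ) (kap : ℝ) (a b : Fin n → ℝ), 1 ≤ kap →
    ∀ F ∈ k3cShC n d m kap a b, ∀ G ∈ k3cShC n d m kap a b, k3cGood k p q (C * kap ^ p) a b fun u => F u - G u := by
  obtain ⟨k, p, C, hC, h⟩ := k3c_two_node d q m m
  refine ⟨k + 1, p, C, Nat.le_add_left _ _, hC, ?_⟩
  intro n kap a b hkap F hF G hG
  obtain ⟨-, α, β, D, U, hα, hβ, hD, hst, hU, hI, hFe⟩ := hF
  obtain ⟨-, α', β', D', U', hα', hβ', hD', hst', hU', hI', hGe⟩ := hG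
  have h1 := h n kap (α - α') β (-β') D D' a b hkap ((MvPolynomial.totalDegree_sub _ _).trans (max_le hα hα')) hβ
    (by rw [MvPolynomial.totalDegree_neg]; exact hβ') hD hD' hst hst'
  have h2 : k3cGood k p q (C * kap ^ p) a b fun u => F u - G u := by
    refine k3c_good_congr (hU.inter hU') (Set.subset_inter hI hI') (fun u hu => ?_) h1
    rw [hFe u hu.1, hGe u hu.2]
    unfold sh2_val
    rw [map_sub, map_neg, map_zero]
    ring
  exact fun x v hseg => k3c_good1_mono_k (Nat.le_succ k) (h2 x v hseg)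

/-- the difference of two members of the class is good (measure form) -/
theorem k3c_sheet_diff_good (d q m : ℕ) : ∃ (k p : ℕ) (C : ℝ), 1 ≤ k ∧ 1 ≤ C ∧ ∀ (n : ℕ) (kap : ℝ) (a b : Fin n → ℝ), 1 ≤ kap →
    ∀ F ∈ k3cShC n d m kap a b, ∀ G ∈ k3cShC n d m kap a b, sh2Good k p q (C * kap ^ p) a b fun u => F u - G u := by
  obtain ⟨k, p, C, hk, hC, h⟩ := k3c_sheet_diff_node d q m
  exact ⟨k, p, C, hk, hC, fun n kap a b hkap F hF G hG => k3c_good_meas (h n kap a b hkap F hF G hG)⟩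

/-- members of the class are smooth on the box (`sh2_val_contDiffOn`, `sh2_pos_isOpen`, `sh2_stable_pos`; `ContDiffAt.congr_of_eventuallyEq`) -/
theorem k3c_sheet_smB (n d m : ℕ) (kap : ℝ) (hkap : 1 ≤ kap) (a b : Fin n → ℝ) : ∀ F ∈ k3cShC n d m kap a b, k3cSmB a b F := by
  intro F hF u hu N
  obtain ⟨-, α, β, D, U, -, -, -, hst, hU, hI, hFe⟩ := hF
  have h1 : ContDiffAt ℝ (N : WithTop ℕ∞) (sh2_val m α β D) u :=
    (sh2_val_contDiffOn m α β D N).contDiffAt ((sh2_pos_isOpen D).mem_nhds (sh2_stable_pos hkap hst hu))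
  refine h1.congr_of_eventuallyEq ?_
  filter_upwards [hU.mem_nhds (hI hu)] with w hw using hFe w hw

/-- **the stable sheets are a `K3cClass`.**   PLAN: `(k₀, p₀, C₀)` from `k3c_sheet_diff_good d 0 m`, then `(k₁, p₁, C₁)` from `k3c_sheet_diff_good d (p₀ + 3) m`;  `c = max p₀ p₁`, `C = max C₀ C₁`; `sh2_good1_mono` (raise the constant). -/
theorem k3c_class_sheet (d m : ℕ) : ∃ (k₀ p₀ k₁ p₁ c : ℕ) (C : ℝ), 1 ≤ k₀ ∧ 1 ≤ C ∧ ∀ (n : ℕ) (kap : ℝ) (a b : Fin n → ℝ), 1 ≤ kap →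
    K3cClass k₀ p₀ k₁ p₁ (p₀ + 3) (C * kap ^ c) a b (k3cShC n d m kap a b) := by
  obtain ⟨k₀, p₀, C₀, hk₀, hC₀, h₀⟩ := k3c_sheet_diff_good d 0 m
  obtain ⟨k₁, p₁, C₁, -, hC₁, h₁⟩ := k3c_sheet_diff_good d (p₀ + 3) m
  refine ⟨k₀, p₀, k₁, p₁, max p₀ p₁, max C₀ C₁, hk₀, hC₀.trans (le_max_left _ _), ?_⟩
  intro n kap a b hkap
  have hC0 : (0 : ℝ) ≤ max C₀ C₁ := zero_le_one.trans (hC₀.trans (le_max_left _ _))
  have e₀ : C₀ * kap ^ p₀ ≤ max C₀ C₁ * kap ^ (max p₀ p₁) :=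
    mul_le_mul (le_max_left _ _) (pow_le_pow_right₀ hkap (le_max_left _ _)) (by positivity) hC0
  have e₁ : C₁ * kap ^ p₁ ≤ max C₀ C₁ * kap ^ (max p₀ p₁) :=
    mul_le_mul (le_max_right _ _) (pow_le_pow_right₀ hkap (le_max_right _ _)) (by positivity) hC0
  exact ⟨fun F hF => hF.1, k3c_sheet_smB n d m kap hkap a b,
    fun F hF G hG x v hseg => sh2_good1_mono le_rfl e₀ (h₀ n kap a b hkap F hF G hG x v hseg),
    fun F hF G hG x v hseg => sh2_good1_mono le_rfl e₁ (h₁ n kap a b hkap F hF G hG x v hseg)⟩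

/-- **polynomial graphs are a `K3cClass`** (`k3c_poly_good d 0`, `k3c_poly_good d (d + 3)`, `sh2_eval_contDiff`; the difference of two polynomials is a polynomial) -/
theorem k3c_class_poly (d : ℕ) : ∃ C : ℝ, 1 ≤ C ∧ ∀ (n : ℕ) (a b : Fin n → ℝ), K3cClass d d d d (d + 3) C a b (k3cPolC n d) := by
  obtain ⟨C₀, hC₀, h₀⟩ := k3c_poly_good d 0
  obtain ⟨C₁, hC₁, h₁⟩ := k3c_poly_good d (d + 3)
  refine ⟨max C₀ C₁, hC₀.trans (le_max_left _ _), ?_⟩
  intro n a b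
  have hfun : ∀ F ∈ k3cPolC n d, ∃ P : MvPolynomial (Fin n) ℝ, P.totalDegree ≤ d ∧ F = fun u => MvPolynomial.eval u P := by
    intro F hF
    obtain ⟨P, hP, hF⟩ := hF
    exact ⟨P, hP, funext hF⟩
  have hdiff : ∀ F ∈ k3cPolC n d, ∀ G ∈ k3cPolC n d, ∃ P : MvPolynomial (Fin n) ℝ, P.totalDegree ≤ d ∧
      (fun u => F u - G u) = fun u => MvPolynomial.eval u P := by
    intro F hF G hG
    obtain ⟨P, hP, rfl⟩ := hfun F hF
    obtain ⟨P', hP', rfl⟩ := hfun G hG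
    exact ⟨P - P', (MvPolynomial.totalDegree_sub _ _).trans (max_le hP hP'), by funext u; rw [map_sub]⟩
  refine ⟨fun F hF => ?_, fun F hF u _ N => ?_, fun F hF G hG x v hseg => ?_, fun F hF G hG x v hseg => ?_⟩
  · obtain ⟨P, -, rfl⟩ := hfun F hF
    exact (sh2_eval_contDiff P 0).continuous.measurable
  · obtain ⟨P, -, rfl⟩ := hfun F hF
    exact (sh2_eval_contDiff P N).contDiffAt
  · obtain ⟨P, hP, e⟩ := hdiff F hF G hG
    have := sh2_good1_mono le_rfl (le_max_left C₀ C₁) (h₀ n P a b hP x v hseg)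
    have e' : (fun s : ℝ => F (x + s • v) - G (x + s • v)) = fun s : ℝ => MvPolynomial.eval (x + s • v) P := by
      funext s; exact congrFun e (x + s • v)
    rw [e']
    exact this
  · obtain ⟨P, hP, e⟩ := hdiff F hF G hG
    have := sh2_good1_mono le_rfl (le_max_right C₀ C₁) (h₁ n P a b hP x v hseg)
    have e' : (fun s : ℝ => F (x + s • v) - G (x + s • v)) = fun s : ℝ => MvPolynomial.eval (x + s • v) P := by
      funext s; exact congrFun e (x + s • v)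
    rw [e']
    exact this

/-! ## 4. Exits for differences of two sheets      (LEAF L-252-S3c-V4) -/

/-- **NODE2**: the difference of two stable sheets is controlled by its values on a tensor grid (`k3c_sheet_diff_node d 0 m`, `k3c_grid`;  `c = p n`-type exponent: state with `Λ = (C kap^p (k/2)^p)^n`, bounded by `C' kap^c` for fixed `n`). -/
theorem k3c_sheet_node2 (n d m : ℕ) : ∃ (k c : ℕ) (C : ℝ), 1 ≤ k ∧ 1 ≤ C ∧ ∀ (kap : ℝ) (a b : Fin n → ℝ), 1 ≤ kap → (∀ i, a i < b i) →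
    ∀ F ∈ k3cShC n d m kap a b, ∀ G ∈ k3cShC n d m kap a b, ∀ η : ℝ, (∀ g : Fin n → Fin (k + 1), |F (k3cGrid k a b g) - G (k3cGrid k a b g)| ≤ η) →
      ∀ u ∈ Set.Icc a b, |F u - G u| ≤ C * kap ^ c * η := by
  obtain ⟨k, p, C, hk, hC, h⟩ := k3c_sheet_diff_node d 0 m
  have hk1 : (1 : ℝ) ≤ (k : ℝ) := by exact_mod_cast hk
  have hCk : 1 ≤ C * (k : ℝ) ^ p := by
    have : (1 : ℝ) ≤ (k : ℝ) ^ p := one_le_pow₀ hk1
    nlinarith
  refine ⟨k, p * n, (C * (k : ℝ) ^ p) ^ n, hk, one_le_pow₀ hCk, ?_⟩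
  intro kap a b hkap hab F hF G hG η hη u hu
  have hη0 : 0 ≤ η := (abs_nonneg _).trans (hη fun _ => 0)
  have h1 := k3c_grid k p hk (C * kap ^ p) a b hab (fun u => F u - G u) (h n kap a b hkap F hF G hG) η hη u hu
  refine h1.trans (mul_le_mul_of_nonneg_right ?_ hη0)
  have e : (C * (k : ℝ) ^ p) ^ n * kap ^ (p * n) = (C * kap ^ p * (k : ℝ) ^ p) ^ n := by
    rw [pow_mul, ← mul_pow]; ring
  rw [e]
  have hC0 : 0 ≤ C := zero_le_one.trans hC
  have hkap0 : 0 ≤ kap := zero_le_one.trans hkap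
  apply pow_le_pow_left₀ (by positivity)
  apply mul_le_mul_of_nonneg_left _ (by positivity)
  apply pow_le_pow_left₀ (by positivity)
  linarith

/-- **REMEZ for the difference of two stable sheets** (`k3c_sheet_diff_good d q m`, `sh2_exit`) -/
theorem k3c_sheet_remez (n d q m : ℕ) : ∃ (p : ℕ) (C : ℝ), 1 ≤ C ∧ ∀ (kap : ℝ) (a b : Fin n → ℝ) (θ M : ℝ) (E : Set (Fin n → ℝ)), 1 ≤ kap → (∀ i, a i < b i) →
    ∀ F ∈ k3cShC n d m kap a b, ∀ G ∈ k3cShC n d m kap a b, 0 < θ → θ ≤ 1 → E ⊆ Set.Icc a b → ENNReal.ofReal θ * volume (Set.Icc a b) ≤ volume E →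
      (∀ x ∈ E, |F x - G x| ≤ M) → sh2Bd q a b (fun u => F u - G u) (C * (kap / θ) ^ p * M) := by
  obtain ⟨k, p, C, -, hC, h⟩ := k3c_sheet_diff_good d q m
  obtain ⟨p', C', hC', h'⟩ := sh2_exit n k p q C hC
  refine ⟨p', C', hC', ?_⟩
  intro kap a b θ M E hkap hab F hF G hG hθ hθ1 hE hvol hM
  exact h' kap a b _ θ M E hkap hab (hF.1.sub hG.1) (h n kap a b hkap F hF G hG) hθ hθ1 hE hvol hM

end

end Claimed.Agent.R252

end PkS3cRadMvContract
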